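import Vale.Agent.P156.B.Switch

/-!
P156, Part B: stars, independent stars, disjointness, exchangeability of the leads.
-/

namespace Vale.Agent.P156.B

open Finset

section Star

variable {V : Type*} [Fintype V] [DecidableEq V] {d : ℕ} {G : SimpleGraph V}

open Classical in
/-- The orderings of the neighbourhood of `v`. -/
noncomputable def ords (d : ℕ) (G : SimpleGraph V) (v : V) : Finset (Fin d → V) :=
  univ.filter fun l => Function.Injective l ∧ ∀ k, G.Adj v (l k)

open Classical in
/-- The stars of `G`: a centre and an ordering of its neighbours. -/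
noncomputable def stars (d : ℕ) (G : SimpleGraph V) : Finset (V × (Fin d → V)) :=
  univ.filter fun t => Function.Injective t.2 ∧ ∀ k, G.Adj t.1 (t.2 k)

lemma mem_ords {v : V} {l : Fin d → V} :
    l ∈ ords d G v ↔ Function.Injective l ∧ ∀ k, G.Adj v (l k) := by
  simp [ords]

lemma mem_stars {t : V × (Fin d → V)} :
    t ∈ stars d G ↔ Function.Injective t.2 ∧ ∀ k, G.Adj t.1 (t.2 k) := by
  simp [stars]

omit [Fintype V] [DecidableEq V] in
/-- In a regular graph the leads of a star are all neighbours of the centre. -/
lemma range_eq_neighborSet [Finite V] (hG : Reg d G) {v : V} {l : Fin d → V}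
    (hl : Function.Injective l) (hv : ∀ k, G.Adj v (l k)) : Set.range l = G.neighborSet v := by
  apply Set.eq_of_subset_of_ncard_le
  · rintro _ ⟨k, rfl⟩
    exact hv k
  · rw [hG, ← Set.image_univ, Set.ncard_image_of_injective _ hl, Set.ncard_univ]
    simp
  · exact Set.toFinite _

lemma card_ords (hG : Reg d G) (v : V) : (ords d G v).card = d.factorial := by
  classical
  have e : {l // l ∈ ords d G v} ≃ (Fin d ↪ G.neighborSet v) :=
    { toFun := fun l => ⟨fun k => ⟨l.1 k, (mem_ords.1 l.2).2 k⟩, fun a b hab =>
        (mem_ords.1 l.2).1 (congrArg Subtype.val hab)⟩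
      invFun := fun l => ⟨fun k => (l k).1, mem_ords.2 ⟨fun a b hab =>
        l.injective (Subtype.ext hab), fun k => (l k).2⟩⟩
      left_inv := fun l => rfl
      right_inv := fun l => rfl }
  rw [← Fintype.card_coe, Fintype.card_congr e, Fintype.card_embedding_eq, Fintype.card_fin]
  have : Fintype.card (G.neighborSet v) = d := by
    rw [← hG v, Set.ncard_eq_toFinset_card', Set.toFinset_card]
  rw [this, Nat.descFactorial_self]

/-- Every neighbour is equally likely to be the `k`-th one. -/
lemma card_ords_filter (hG : Reg d G) {v w : V} (hvw : G.Adj v w) (k : Fin d) :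
    d * ((ords d G v).filter fun l => l k = w).card = d.factorial := by
  classical
  have h1 : ∀ k' : Fin d, ((ords d G v).filter fun l => l k' = w).card =
      ((ords d G v).filter fun l => l k = w).card := by
    intro k'
    refine Finset.card_nbij' (fun l => l ∘ Equiv.swap k k') (fun l => l ∘ Equiv.swap k k') ?_ ?_
      ?_ ?_
    · intro l hl
      rw [mem_coe, mem_filter, mem_ords] at hl ⊢
      refine ⟨⟨hl.1.1.comp (Equiv.injective _), fun j => hl.1.2 _⟩, ?_⟩
      simp [hl.2]
    · intro l hl
      rw [mem_coe, mem_filter, mem_ords] at hl ⊢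
      refine ⟨⟨hl.1.1.comp (Equiv.injective _), fun j => hl.1.2 _⟩, ?_⟩
      simp [hl.2]
    · intro l _
      funext j
      simp
    · intro l _
      funext j
      simp
  have h2 : ∑ k' : Fin d, ((ords d G v).filter fun l => l k' = w).card = (ords d G v).card := by
    simp only [Finset.card_filter]
    rw [Finset.sum_comm, Finset.card_eq_sum_ones]
    refine Finset.sum_congr rfl fun l hl => ?_
    rw [mem_ords] at hl
    have hw : w ∈ Set.range l := by
      rw [range_eq_neighborSet hG hl.1 hl.2]
      exact hvw
    obtain ⟨k₀, hk₀⟩ := hw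
    rw [Finset.sum_eq_single k₀]
    · simp [hk₀]
    · intro b _ hb
      rw [if_neg]
      intro h
      exact hb (hl.1 (h.trans hk₀.symm))
    · simp
  rw [Finset.sum_congr rfl fun k' _ => h1 k', Finset.sum_const, card_ords hG, Finset.card_univ,
    Fintype.card_fin, smul_eq_mul] at h2
  exact h2

lemma sum_stars (f : V × (Fin d → V) → ℝ) :
    ∑ t ∈ stars d G, f t = ∑ v, ∑ l ∈ ords d G v, f (v, l) := by
  classical
  rw [stars, Finset.sum_filter, Fintype.sum_prod_type]
  refine Finset.sum_congr rfl fun v _ => ?_
  rw [ords, Finset.sum_filter]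

lemma sum_stars_center (hG : Reg d G) (f : V → ℝ) :
    ∑ t ∈ stars d G, f t.1 = d.factorial * ∑ v, f v := by
  rw [sum_stars (fun t => f t.1), Finset.mul_sum]
  refine Finset.sum_congr rfl fun v _ => ?_
  simp only [Finset.sum_const, card_ords hG, nsmul_eq_mul]

lemma card_stars (hG : Reg d G) : ((stars d G).card : ℝ) = d.factorial * Fintype.card V := by
  have := sum_stars_center hG (fun _ => 1)
  simpa using this

open Classical in
/-- The sum over the directed edges. -/
noncomputable def esum (G : SimpleGraph V) (f : V → V → ℝ) : ℝ :=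
  ∑ v, ∑ w, if G.Adj v w then f v w else 0

omit [DecidableEq V] in
lemma esum_swap (G : SimpleGraph V) (f : V → V → ℝ) : esum G (fun v w => f w v) = esum G f := by
  classical
  rw [esum, esum, Finset.sum_comm]
  refine Finset.sum_congr rfl fun v _ => Finset.sum_congr rfl fun w _ => ?_
  simp only [G.adj_comm]

/-- A directed edge, from the centre of a star to its `k`-th lead. -/
lemma sum_stars_edge (hG : Reg d G) (k : Fin d) (f : V → V → ℝ) :
    d * ∑ t ∈ stars d G, f t.1 (t.2 k) = d.factorial * esum G f := by
  classical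
  rw [sum_stars (fun t => f t.1 (t.2 k)), esum, Finset.mul_sum, Finset.mul_sum]
  refine Finset.sum_congr rfl fun v _ => ?_
  have h1 : ∑ l ∈ ords d G v, f v (l k) =
      ∑ w, ((ords d G v).filter fun l => l k = w).card * f v w := by
    rw [← Finset.sum_fiberwise (ords d G v) (fun l => l k)]
    refine Finset.sum_congr rfl fun w _ => ?_
    rw [← nsmul_eq_mul, ← Finset.sum_const]
    refine Finset.sum_congr rfl fun l hl => ?_
    rw [(mem_filter.1 hl).2]
  rw [h1, Finset.mul_sum, Finset.mul_sum]
  refine Finset.sum_congr rfl fun w _ => ?_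
  split_ifs with h
  · rw [← card_ords_filter hG h k]
    push_cast
    ring
  · have : (ords d G v).filter (fun l => l k = w) = ∅ := by
      rw [Finset.filter_eq_empty_iff]
      intro l hl hlk
      rw [mem_ords] at hl
      exact h (hlk ▸ hl.2 k)
    rw [this]
    simp

lemma sum_stars_edge' (hG : Reg d G) (k : Fin d) (f : V → V → ℝ) :
    d * ∑ t ∈ stars d G, f (t.2 k) t.1 = d.factorial * esum G f := by
  rw [sum_stars_edge hG k fun v w => f w v, esum_swap]

lemma sum_stars_lead (hG : Reg d G) (k : Fin d) (f : V → ℝ) :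
    ∑ t ∈ stars d G, f (t.2 k) = d.factorial * ∑ v, f v := by
  classical
  have hd : (d : ℝ) ≠ 0 := by
    have := k.pos
    positivity
  have h := sum_stars_edge' hG k fun v _ => f v
  have h2 : esum G (fun v _ => f v) = d * ∑ v, f v := by
    rw [esum, Finset.mul_sum]
    refine Finset.sum_congr rfl fun v _ => ?_
    rw [← Finset.sum_filter, Finset.sum_const, nsmul_eq_mul]
    congr 2
    rw [← hG v, Set.ncard_eq_toFinset_card']
    congr 1
    ext w
    simp
  rw [h2] at h
  apply mul_left_cancel₀ hd
  rw [h]
  ring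

end Star

section Multi

variable {V : Type*} [Fintype V] [DecidableEq V] {d K : ℕ} {G : SimpleGraph V}

/-- `K` stars of `G`. -/
noncomputable def mstars (d K : ℕ) (G : SimpleGraph V) : Finset (Fin K → V × (Fin d → V)) :=
  Fintype.piFinset fun _ => stars d G

lemma mem_mstars {s : Fin K → V × (Fin d → V)} : s ∈ mstars d K G ↔ ∀ j, s j ∈ stars d G := by
  simp [mstars]

lemma card_mstars (hG : Reg d G) :
    ((mstars d K G).card : ℝ) = (d.factorial * Fintype.card V : ℝ) ^ K := by
  rw [mstars, Fintype.card_piFinset]
  simp [card_stars hG]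

/-- Resampling the star `j`. -/
lemma sum_resample (j : Fin K) (f : (Fin K → V × (Fin d → V)) → ℝ) :
    ∑ s ∈ mstars d K G, ∑ t ∈ stars d G, f (Function.update s j t) =
      (stars d G).card * ∑ s ∈ mstars d K G, f s := by
  classical
  have h1 : ∑ s ∈ mstars d K G, ∑ t ∈ stars d G, f (Function.update s j t) =
      ∑ p ∈ mstars d K G ×ˢ stars d G, f (Function.update p.1 j p.2) := by
    rw [Finset.sum_product]
  have h2 : (stars d G).card * ∑ s ∈ mstars d K G, f s =
      ∑ p ∈ mstars d K G ×ˢ stars d G, f p.1 := by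
    rw [Finset.sum_product, Finset.mul_sum]
    refine Finset.sum_congr rfl fun s _ => ?_
    simp only [Finset.sum_const, nsmul_eq_mul]
  rw [h1, h2]
  have hmem : ∀ p ∈ mstars d K G ×ˢ stars d G,
      (Function.update p.1 j p.2, p.1 j) ∈ mstars d K G ×ˢ stars d G := by
    intro p hp
    rw [Finset.mem_product, mem_mstars] at hp ⊢
    refine ⟨fun i => ?_, hp.1 j⟩
    by_cases hij : i = j
    · subst hij
      simpa using hp.2
    · simpa [Function.update_of_ne hij] using hp.1 i
  refine Finset.sum_nbij' (fun p => (Function.update p.1 j p.2, p.1 j))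
    (fun p => (Function.update p.1 j p.2, p.1 j)) hmem hmem ?_ ?_ ?_
  · intro p _
    ext1
    · simp
    · simp
  · intro p _
    ext1
    · simp
    · simp
  · intro p _
    rfl

/-- The centres of the stars. -/
def cen (s : Fin K → V × (Fin d → V)) : Fin K → V := fun j => (s j).1

/-- The leads of the stars. -/
def lead (s : Fin K → V × (Fin d → V)) : Fin K × Fin d → V := fun p => (s p.1).2 p.2

/-- All vertices of the stars are distinct. -/
def Good (s : Fin K → V × (Fin d → V)) : Prop := Function.Injective (Sum.elim (cen s) (lead s))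

/-- The vertex at a position of a star. -/
def pos (t : V × (Fin d → V)) : Option (Fin d) → V := fun o => o.elim t.1 t.2

lemma sum_stars_pos (hG : Reg d G) (o : Option (Fin d)) (f : V → ℝ) :
    ∑ t ∈ stars d G, f (pos t o) = d.factorial * ∑ v, f v := by
  rcases o with _ | k
  · exact sum_stars_center hG f
  · exact sum_stars_lead hG k f

open Classical in
/-- Two positions in two different stars coincide with probability `1 / n`. -/
lemma sum_coincide (hG : Reg d G) {i j : Fin K} (hij : i ≠ j) (o o' : Option (Fin d)) :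
    (Fintype.card V : ℝ) * ∑ s ∈ mstars d K G, (if pos (s i) o = pos (s j) o' then (1 : ℝ) else 0) =
      (mstars d K G).card := by
  by_cases hV : IsEmpty V
  · have : mstars d K G = ∅ := by
      rw [Finset.eq_empty_iff_forall_notMem]
      intro s hs
      exact hV.elim (s i).1
    rw [this]
    simp
  · rw [not_isEmpty_iff] at hV
    have hc : ((stars d G).card : ℝ) ≠ 0 := by
      rw [card_stars hG]
      have := Fintype.card_pos (α := V)
      positivity
    apply mul_left_cancel₀ hc
    have h1 := sum_resample (G := G) (d := d) (K := K) j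
      (fun s => if pos (s i) o = pos (s j) o' then (1 : ℝ) else 0)
    rw [mul_left_comm, ← h1, Finset.mul_sum]
    have h2 : ∀ s ∈ mstars d K G, (Fintype.card V : ℝ) * ∑ t ∈ stars d G,
        (if pos (Function.update s j t i) o = pos (Function.update s j t j) o' then (1 : ℝ) else 0) =
          (stars d G).card := by
      intro s _
      simp only [Function.update_self, Function.update_of_ne hij]
      rw [sum_stars_pos hG o' fun v => if pos (s i) o = v then (1 : ℝ) else 0]
      rw [card_stars hG]
      simp
      ring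
    rw [Finset.sum_congr rfl h2, Finset.sum_const, nsmul_eq_mul, mul_comm]

lemma pos_inj (hG : ∀ v, ¬ G.Adj v v) {t : V × (Fin d → V)} (ht : t ∈ stars d G) :
    Function.Injective (pos t) := by
  rw [mem_stars] at ht
  rintro (_ | a) (_ | b) hab
  · rfl
  · exact absurd (ht.2 b) (by
      have : t.1 = t.2 b := hab
      rw [← this]
      exact hG _)
  · exact absurd (ht.2 a) (by
      have : t.2 a = t.1 := hab
      rw [this]
      exact hG _)
  · rw [ht.1 hab]

lemma good_of_disjoint {s : Fin K → V × (Fin d → V)} (hs : s ∈ mstars d K G)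
    (h : ∀ i j, i ≠ j → ∀ o o', pos (s i) o ≠ pos (s j) o') : Good s := by
  have hpos := fun i => pos_inj (fun v => G.loopless.irrefl v) (mem_mstars.1 hs i)
  let e : Fin K ⊕ Fin K × Fin d → Fin K × Option (Fin d) :=
    Sum.elim (fun i => (i, none)) (fun p => (p.1, some p.2))
  have he : Function.Injective e := by
    rintro (i | p) (j | q) hpq
    · simp only [e, Sum.elim_inl, Prod.mk.injEq, and_true] at hpq
      rw [hpq]
    · simp [e] at hpq
    · simp [e] at hpq
    · simp only [e, Sum.elim_inr, Prod.mk.injEq, Option.some.injEq] at hpq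
      rw [Prod.ext hpq.1 hpq.2]
  have h1 : Sum.elim (cen s) (lead s) = (fun p : Fin K × Option (Fin d) => pos (s p.1) p.2) ∘ e := by
    funext p
    rcases p with i | p <;> rfl
  rw [Good, h1]
  refine Function.Injective.comp ?_ he
  rintro ⟨i, o⟩ ⟨j, o'⟩ hij
  by_cases hne : i = j
  · subst hne
    have := hpos i hij
    exact Prod.ext rfl this
  · exact absurd hij (h i j hne o o')

open Classical in
/-- Most `K`-tuples of stars are disjoint. -/
theorem sum_bad_le (hG : Reg d G) :
    (Fintype.card V : ℝ) * ∑ s ∈ mstars d K G, (if Good s then (0 : ℝ) else 1) ≤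
      (K ^ 2 * (d + 1) ^ 2 : ℕ) * (mstars d K G).card := by
  have h1 : ∀ s ∈ mstars d K G, (if Good s then (0 : ℝ) else 1) ≤
      ∑ i : Fin K, ∑ j : Fin K, ∑ o : Option (Fin d), ∑ o' : Option (Fin d),
        if i ≠ j then (if pos (s i) o = pos (s j) o' then (1 : ℝ) else 0) else 0 := by
    intro s hs
    split_ifs with hg
    · refine Finset.sum_nonneg fun i _ => Finset.sum_nonneg fun j _ => Finset.sum_nonneg fun o _ =>
        Finset.sum_nonneg fun o' _ => ?_
      split_ifs <;> norm_num
    · have : ∃ i j, i ≠ j ∧ ∃ o o', pos (s i) o = pos (s j) o' := by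
        by_contra hcon
        push Not at hcon
        exact hg (good_of_disjoint hs fun i j hij o o' => hcon i j hij o o')
      obtain ⟨i, j, hij, o, o', hoo⟩ := this
      have hnn : ∀ (i j : Fin K) (o o' : Option (Fin d)), (0 : ℝ) ≤
          if i ≠ j then (if pos (s i) o = pos (s j) o' then (1 : ℝ) else 0) else 0 := by
        intro i j o o'
        split_ifs <;> norm_num
      calc (1 : ℝ) = if i ≠ j then (if pos (s i) o = pos (s j) o' then (1 : ℝ) else 0) else 0 := by
            rw [if_pos hij, if_pos hoo]
        _ ≤ ∑ o', if i ≠ j then (if pos (s i) o = pos (s j) o' then (1 : ℝ) else 0) else 0 :=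
            Finset.single_le_sum (f := fun o' => if i ≠ j then
              (if pos (s i) o = pos (s j) o' then (1 : ℝ) else 0) else 0)
              (fun o' _ => hnn i j o o') (Finset.mem_univ o')
        _ ≤ ∑ o, ∑ o', if i ≠ j then (if pos (s i) o = pos (s j) o' then (1 : ℝ) else 0) else 0 :=
            Finset.single_le_sum (f := fun o => ∑ o', if i ≠ j then
              (if pos (s i) o = pos (s j) o' then (1 : ℝ) else 0) else 0)
              (fun o _ => Finset.sum_nonneg fun o' _ => hnn i j o o') (Finset.mem_univ o)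
        _ ≤ ∑ j, ∑ o, ∑ o',
            if i ≠ j then (if pos (s i) o = pos (s j) o' then (1 : ℝ) else 0) else 0 :=
            Finset.single_le_sum (f := fun j => ∑ o, ∑ o', if i ≠ j then
              (if pos (s i) o = pos (s j) o' then (1 : ℝ) else 0) else 0)
              (fun j _ => Finset.sum_nonneg fun o _ => Finset.sum_nonneg fun o' _ => hnn i j o o')
              (Finset.mem_univ j)
        _ ≤ _ :=
            Finset.single_le_sum (f := fun i => ∑ j, ∑ o, ∑ o', if i ≠ j then
              (if pos (s i) o = pos (s j) o' then (1 : ℝ) else 0) else 0)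
              (fun i _ => Finset.sum_nonneg fun j _ => Finset.sum_nonneg fun o _ =>
                Finset.sum_nonneg fun o' _ => hnn i j o o') (Finset.mem_univ i)
  calc _ ≤ (Fintype.card V : ℝ) * ∑ s ∈ mstars d K G,
        ∑ i : Fin K, ∑ j : Fin K, ∑ o : Option (Fin d), ∑ o' : Option (Fin d),
        (if i ≠ j then (if pos (s i) o = pos (s j) o' then (1 : ℝ) else 0) else 0) := by
        gcongr with s hs
        exact h1 s hs
    _ = ∑ i : Fin K, ∑ j : Fin K, ∑ o : Option (Fin d), ∑ o' : Option (Fin d),
        (Fintype.card V : ℝ) * ∑ s ∈ mstars d K G,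
        (if i ≠ j then (if pos (s i) o = pos (s j) o' then (1 : ℝ) else 0) else 0) := by
        rw [Finset.sum_comm, Finset.mul_sum]
        refine Finset.sum_congr rfl fun i _ => ?_
        rw [Finset.sum_comm, Finset.mul_sum]
        refine Finset.sum_congr rfl fun j _ => ?_
        rw [Finset.sum_comm, Finset.mul_sum]
        refine Finset.sum_congr rfl fun o _ => ?_
        rw [Finset.sum_comm, Finset.mul_sum]
    _ ≤ ∑ i : Fin K, ∑ j : Fin K, ∑ o : Option (Fin d), ∑ o' : Option (Fin d),
        ((mstars d K G).card : ℝ) := by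
        gcongr with i _ j _ o _ o' _
        by_cases hij : i = j
        · simp [hij]
        · simp only [ne_eq, hij, not_false_eq_true, if_true]
          exact (sum_coincide hG hij o o').le
    _ = _ := by
        simp only [Finset.sum_const, Finset.card_univ, Fintype.card_fin, Fintype.card_option,
          nsmul_eq_mul]
        push_cast
        ring

end Multi

section Exchange

variable {V : Type*} [Fintype V] [DecidableEq V] {d K : ℕ} {G : SimpleGraph V}

open Classical in
/-- The `d`-regular graphs on `V`. -/
noncomputable def regs (V : Type*) [Fintype V] (d : ℕ) : Finset (SimpleGraph V) :=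
  univ.filter fun G => Reg d G

omit [DecidableEq V] in
lemma mem_regs : G ∈ regs V d ↔ Reg d G := by
  simp [regs]

/-- The star pattern satisfies the degree condition. -/
lemma degCond_star (d K : ℕ) :
    DegCond (⊥ : SimpleGraph (Fin K)) (Prod.fst : Fin K × Fin d → Fin K) d := by
  intro i
  have h1 : star (⊥ : SimpleGraph (Fin K)) (Prod.fst : Fin K × Fin d → Fin K) i =
      (fun k : Fin d => Sum.inr (i, k)) '' Set.univ := by
    ext p
    rcases p with j | ⟨j, k⟩
    · simp [star]
    · simp only [star, Set.mem_ofPred_eq, Sum.elim_inr, Set.image_univ, Set.mem_range,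
        Sum.inr.injEq, Prod.mk.injEq]
      constructor
      · intro h
        exact ⟨k, h.symm, rfl⟩
      · rintro ⟨k', h, _⟩
        exact h.symm
  rw [h1, Set.ncard_image_of_injective _ (by
    intro a b hab
    simpa using hab), Set.ncard_univ]
  simp

/-- Tuples of stars as embeddings of the star pattern. -/
lemma emb_iff (hG : Reg d G) (s : Fin K → V × (Fin d → V)) :
    Emb (⊥ : SimpleGraph (Fin K)) (Prod.fst : Fin K × Fin d → Fin K) G (cen s) (lead s) ↔
      s ∈ mstars d K G ∧ Good s := by
  constructor
  · intro h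
    refine ⟨mem_mstars.2 fun j => mem_stars.2 ⟨fun a b hab => ?_, fun k => h.lead (j, k)⟩, h.inj⟩
    have := h.inj_l (a := (j, a)) (b := (j, b)) hab
    simpa using this
  · rintro ⟨hs, hg⟩
    refine ⟨hg, fun i j => ?_, fun p => (mem_stars.1 (mem_mstars.1 hs p.1)).2 p.2⟩
    simp only [SimpleGraph.bot_adj, iff_false]
    intro hij
    obtain ⟨hinj, hadj⟩ := mem_stars.1 (mem_mstars.1 hs i)
    have h1 : (s j).1 ∈ Set.range (s i).2 := by
      rw [range_eq_neighborSet hG hinj hadj]
      exact hij
    obtain ⟨k, hk⟩ := h1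
    have := hg (a₁ := Sum.inr (i, k)) (a₂ := Sum.inl j) hk
    exact Sum.inr_ne_inl this

open Classical in
/-- Sums over disjoint tuples of stars as sums over `Z`. -/
lemma sum_good_eq (Φ : SimpleGraph V → (Fin K → V) → (Fin K × Fin d → V) → ℝ) :
    ∑ G ∈ regs V d, ∑ s ∈ mstars d K G, (if Good s then Φ G (cen s) (lead s) else 0) =
      ∑ p ∈ Z (V := V) d (⊥ : SimpleGraph (Fin K)) (Prod.fst : Fin K × Fin d → Fin K),
        Φ p.1 p.2.1 p.2.2 := by
  have h1 : ∀ G ∈ regs V d, ∑ s ∈ mstars d K G, (if Good s then Φ G (cen s) (lead s) else 0) =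
      ∑ s ∈ (mstars d K G).filter Good, Φ G (cen s) (lead s) := fun G _ => by
    rw [Finset.sum_filter]
  rw [Finset.sum_congr rfl h1, Finset.sum_sigma']
  refine Finset.sum_nbij' (fun p => (p.1, cen p.2, lead p.2))
    (fun p => ⟨p.1, fun j => (p.2.1 j, fun k => p.2.2 (j, k))⟩) ?_ ?_ ?_ ?_ ?_
  · rintro ⟨G, s⟩ hp
    rw [Finset.mem_sigma, Finset.mem_filter] at hp
    rw [mem_Z]
    exact ⟨mem_regs.1 hp.1, (emb_iff (mem_regs.1 hp.1) s).2 hp.2⟩
  · rintro ⟨G, x, l⟩ hp
    rw [mem_Z] at hp
    rw [Finset.mem_sigma, Finset.mem_filter]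
    exact ⟨mem_regs.2 hp.1, (emb_iff hp.1 (fun j => (x j, fun k => l (j, k)))).1 hp.2⟩
  · rintro ⟨G, s⟩ _
    rfl
  · rintro ⟨G, x, l⟩ _
    rfl
  · rintro ⟨G, s⟩ _
    rfl

open Classical in
/-- **Exchangeability of the leads** of `K` disjoint stars. -/
theorem sum_exchange (σ : Equiv.Perm (Fin K × Fin d))
    (Φ : SimpleGraph V → (Fin K → V) → (Fin K × Fin d → V) → ℝ) :
    ∑ G ∈ regs V d, ∑ s ∈ mstars d K G,
        (if Good s then Φ (cut G (cen s)) (cen s) (lead s ∘ σ) else 0) =
      ∑ G ∈ regs V d, ∑ s ∈ mstars d K G,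
        (if Good s then Φ (cut G (cen s)) (cen s) (lead s) else 0) := by
  rw [sum_good_eq (fun G x l => Φ (cut G x) x (l ∘ σ)), sum_good_eq (fun G x l => Φ (cut G x) x l)]
  exact sum_switch (degCond_star d K) σ Φ

end Exchange

end Vale.Agent.P156.B
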