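import Vale.Agent.P156.R2.Spec
import Vale.Agent.P156.B.Star

/-!
P156, Part B: the sample spaces `WW` and `ZZs` in terms of tuples of stars; exchangeability of the
leads (`SpecPerm`) and size of the exceptional set (`SpecZW`).
-/

namespace Vale.Agent.P156.B

open Finset

noncomputable section

variable {n d K : ℕ}

lemma isRegular_iff {G : SimpleGraph (Fin n)} : (∀ v, (G.neighborSet v).ncard = d) ↔ Reg d G :=
  Iff.rfl

lemma mem_regularGraphs {G : SimpleGraph (Fin n)} : G ∈ regularGraphs n d ↔ Reg d G := by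
  classical
  rw [regularGraphs, Finset.mem_filter]
  simp only [Finset.mem_univ, true_and, SimpleGraph.IsRegularOfDegree, Reg]
  refine forall_congr' fun v => ?_
  rw [← SimpleGraph.card_neighborSet_eq_degree, Set.ncard_eq_toFinset_card', Set.toFinset_card]

lemma regularGraphs_eq : regularGraphs n d = regs (Fin n) d := by
  ext G
  rw [mem_regularGraphs, mem_regs]

lemma isStar_iff {G : SimpleGraph (Fin n)} (hG : Reg d G) {v : Fin n} {l : Fin d → Fin n} :
    IsStar G v l ↔ (v, l) ∈ stars d G := by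
  rw [mem_stars, IsStar]
  constructor
  · rintro ⟨h1, h2⟩
    exact ⟨h1, fun k => (h2 _).2 ⟨k, rfl⟩⟩
  · rintro ⟨h1, h2⟩
    refine ⟨h1, fun w => ?_⟩
    have := range_eq_neighborSet hG h1 h2
    rw [← SimpleGraph.mem_neighborSet, ← this]
    rfl

/-- A point of the sample space from a graph and a tuple of stars. -/
def mk (G : SimpleGraph (Fin n)) (s : Fin K → Fin n × (Fin d → Fin n)) :
    SimpleGraph (Fin n) × StarPos n d K := (G, fun j => (s j).1, fun j => (s j).2)

/-- The stars of a point of the sample space. -/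
def st (ω : SimpleGraph (Fin n) × StarPos n d K) : Fin K → Fin n × (Fin d → Fin n) :=
  fun j => (ω.2.1 j, ω.2.2 j)

@[simp] lemma mk_fst (G : SimpleGraph (Fin n)) (s : Fin K → Fin n × (Fin d → Fin n)) :
    (mk G s).1 = G := rfl

@[simp] lemma st_mk (G : SimpleGraph (Fin n)) (s : Fin K → Fin n × (Fin d → Fin n)) :
    st (mk G s) = s := rfl

@[simp] lemma mk_st (ω : SimpleGraph (Fin n) × StarPos n d K) : mk ω.1 (st ω) = ω := rfl

lemma mem_WW {ω : SimpleGraph (Fin n) × StarPos n d K} :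
    ω ∈ WW n d K ↔ Reg d ω.1 ∧ st ω ∈ mstars d K ω.1 := by
  classical
  rw [WW, Finset.mem_filter]
  simp only [Finset.mem_univ, true_and]
  rw [mem_regularGraphs]
  constructor
  · rintro ⟨h1, h2⟩
    exact ⟨h1, mem_mstars.2 fun j => (isStar_iff h1).1 (h2 j)⟩
  · rintro ⟨h1, h2⟩
    exact ⟨h1, fun j => (isStar_iff h1).2 (mem_mstars.1 h2 j)⟩

/-- Sums over the sample space. -/
lemma sum_WW (f : SimpleGraph (Fin n) × StarPos n d K → ℝ) :
    ∑ ω ∈ WW n d K, f ω = ∑ G ∈ regularGraphs n d, ∑ s ∈ mstars d K G, f (mk G s) := by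
  classical
  rw [Finset.sum_sigma']
  refine Finset.sum_nbij' (fun ω => ⟨ω.1, st ω⟩) (fun p => mk p.1 p.2) ?_ ?_ ?_ ?_ ?_
  · intro ω hω
    rw [mem_WW] at hω
    rw [Finset.mem_sigma, mem_regularGraphs]
    exact hω
  · rintro ⟨G, s⟩ hp
    rw [Finset.mem_sigma, mem_regularGraphs] at hp
    rw [mem_WW]
    exact hp
  · intro ω _
    rfl
  · rintro ⟨G, s⟩ _
    rfl
  · intro ω _
    rfl

lemma card_WW : ((WW n d K).card : ℝ) =
    (regularGraphs n d).card * (d.factorial * n : ℝ) ^ K := by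
  have h := sum_WW (n := n) (d := d) (K := K) (fun _ => 1)
  rw [Finset.sum_const, nsmul_eq_mul, mul_one] at h
  rw [h, Finset.sum_congr rfl (g := fun _ => (d.factorial * n : ℝ) ^ K), Finset.sum_const,
    nsmul_eq_mul]
  intro G hG
  rw [Finset.sum_const, nsmul_eq_mul, mul_one, card_mstars (mem_regularGraphs.1 hG),
    Fintype.card_fin]

lemma mem_ZZs {ω : SimpleGraph (Fin n) × StarPos n d K} :
    ω ∈ ZZs n d K ↔ ω ∈ WW n d K ∧ Good (st ω) := by
  classical
  rw [ZZs, Finset.mem_filter]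
  refine and_congr_right fun _ => ?_
  rw [Good]
  constructor
  · rintro ⟨h1, h2, h3⟩
    refine Function.Injective.sumElim h1 h2 ?_
    rintro a ⟨j, k⟩ h
    exact h3 j k a h.symm
  · intro h
    refine ⟨fun a b hab => ?_, fun a b hab => ?_, fun j k i hji => ?_⟩
    · have := h (a₁ := Sum.inl a) (a₂ := Sum.inl b) hab
      exact Sum.inl_injective this
    · have := h (a₁ := Sum.inr a) (a₂ := Sum.inr b) hab
      exact Sum.inr_injective this
    · have := h (a₁ := Sum.inr (j, k)) (a₂ := Sum.inl i) hji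
      exact Sum.inr_ne_inl this

open Classical in
lemma sum_ZZs (f : SimpleGraph (Fin n) × StarPos n d K → ℝ) :
    ∑ ω ∈ ZZs n d K, f ω =
      ∑ G ∈ regularGraphs n d, ∑ s ∈ mstars d K G, if Good s then f (mk G s) else 0 := by
  have h1 : ZZs n d K = (WW n d K).filter fun ω => Good (st ω) := by
    ext ω
    rw [mem_ZZs, Finset.mem_filter]
  rw [h1, Finset.sum_filter, sum_WW]
  rfl

/-! ### The exceptional set -/

open Classical in
lemma card_bad_le : (n : ℝ) * ∑ ω ∈ WW n d K, (if ω ∉ ZZs n d K then (1 : ℝ) else 0) ≤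
    (K ^ 2 * (d + 1) ^ 2 : ℕ) * (WW n d K).card := by
  have h1 : ∑ ω ∈ WW n d K, (if ω ∉ ZZs n d K then (1 : ℝ) else 0) =
      ∑ ω ∈ WW n d K, (if Good (st ω) then (0 : ℝ) else 1) := by
    refine Finset.sum_congr rfl fun ω hω => ?_
    have h1 : ω ∈ ZZs n d K ↔ Good (st ω) := by
      rw [mem_ZZs]
      exact and_iff_right hω
    by_cases h : Good (st ω)
    · rw [if_pos h, if_neg (not_not.2 (h1.2 h))]
    · rw [if_neg h, if_pos (fun h' => h (h1.1 h'))]
  rw [h1, sum_WW]
  have h2 : ((WW n d K).card : ℝ) = ∑ G ∈ regularGraphs n d, ((mstars d K G).card : ℝ) := by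
    have h := sum_WW (n := n) (d := d) (K := K) (fun _ => 1)
    rw [Finset.sum_const, nsmul_eq_mul, mul_one] at h
    rw [h]
    simp
  rw [h2, Finset.mul_sum, Finset.mul_sum]
  refine Finset.sum_le_sum fun G hG => ?_
  have := sum_bad_le (K := K) (mem_regularGraphs.1 hG)
  rwa [Fintype.card_fin] at this

theorem specZW (d : ℕ) : SpecZW d := by
  intro K
  refine ⟨(K ^ 2 * (d + 1) ^ 2 : ℕ), fun n hn _ => ?_⟩
  have hn0 : (0 : ℝ) < n := by
    have : 0 < n := by omega
    exact_mod_cast this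
  rw [prob, avg]
  by_cases h0 : (WW n d K).card = 0
  · rw [h0]
    simp only [Nat.cast_zero, div_zero]
    positivity
  · have h0' : (0 : ℝ) < (WW n d K).card := by
      exact_mod_cast Nat.pos_of_ne_zero h0
    rw [div_le_div_iff₀ h0' hn0]
    have h := card_bad_le (n := n) (d := d) (K := K)
    rw [mul_comm] at h
    refine le_trans (le_of_eq ?_) h
    congr 1
    refine Finset.sum_congr rfl fun ω _ => ?_
    congr 1

/-! ### Exchangeability -/

lemma adj_cut {ι : Type*} {G : SimpleGraph (Fin n)} {x : ι → Fin n} {u v : Fin n}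
    (hu : ∀ i, x i ≠ u) (hv : ∀ i, x i ≠ v) : adj (cut G x) u v = adj G u v := by
  classical
  have h : (cut G x).Adj u v ↔ G.Adj u v :=
    ⟨fun h => h.1, fun h => ⟨h, hu, hv⟩⟩
  rw [adj, adj, SimpleGraph.adjMatrix_apply, SimpleGraph.adjMatrix_apply]
  by_cases h' : G.Adj u v
  · rw [if_pos h', if_pos (h.2 h')]
  · rw [if_neg h', if_neg (fun h'' => h' (h.1 h''))]

lemma cutMat_cut (ω : SimpleGraph (Fin n) × StarPos n d K) (z : ℂ) :
    cutMat (adj (cut ω.1 ω.2.1)) (centres ω) z = cutMat (adj ω.1) (centres ω) z := by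
  classical
  funext u v
  rw [cutMat, cutMat]
  split_ifs with h1 h2 h2
  · rfl
  · rfl
  · rw [adj_cut]
    · intro i hi
      exact h1 (Or.inl (by rw [← hi]; exact Finset.mem_image_of_mem _ (Finset.mem_univ i)))
    · intro i hi
      exact h1 (Or.inr (by rw [← hi]; exact Finset.mem_image_of_mem _ (Finset.mem_univ i)))
  · rw [adj_cut]
    · intro i hi
      exact h1 (Or.inl (by rw [← hi]; exact Finset.mem_image_of_mem _ (Finset.mem_univ i)))
    · intro i hi
      exact h1 (Or.inr (by rw [← hi]; exact Finset.mem_image_of_mem _ (Finset.mem_univ i)))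

/-- General exchangeability on `ZZs` for functions of the cut graph, centres and leads. -/
theorem sum_ZZs_exchange (σ : Equiv.Perm (Fin K × Fin d))
    (Φ : SimpleGraph (Fin n) → (Fin K → Fin n) → (Fin K × Fin d → Fin n) → ℝ) :
    ∑ ω ∈ ZZs n d K, Φ (cut ω.1 ω.2.1) ω.2.1 (P156.lead ω ∘ σ) =
      ∑ ω ∈ ZZs n d K, Φ (cut ω.1 ω.2.1) ω.2.1 (P156.lead ω) := by
  classical
  rw [sum_ZZs, sum_ZZs, regularGraphs_eq]
  exact sum_exchange σ Φ

theorem specPerm (d : ℕ) : SpecPerm d := by
  classical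
  intro n K σ ι z Φ
  rw [avg, avg]
  congr 1
  have h := sum_ZZs_exchange (n := n) σ (fun H x l => Φ (fun i =>
    ((cutMat (adj H) (Finset.univ.image x) (z i))⁻¹).submatrix l l))
  have e1 : ∀ ω : SimpleGraph (Fin n) × StarPos n d K, (fun i => leadMat ω (z i)) = fun i =>
      ((cutMat (adj (cut ω.1 ω.2.1)) (Finset.univ.image ω.2.1) (z i))⁻¹).submatrix
        (P156.lead ω) (P156.lead ω) := by
    intro ω
    funext i
    rw [leadMat, resD, ← cutMat_cut]
    rfl
  have e2 : ∀ ω : SimpleGraph (Fin n) × StarPos n d K,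
      (fun i => (leadMat ω (z i)).submatrix σ σ) = fun i =>
      ((cutMat (adj (cut ω.1 ω.2.1)) (Finset.univ.image ω.2.1) (z i))⁻¹).submatrix
        (P156.lead ω ∘ σ) (P156.lead ω ∘ σ) := by
    intro ω
    have := e1 ω
    funext i
    rw [congrFun this i, Matrix.submatrix_submatrix]
  rw [Finset.sum_congr rfl fun ω _ => congrArg Φ (e1 ω),
    Finset.sum_congr rfl fun ω _ => congrArg Φ (e2 ω)]
  exact h.symm

end

end Vale.Agent.P156.B
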