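import Vale.Agent.P156.B.C34

/-!
P156, Part C (C3): off-diagonal entries at the leads, any number of stars, any set of removed
centres.
-/

namespace Vale.Agent.P156.B

open Finset H801 MeasureTheory

noncomputable section

variable {n d K : ℕ}

/-- The error in C3 for two stars or more. -/
def c3e (n d K : ℕ) (r C₀ : ℝ) : ℝ :=
  ((K ^ 2 * (d + 1) ^ 2 : ℕ) / n + (2 + d ^ 2) / r) * C₀

lemma c3e_nonneg {r C₀ : ℝ} (hr : 0 ≤ r) (hC : 0 ≤ C₀) : 0 ≤ c3e n d K r C₀ := by
  unfold c3e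
  positivity

lemma stepErr_le_c3e {r C₀ : ℝ} (hr : 0 ≤ r) (hC : 0 ≤ C₀) :
    stepErr n d K r C₀ ≤ c3e n d K r C₀ := by
  unfold stepErr c3e
  gcongr
  norm_num

/-- **C3** with a set `J` of removed centres, at least two stars. -/
theorem EM.C3_J {μ : Measure ℝ} {η C₀ : ℝ} (h : EM n μ η C₀) {r : ℝ} (hr : 1 ≤ r)
    (hrn : r ^ 4 ≤ n * η) (hK : 2 ≤ K) (J : Finset (Fin K)) {α β : Fin K × Fin d} (hαβ : α ≠ β)
    (hα : α.1 ∈ J) :
    ∫ E : ℝ, avg (WW n d K) (fun ω => min 1 ‖RL ω J (E + η * Complex.I) α β‖) ∂μ ≤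
      (K + 1) * c3e n d K r C₀ := by
  have := h.finite
  have hr0 : 0 ≤ r := by linarith
  have h1 := h.stabJ hr hrn J (univ \ J) Finset.sdiff_disjoint (α := α) (β := β) hα
  have h2 : (univ \ J) ∪ J = (univ : Finset (Fin K)) := Finset.sdiff_union_of_subset (subset_univ J)
  rw [h2] at h1
  have h3 := h.C3_two hr hrn hK hαβ
  have h4 : ∀ E : ℝ, avg (WW n d K) (fun ω => min 1 ‖RL ω J (E + η * Complex.I) α β‖) ≤
      avg (WW n d K) (fun ω => min 1 ‖RL ω J (E + η * Complex.I) α β -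
        RL ω univ (E + η * Complex.I) α β‖) +
      avg (WW n d K) (fun ω => min 1 ‖leadMat ω (E + η * Complex.I) α β‖) := by
    intro E
    rw [← avg_add]
    refine avg_mono fun ω _ => ?_
    have := min_one_tri (RL ω J (E + η * Complex.I) α β) (RL ω univ (E + η * Complex.I) α β) 0
    simp only [sub_zero] at this
    rw [leadMat_eq]
    exact this
  have I1 : Integrable (fun E : ℝ => avg (WW n d K) (fun ω => min 1
      ‖RL ω J (E + η * Complex.I) α β - RL ω univ (E + η * Complex.I) α β‖)) μ :=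
    (BM.avg _ fun ω _ => (BM.RL_sub h.hη ω _ _ _ _).min_one).integrable
  have I2 : Integrable (fun E : ℝ => avg (WW n d K) (fun ω => min 1
      ‖leadMat ω (E + η * Complex.I) α β‖)) μ := by
    simp only [leadMat_eq]
    exact (BM.avg _ fun ω _ => (BM.RL h.hη ω _ _ _).min_one).integrable
  refine (integral_mono_of_nonneg (Filter.Eventually.of_forall fun E =>
    avg_nonneg fun ω _ => le_min zero_le_one (norm_nonneg _)) (I1.add I2)
    (Filter.Eventually.of_forall h4)).trans ?_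
  refine (le_of_eq (integral_add' I1 I2)).trans ?_
  have h5 : ((univ \ J).card : ℝ) ≤ K := by
    have : (univ \ J).card ≤ K := (Finset.card_le_univ _).trans_eq (Fintype.card_fin K)
    exact_mod_cast this
  have h6 : ((univ \ J).card : ℝ) * stepErr n d K r C₀ ≤ K * c3e n d K r C₀ :=
    mul_le_mul h5 (stepErr_le_c3e hr0 h.C₀_nonneg) (stepErr_nonneg hr0 h.C₀_nonneg)
      (Nat.cast_nonneg _)
  have h7 : ∫ E : ℝ, avg (WW n d K) (fun ω => min 1 ‖leadMat ω (E + η * Complex.I) α β‖) ∂μ ≤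
      c3e n d K r C₀ := h3
  linarith

/-- Restriction to some of the stars. -/
lemma leadMat_restrict {K' : ℕ} (κ : Fin K' → Fin K) (ω : SimpleGraph (Fin n) × StarPos n d K)
    (z : ℂ) (α β : Fin K' × Fin d) :
    leadMat (mk ω.1 (st ω ∘ κ)) z α β =
      RL ω (univ.image κ) z (κ α.1, α.2) (κ β.1, β.2) := by
  rw [leadMat_eq]
  unfold RL DJ
  rw [Finset.image_image]
  rfl

/-- **C3**, any number of stars. -/
theorem EM.C3 {μ : Measure ℝ} {η C₀ : ℝ} (h : EM n μ η C₀) {r : ℝ} (hr : 1 ≤ r)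
    (hrn : r ^ 4 ≤ n * η) {α β : Fin K × Fin d} (hαβ : α ≠ β) :
    ∫ E : ℝ, avg (WW n d K) (fun ω => min 1 ‖leadMat ω (E + η * Complex.I) α β‖) ∂μ ≤
      (K + 3) * c3e n d (K + 2) r C₀ := by
  have hr0 : 0 < r := by linarith
  have hn := EM.n_pos hr0 hrn
  have hκ : Function.Injective (Fin.castAdd 2 : Fin K → Fin (K + 2)) := Fin.castAdd_injective K 2
  have h1 : ∀ E : ℝ, avg (WW n d K) (fun ω => min 1 ‖leadMat ω (E + η * Complex.I) α β‖) =
      avg (WW n d (K + 2)) (fun ω => min 1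
        ‖RL ω (univ.image (Fin.castAdd 2)) (E + η * Complex.I) (Fin.castAdd 2 α.1, α.2)
          (Fin.castAdd 2 β.1, β.2)‖) := by
    intro E
    rw [← avg_WW_marg hn hκ]
    simp only [leadMat_restrict]
  simp only [h1]
  have h2 : ((Fin.castAdd 2 α.1, α.2) : Fin (K + 2) × Fin d) ≠ (Fin.castAdd 2 β.1, β.2) := by
    intro hcon
    rw [Prod.mk.injEq] at hcon
    exact hαβ (Prod.ext (hκ hcon.1) hcon.2)
  have h3 := h.C3_J hr hrn (K := K + 2) (by omega) (univ.image (Fin.castAdd 2)) h2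
    (Finset.mem_image_of_mem _ (Finset.mem_univ _))
  refine h3.trans (le_of_eq ?_)
  push_cast
  ring

end

end Vale.Agent.P156.B
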