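import Vale.Agent.P156.B.Step

/-!
P156, Part C (C3, C4): off-diagonal entries at the leads are small, and removing the other centres
does not change the entries at the leads of a star.
-/

namespace Vale.Agent.P156.B

open Finset H801 MeasureTheory

noncomputable section

variable {n d K : ℕ}

lemma min_one_tri (a b c : ℂ) : min 1 ‖a - c‖ ≤ min 1 ‖a - b‖ + min 1 ‖b - c‖ := by
  have h := norm_sub_le_norm_sub_add_norm_sub a b c
  rcases le_total 1 ‖a - b‖ with h1 | h1
  · rw [min_eq_left h1]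
    have := le_min zero_le_one (norm_nonneg (b - c))
    have := min_le_left 1 ‖a - c‖
    linarith
  · rcases le_total 1 ‖b - c‖ with h2 | h2
    · rw [min_eq_left h2]
      have := le_min zero_le_one (norm_nonneg (a - b))
      have := min_le_left 1 ‖a - c‖
      linarith
    · rw [min_eq_right h1, min_eq_right h2]
      exact (min_le_right _ _).trans h

/-- The error of one deletion. -/
def stepErr (n d K : ℕ) (r C₀ : ℝ) : ℝ :=
  ((K ^ 2 * (d + 1) ^ 2 : ℕ) / n + (1 + d ^ 2) / r) * C₀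

lemma stepErr_nonneg {r C₀ : ℝ} (hr : 0 ≤ r) (hC : 0 ≤ C₀) : 0 ≤ stepErr n d K r C₀ := by
  unfold stepErr
  positivity

/-- Entries of the resolvent at the leads, with the centres in `J` removed. -/
def RL (ω : SimpleGraph (Fin n) × StarPos n d K) (J : Finset (Fin K)) (z : ℂ)
    (α β : Fin K × Fin d) : ℂ :=
  resD (adj ω.1) (DJ ω J) z (P156.lead ω α) (P156.lead ω β)

lemma leadMat_eq (ω : SimpleGraph (Fin n) × StarPos n d K) (z : ℂ) (α β : Fin K × Fin d) :
    leadMat ω z α β = RL ω univ z α β := by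
  unfold RL
  rw [DJ_univ]
  rfl

lemma BM.RL {η : ℝ} (hη : 0 < η) (ω : SimpleGraph (Fin n) × StarPos n d K) (J : Finset (Fin K))
    (α β : Fin K × Fin d) : BM fun E : ℝ => ‖RL ω J (E + η * Complex.I) α β‖ :=
  BM.resD (adj_isHermitian ω.1) _ hη _ _

lemma BM.RL_sub {η : ℝ} (hη : 0 < η) (ω : SimpleGraph (Fin n) × StarPos n d K)
    (J J' : Finset (Fin K)) (α β : Fin K × Fin d) :
    BM fun E : ℝ => ‖B.RL ω J (E + η * Complex.I) α β - B.RL ω J' (E + η * Complex.I) α β‖ :=
  BM.resD_sub (adj_isHermitian ω.1) _ _ hη _ _ _ _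

lemma EM.n_pos {η r : ℝ} (hr : 0 < r) (hrn : r ^ 4 ≤ n * η) : 0 < n := by
  rcases Nat.eq_zero_or_pos n with hn | hn
  · subst hn
    have : 0 < r ^ 4 := by positivity
    simp at hrn
    linarith
  · exact hn

/-- Removing several further centres. -/
theorem EM.stabJ {μ : Measure ℝ} {η C₀ : ℝ} (h : EM n μ η C₀) {r : ℝ} (hr : 1 ≤ r)
    (hrn : r ^ 4 ≤ n * η) (J T : Finset (Fin K)) (hT : Disjoint T J) {α β : Fin K × Fin d}
    (hα : α.1 ∈ J) :
    ∫ E : ℝ, avg (WW n d K) (fun ω => min 1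
      ‖RL ω J (E + η * Complex.I) α β - RL ω (T ∪ J) (E + η * Complex.I) α β‖) ∂μ ≤
      T.card * stepErr n d K r C₀ := by
  have := h.finite
  induction T using Finset.induction_on with
  | empty => simp [avg]
  | insert i T hi ih =>
    rw [Finset.disjoint_insert_left] at hT
    have ih' := ih hT.2
    have hi' : i ∉ T ∪ J := by
      rw [Finset.mem_union]
      tauto
    have hαi : α.1 ≠ i := fun h => hT.1 (h ▸ hα)
    have hs := h.step hi' (β := β) hαi hr hrn
    have h1 : ∀ E : ℝ, avg (WW n d K) (fun ω => min 1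
        ‖RL ω J (E + η * Complex.I) α β - RL ω (insert i T ∪ J) (E + η * Complex.I) α β‖) ≤
        avg (WW n d K) (fun ω => min 1
        ‖RL ω J (E + η * Complex.I) α β - RL ω (T ∪ J) (E + η * Complex.I) α β‖) +
        avg (WW n d K) (fun ω => min 1
        ‖RL ω (T ∪ J) (E + η * Complex.I) α β -
          RL ω (insert i (T ∪ J)) (E + η * Complex.I) α β‖) := by
      intro E
      rw [← avg_add]
      refine avg_mono fun ω _ => ?_
      rw [Finset.insert_union]
      exact min_one_tri _ _ _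
    have I1 : Integrable (fun E : ℝ => avg (WW n d K) (fun ω => min 1
        ‖RL ω J (E + η * Complex.I) α β - RL ω (T ∪ J) (E + η * Complex.I) α β‖)) μ :=
      (BM.avg _ fun ω _ => (BM.RL_sub h.hη ω _ _ _ _).min_one).integrable
    have I2 : Integrable (fun E : ℝ => avg (WW n d K) (fun ω => min 1
        ‖RL ω (T ∪ J) (E + η * Complex.I) α β -
          RL ω (insert i (T ∪ J)) (E + η * Complex.I) α β‖)) μ :=
      (BM.avg _ fun ω _ => (BM.RL_sub h.hη ω _ _ _ _).min_one).integrable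
    refine (integral_mono_of_nonneg (Filter.Eventually.of_forall fun E =>
      avg_nonneg fun ω _ => le_min zero_le_one (norm_nonneg _)) (I1.add I2)
      (Filter.Eventually.of_forall h1)).trans ?_
    refine (le_of_eq (integral_add' I1 I2)).trans ?_
    rw [Finset.card_insert_of_notMem hi]
    push_cast
    rw [add_mul, one_mul]
    exact add_le_add ih' hs

/-- **C4**. -/
theorem EM.C4 {μ : Measure ℝ} {η C₀ : ℝ} (h : EM n μ η C₀) {r : ℝ} (hr : 1 ≤ r)
    (hrn : r ^ 4 ≤ n * η) (j : Fin K) {α β : Fin K × Fin d} (hα : α.1 = j) :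
    ∫ E : ℝ, avg (WW n d K) (fun ω => min 1
      ‖RL ω {j} (E + η * Complex.I) α β - leadMat ω (E + η * Complex.I) α β‖) ∂μ ≤
      K * stepErr n d K r C₀ := by
  have h1 := h.stabJ hr hrn {j} (univ.erase j) (by simp) (α := α) (β := β)
    (by rw [hα]; exact Finset.mem_singleton_self j)
  have h2 : (univ.erase j) ∪ {j} = (univ : Finset (Fin K)) := by
    ext i
    simp only [Finset.mem_union, Finset.mem_erase, Finset.mem_univ, Finset.mem_singleton]
    tauto
  rw [h2] at h1
  simp only [leadMat_eq]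
  refine h1.trans ?_
  refine mul_le_mul_of_nonneg_right ?_ (stepErr_nonneg (by linarith) h.C₀_nonneg)
  have : (univ.erase j).card ≤ K := (Finset.card_le_univ _).trans_eq (Fintype.card_fin K)
  exact_mod_cast this

/-! ### Exchangeability -/

lemma exists_perm_of_inj {ι X : Type*} [Finite X] {a b : ι → X} (ha : Function.Injective a)
    (hb : Function.Injective b) : ∃ σ : Equiv.Perm X, ∀ i, σ (a i) = b i := by
  classical
  have := Fintype.ofFinite X
  let e : {x // x ∈ Set.range a} ≃ {x // x ∈ Set.range b} :=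
    (Equiv.ofInjective a ha).symm.trans (Equiv.ofInjective b hb)
  refine ⟨e.extendSubtype, fun i => ?_⟩
  rw [Equiv.extendSubtype_apply_of_mem e (a i) ⟨i, rfl⟩]
  simp only [e, Equiv.trans_apply]
  have h1 : (Equiv.ofInjective a ha).symm ⟨a i, ⟨i, rfl⟩⟩ = i := by
    rw [Equiv.symm_apply_eq]
    rfl
  rw [h1]
  rfl

open Classical in
lemma avg_Z_perm (σ : Equiv.Perm (Fin K × Fin d)) (z : ℂ)
    (Φ : Matrix (Fin K × Fin d) (Fin K × Fin d) ℂ → ℝ) :
    avg (WW n d K) (fun ω => if ω ∈ ZZs n d K then Φ (leadMat ω z) else 0) =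
      avg (WW n d K) (fun ω => if ω ∈ ZZs n d K then Φ ((leadMat ω z).submatrix σ σ) else 0) := by
  have hsub : ZZs n d K ⊆ WW n d K := fun ω hω => (mem_ZZs.1 hω).1
  have key : ∀ f : SimpleGraph (Fin n) × StarPos n d K → ℝ,
      ∑ ω ∈ WW n d K, (if ω ∈ ZZs n d K then f ω else 0) = ∑ ω ∈ ZZs n d K, f ω := by
    intro f
    rw [← Finset.sum_subset hsub (f := fun ω => if ω ∈ ZZs n d K then f ω else 0)]
    · exact Finset.sum_congr rfl fun ω hω => if_pos hω
    · intro ω _ hω
      exact if_neg hω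
  have h := specPerm d n K σ Unit (fun _ => z) (fun M => Φ (M ()))
  unfold avg at h ⊢
  beta_reduce at h ⊢
  congr 1
  rw [key, key]
  by_cases hc : ((ZZs n d K).card : ℝ) = 0
  · have : ZZs n d K = ∅ := by
      rw [← Finset.card_eq_zero]
      exact_mod_cast hc
    rw [this]
    simp
  · field_simp at h
    exact h

open Classical in
/-- Splitting off the bad part. -/
lemma avg_le_Z {f : SimpleGraph (Fin n) × StarPos n d K → ℝ}
    (h1 : ∀ ω, f ω ≤ 1) : avg (WW n d K) f ≤
      avg (WW n d K) (fun ω => if ω ∈ ZZs n d K then f ω else 0) +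
      avg (WW n d K) (fun ω => if ω ∉ ZZs n d K then (1 : ℝ) else 0) := by
  rw [← avg_add]
  refine avg_mono fun ω _ => ?_
  by_cases h : ω ∈ ZZs n d K
  · simp [h]
  · simp [h, h1 ω]

open Classical in
/-- **C3**, at least two stars. -/
theorem EM.C3_two {μ : Measure ℝ} {η C₀ : ℝ} (h : EM n μ η C₀) {r : ℝ} (hr : 1 ≤ r)
    (hrn : r ^ 4 ≤ n * η) (hK : 2 ≤ K) {α β : Fin K × Fin d} (hαβ : α ≠ β) :
    ∫ E : ℝ, avg (WW n d K) (fun ω => min 1 ‖leadMat ω (E + η * Complex.I) α β‖) ∂μ ≤
      ((K ^ 2 * (d + 1) ^ 2 : ℕ) / n + (2 + d ^ 2) / r) * C₀ := by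
  have := h.finite
  have hr0 : 0 < r := by linarith
  have hn := EM.n_pos hr0 hrn
  set i0 : Fin K := ⟨0, by omega⟩ with hi0
  set i1 : Fin K := ⟨1, by omega⟩ with hi1
  have h01 : i0 ≠ i1 := by
    rw [hi0, hi1]
    simp
  set α' : Fin K × Fin d := (i0, α.2) with hα'
  set β' : Fin K × Fin d := (i1, α.2) with hβ'
  have hne : α' ≠ β' := fun hh => h01 (congrArg Prod.fst hh)
  obtain ⟨σ, hσ⟩ := exists_perm_of_inj (a := fun b : Bool => if b then α else β)
    (b := fun b : Bool => if b then α' else β')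
    (by
      intro a b hab
      cases a <;> cases b <;> simp_all)
    (by
      intro a b hab
      cases a <;> cases b <;> simp_all)
  have hσα : σ α = α' := by simpa using hσ true
  have hσβ : σ β = β' := by simpa using hσ false
  set J : Finset (Fin K) := univ.erase i1 with hJ
  have hiJ : i1 ∉ J := Finset.notMem_erase _ _
  have hJu : insert i1 J = univ := by
    rw [hJ, Finset.insert_erase (Finset.mem_univ _)]
  set f0 : SimpleGraph (Fin n) × StarPos n d K → ℝ → ℝ := fun ω E =>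
    if ω ∉ ZZs n d K then (1 : ℝ) else 0 with hf0
  set f1 : SimpleGraph (Fin n) × StarPos n d K → ℝ → ℝ := fun ω E =>
    (if P156.lead ω α' ∈ DJ ω J then 0 else
      ‖resD (adj ω.1) (DJ ω J) (E + η * Complex.I) (P156.lead ω α')
        (pos (st ω i1) (some α.2))‖) with hf1
  set f2' : SimpleGraph (Fin n) × StarPos n d K → ℝ → ℝ := fun ω E =>
    (if P156.lead ω α' ∈ DJ ω J then 0 else
      ‖resD (adj ω.1) (DJ ω J) (E + η * Complex.I) (P156.lead ω α') (pos (st ω i1) none)‖) with hf2'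
  set f2 : SimpleGraph (Fin n) × StarPos n d K → ℝ → ℝ := fun ω E => r * f2' ω E with hf2
  set f3 : SimpleGraph (Fin n) × StarPos n d K → ℝ → ℝ := fun ω E =>
    if r < Sx ω (DJ ω (insert i1 J)) (ω.2.1 i1) (P156.lead ω β') (E + η * Complex.I)
      then (1 : ℝ) else 0 with hf3
  have B0 : ∀ ω ∈ WW n d K, BM (f0 ω) := fun ω _ => BM.const _
  have B12 : ∀ (o : Option (Fin d)), ∀ ω ∈ WW n d K,
      BM (fun E : ℝ => (if P156.lead ω α' ∈ DJ ω J then 0 else
      ‖resD (adj ω.1) (DJ ω J) (E + η * Complex.I) (P156.lead ω α') (pos (st ω i1) o)‖)) := by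
    intro o ω _
    by_cases hxD : P156.lead ω α' ∈ DJ ω J
    · simp only [hxD, if_true]
      exact BM.const 0
    · simp only [hxD, if_false]
      exact BM.resD (adj_isHermitian ω.1) _ h.hη _ _
  have B1 : ∀ ω ∈ WW n d K, BM (f1 ω) := B12 _
  have B2' : ∀ ω ∈ WW n d K, BM (f2' ω) := B12 _
  have B2 : ∀ ω ∈ WW n d K, BM (f2 ω) := fun ω hω => (B2' ω hω).const_mul r
  have B3 : ∀ ω ∈ WW n d K, BM (f3 ω) := fun ω _ => BM.ind_lt _ (BM.Sx h.hη ω _ _ _)
  have hle : ∀ E : ℝ, avg (WW n d K) (fun ω => min 1 ‖leadMat ω (E + η * Complex.I) α β‖) ≤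
      avg (WW n d K) (fun ω => f0 ω E) + avg (WW n d K) (fun ω => f1 ω E) +
        avg (WW n d K) (fun ω => f2 ω E) + avg (WW n d K) (fun ω => f3 ω E) := by
    intro E
    have hz := im_ne (E := E) h.hη
    refine (avg_le_Z fun ω => min_le_left _ _).trans ?_
    have hperm := avg_Z_perm (n := n) (d := d) (K := K) σ⁻¹ (E + η * Complex.I)
      (fun M => min 1 ‖M α' β'‖)
    have e1 : σ⁻¹ α' = α := by rw [← hσα]; simp
    have e2 : σ⁻¹ β' = β := by rw [← hσβ]; simp
    simp only [Matrix.submatrix_apply, e1, e2] at hperm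
    rw [← hperm, add_comm, add_assoc, add_assoc]
    refine add_le_add le_rfl ?_
    rw [← avg_add, ← avg_add]
    refine avg_mono fun ω hω => ?_
    have g1 : 0 ≤ f1 ω E := by
      simp only [hf1]
      split_ifs
      · exact le_rfl
      · exact norm_nonneg _
    have g2 : 0 ≤ f2 ω E := by
      simp only [hf2, hf2']
      refine mul_nonneg hr0.le ?_
      split_ifs
      · exact le_rfl
      · exact norm_nonneg _
    have g3 : 0 ≤ f3 ω E := ind_nonneg _
    by_cases hZ : ω ∈ ZZs n d K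
    · rw [if_pos hZ]
      have hv := centre_notMem hZ hiJ
      have hx := lead_notMem hZ α' J
      have hy := lead_notMem hZ β' (insert i1 J)
      rw [DJ_insert] at hy
      have h1 := stab_pt (G := ω.1) hz hv (P156.lead ω α') hy hr
      have h2 := min_one_tri (leadMat ω (E + η * Complex.I) α' β')
        (RL ω J (E + η * Complex.I) α' β') 0
      simp only [sub_zero] at h2
      rw [leadMat_eq, ← hJu, norm_sub_rev (RL ω (insert i1 J) _ _ _)] at h2
      rw [leadMat_eq, ← hJu]
      refine h2.trans ?_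
      have h3 : min 1 ‖RL ω J (E + η * Complex.I) α' β'‖ ≤ f1 ω E := by
        refine (min_le_right _ _).trans ?_
        simp only [hf1, hx, if_false]
        exact le_of_eq rfl
      have h4 : min 1 ‖RL ω J (E + η * Complex.I) α' β' -
          RL ω (insert i1 J) (E + η * Complex.I) α' β'‖ ≤ f2 ω E + f3 ω E := by
        unfold RL
        rw [DJ_insert]
        refine h1.trans ?_
        simp only [hf2, hf2', hf3, hx, if_false, DJ_insert]
        refine add_le_add (mul_le_mul_of_nonneg_left (min_le_right _ _) hr0.le) ?_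
        exact le_of_eq rfl
      linarith
    · rw [if_neg hZ]
      linarith
  have h0 : ∀ E : ℝ, 0 ≤ avg (WW n d K) (fun ω => min 1 ‖leadMat ω (E + η * Complex.I) α β‖) :=
    fun E => avg_nonneg fun ω _ => le_min zero_le_one (norm_nonneg _)
  have I0 := (BM.avg _ B0).integrable (μ := μ)
  have I1 := (BM.avg _ B1).integrable (μ := μ)
  have I2 := (BM.avg _ B2).integrable (μ := μ)
  have I3 := (BM.avg _ B3).integrable (μ := μ)
  refine (integral_mono_of_nonneg (Filter.Eventually.of_forall h0) (((I0.add I1).add I2).add I3)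
    (Filter.Eventually.of_forall hle)).trans ?_
  have hsum : ∫ E, ((fun E => avg (WW n d K) (fun ω => f0 ω E)) +
      (fun E => avg (WW n d K) (fun ω => f1 ω E)) +
      (fun E => avg (WW n d K) (fun ω => f2 ω E)) +
        fun E => avg (WW n d K) (fun ω => f3 ω E)) E ∂μ =
      ∫ E, avg (WW n d K) (fun ω => f0 ω E) ∂μ + ∫ E, avg (WW n d K) (fun ω => f1 ω E) ∂μ +
      ∫ E, avg (WW n d K) (fun ω => f2 ω E) ∂μ + ∫ E, avg (WW n d K) (fun ω => f3 ω E) ∂μ := by
    rw [integral_add' ((I0.add I1).add I2) I3, integral_add' (I0.add I1) I2, integral_add' I0 I1]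
  refine (le_of_eq hsum).trans ?_
  have hα'u : ∀ ω t, P156.lead (upd ω i1 t) α' = P156.lead (n := n) ω α' :=
    fun ω t => lead_upd ω h01 t
  have e0 : ∫ E, avg (WW n d K) (fun ω => f0 ω E) ∂μ ≤
      (K ^ 2 * (d + 1) ^ 2 : ℕ) / n * C₀ := h.bad_le hn
  have e1 : ∫ E, avg (WW n d K) (fun ω => f1 ω E) ∂μ ≤ 1 / r * C₀ := by
    refine (h.ward1 hiJ (x := fun ω => P156.lead ω α') hα'u (some α.2) hr0 hrn).trans ?_
    have hC := h.C₀_nonneg
    rw [div_eq_mul_inv, mul_comm, one_div]
    have h5 : (r ^ 2)⁻¹ ≤ r⁻¹ := by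
      rw [inv_le_inv₀ (by positivity) hr0]
      nlinarith
    gcongr
  have e2 : ∫ E, avg (WW n d K) (fun ω => f2 ω E) ∂μ ≤ 1 / r * C₀ := by
    have h6 : ∀ E, avg (WW n d K) (fun ω => f2 ω E) = r * avg (WW n d K)
        (fun ω => f2' ω E) := fun E => avg_const_mul _ _ _
    simp only [h6]
    rw [integral_const_mul]
    have h7 := h.ward1 hiJ (x := fun ω => P156.lead ω α') hα'u none hr0 hrn
    calc _ ≤ r * (C₀ / r ^ 2) := mul_le_mul_of_nonneg_left h7 hr0.le
      _ = 1 / r * C₀ := by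
        field_simp
  have e3 : ∫ E, avg (WW n d K) (fun ω => f3 ω E) ∂μ ≤ d ^ 2 / r * C₀ := by
    have h8 := h.Sx_le (d := d) (K := K) (fun ω => DJ ω (insert i1 J)) (fun ω => ω.2.1 i1)
      (fun ω => P156.lead ω β') hr0
    calc _ ≤ d ^ 2 * C₀ / r := h8
      _ = _ := by ring
  have e4 : ((K ^ 2 * (d + 1) ^ 2 : ℕ) / n + (2 + d ^ 2) / r) * C₀ =
      (K ^ 2 * (d + 1) ^ 2 : ℕ) / n * C₀ + 1 / r * C₀ + 1 / r * C₀ + d ^ 2 / r * C₀ := by ring
  rw [e4]
  linarith

end

end Vale.Agent.P156.B
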