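import Vale.Agent.P156.B.C5b
import Vale.Agent.P156.R2.Spec

/-!
P156, Part C: final forms of C3, C4, C5 (averages over the energy in an interval, and fixed `z`).
-/

namespace Vale.Agent.P156.B

open Finset H801 MeasureTheory Filter

noncomputable section

variable {n q d K : ℕ}

lemma c3e_le {r C₀ : ℝ} (hr : 0 < r) (hrn : r ≤ n) (hC : 0 ≤ C₀) :
    c3e n d K r C₀ ≤ ((K ^ 2 * (d + 1) ^ 2 : ℕ) + (2 + d ^ 2)) * C₀ / r := by
  unfold c3e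
  have h1 : ((K ^ 2 * (d + 1) ^ 2 : ℕ) : ℝ) / n ≤ (K ^ 2 * (d + 1) ^ 2 : ℕ) / r := by
    gcongr
  calc _ ≤ (((K ^ 2 * (d + 1) ^ 2 : ℕ) : ℝ) / r + (2 + d ^ 2) / r) * C₀ := by gcongr
    _ = _ := by ring

/-- **C5**, abstract form. -/
theorem C5_abs (q : ℕ) : ∃ C : ℝ, 0 ≤ C ∧ ∀ (n : ℕ) (μ : Measure ℝ) (η C₀ : ℝ), EM n μ η C₀ →
    ∀ ρ : ℝ, 1 ≤ ρ → ρ ^ 8 ≤ n * η → ρ ^ 2 ≤ n → ∀ F : ℝ → ℂ → ℝ, (∀ E, TestF 1 1 (F E)) →
    ∫ E : ℝ, avg (regularGraphs n (q + 1))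
      (fun G => dfct (q + 1) G (E + η * Complex.I) (F E) ^ 2) ∂μ ≤ C * C₀ / ρ := by
  classical
  obtain ⟨K, hK2, e, hinj⟩ : ∃ K : ℕ, 2 ≤ K ∧ ∃ e : Fin q ⊕ Fin q ⊕ Fin 2 → Fin K,
      Function.Injective e := by
    refine ⟨Fintype.card (Fin q ⊕ Fin q ⊕ Fin 2), ?_,
      fun x => Fintype.equivFin (Fin q ⊕ Fin q ⊕ Fin 2) x,
      (Fintype.equivFin (Fin q ⊕ Fin q ⊕ Fin 2)).injective⟩
    simp only [Fintype.card_sum, Fintype.card_fin]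
    omega
  set b0 : ℝ := ((K ^ 2 * (q + 1 + 1) ^ 2 : ℕ) : ℝ) with hb0
  set M : ℝ := (K + 1) * (b0 + (2 + ((q + 1 : ℕ) : ℝ) ^ 2)) with hM
  have hb00 : 0 ≤ b0 := by positivity
  have hM0 : 0 ≤ M := by positivity
  refine ⟨4 * b0 + 12 * (q * (q * (2 * M + ((q + 1 : ℕ) : ℝ) ^ 2))) + 12 * (q * M),
    by positivity, fun n μ η C₀ h ρ hρ hρn hρ2 F hF => ?_⟩
  have := h.finite
  have hC := h.C₀_nonneg
  have hρ0 : 0 < ρ := by linarith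
  have hr : (1 : ℝ) ≤ ρ ^ 2 := by nlinarith
  have hrn : (ρ ^ 2) ^ 4 ≤ n * η := by
    rw [← pow_mul]
    exact hρn
  have hn : 0 < n := EM.n_pos (by positivity) hrn
  set j := e (Sum.inr (Sum.inr 0)) with hj
  set j' := e (Sum.inr (Sum.inr 1)) with hj'
  set κ : Fin q → Fin K := fun k => e (Sum.inl k) with hκ
  set κ' : Fin q → Fin K := fun k => e (Sum.inr (Sum.inl k)) with hκ'
  have hbmA : ∀ j : Fin K, ∀ ω ∈ WW n (q + 1) K,
      BM (fun E : ℝ => devA ω (E + η * Complex.I) ρ j) := fun j ω _ => BM.devA h.hη ω ρ j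
  have hbmB : ∀ κ : Fin q → Fin K, ∀ ω ∈ WW n (q + 1) K,
      BM (fun E : ℝ => devB ω (E + η * Complex.I) κ) := fun κ ω _ => BM.devB h.hη ω κ
  have hbad : ∀ ω ∈ WW n (q + 1) K,
      BM (fun _ : ℝ => 4 * (if ω ∉ ZZs n (q + 1) K then (1 : ℝ) else 0)) :=
    fun ω _ => BM.const _
  have h1 := IA_mono (μ := μ) (s := WW n (q + 1) K)
    (F := fun E => avg (regularGraphs n (q + 1))
      (fun G => dfct (q + 1) G (E + η * Complex.I) (F E) ^ 2))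
    (g := fun ω E => 4 * (if ω ∉ ZZs n (q + 1) K then (1 : ℝ) else 0) +
        6 * (devA ω (E + η * Complex.I) ρ j + devA ω (E + η * Complex.I) ρ j' +
          devB ω (E + η * Complex.I) κ + devB ω (E + η * Complex.I) κ'))
    (fun E => avg_nonneg fun G _ => sq_nonneg _)
    (fun ω hω => (hbad ω hω).add (((((hbmA j ω hω).add (hbmA j' ω hω)).add
      (hbmB κ ω hω)).add (hbmB κ' ω hω)).const_mul 6))
    (fun E => dfct_le hn (hF E) E h.hη hρ hinj)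
  refine h1.trans ?_
  rw [IA_add hbad (fun ω hω => ((((hbmA j ω hω).add (hbmA j' ω hω)).add
      (hbmB κ ω hω)).add (hbmB κ' ω hω)).const_mul 6), IA_const_mul 6, IA_add
      (fun ω hω => ((hbmA j ω hω).add (hbmA j' ω hω)).add (hbmB κ ω hω)) (hbmB κ'),
      IA_add (fun ω hω => (hbmA j ω hω).add (hbmA j' ω hω)) (hbmB κ),
      IA_add (hbmA j) (hbmA j'), IA_const_mul 4]
  have eB : ∀ κ : Fin q → Fin K, IA μ (WW n (q + 1) K)
      (fun ω E => devB ω (E + η * Complex.I) κ) ≤ q * (M * C₀ / ρ) := by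
    intro κ
    refine (h.devB_le hr hrn κ).trans ?_
    refine mul_le_mul_of_nonneg_left ?_ (Nat.cast_nonneg _)
    have h2 : (K + 1 : ℝ) * c3e n (q + 1) K (ρ ^ 2) C₀ ≤ (K + 1) *
        (((K ^ 2 * (q + 1 + 1) ^ 2 : ℕ) + (2 + ((q + 1 : ℕ) : ℝ) ^ 2)) * C₀ / ρ ^ 2) :=
      mul_le_mul_of_nonneg_left (c3e_le (by positivity) hρ2 hC) (by positivity)
    refine h2.trans ?_
    have h3 : (K + 1 : ℝ) * (((K ^ 2 * (q + 1 + 1) ^ 2 : ℕ) + (2 + ((q + 1 : ℕ) : ℝ) ^ 2)) * C₀ /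
        ρ ^ 2) = M * C₀ / ρ ^ 2 := by
      rw [hM, hb0]
      ring
    rw [h3]
    have h4 : ρ ≤ ρ ^ 2 := by nlinarith
    gcongr
  have eA : ∀ j : Fin K, IA μ (WW n (q + 1) K)
      (fun ω E => devA ω (E + η * Complex.I) ρ j) ≤
      q * (q * (2 * M + ((q + 1 : ℕ) : ℝ) ^ 2)) * C₀ / ρ := by
    intro j
    refine (h.devA_le hK2 hr hrn hρ j).trans ?_
    have h2 : (K + 1 : ℝ) * c3e n (q + 1) K (ρ ^ 2) C₀ ≤ M * C₀ / ρ ^ 2 := by
      have h2 : (K + 1 : ℝ) * c3e n (q + 1) K (ρ ^ 2) C₀ ≤ (K + 1) *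
        (((K ^ 2 * (q + 1 + 1) ^ 2 : ℕ) + (2 + ((q + 1 : ℕ) : ℝ) ^ 2)) * C₀ / ρ ^ 2) :=
        mul_le_mul_of_nonneg_left (c3e_le (by positivity) hρ2 hC) (by positivity)
      refine h2.trans (le_of_eq ?_)
      rw [hM, hb0]
      ring
    have h3 : M * C₀ / ρ ^ 2 ≤ M * C₀ / ρ := by
      have h4 : ρ ≤ ρ ^ 2 := by nlinarith
      gcongr
    have h5 : ρ * ((K + 1 : ℝ) * c3e n (q + 1) K (ρ ^ 2) C₀) ≤ M * C₀ / ρ := by
      calc _ ≤ ρ * (M * C₀ / ρ ^ 2) := mul_le_mul_of_nonneg_left h2 hρ0.le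
        _ = M * C₀ / ρ := by
          field_simp
    have h6 : ρ * ((K + 1 : ℝ) * c3e n (q + 1) K (ρ ^ 2) C₀) + ((q + 1 : ℕ) : ℝ) ^ 2 * C₀ / ρ +
        (K + 1) * c3e n (q + 1) K (ρ ^ 2) C₀ ≤ (2 * M + ((q + 1 : ℕ) : ℝ) ^ 2) * C₀ / ρ := by
      have h7 : (2 * M + ((q + 1 : ℕ) : ℝ) ^ 2) * C₀ / ρ =
          M * C₀ / ρ + ((q + 1 : ℕ) : ℝ) ^ 2 * C₀ / ρ + M * C₀ / ρ := by ring
      rw [h7]
      linarith
    calc _ ≤ (q : ℝ) * (q * ((2 * M + ((q + 1 : ℕ) : ℝ) ^ 2) * C₀ / ρ)) :=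
          mul_le_mul_of_nonneg_left (mul_le_mul_of_nonneg_left h6 (Nat.cast_nonneg _))
            (Nat.cast_nonneg _)
      _ = _ := by ring
  have e0 : IA μ (WW n (q + 1) K) (fun ω _ => if ω ∉ ZZs n (q + 1) K then (1 : ℝ) else 0) ≤
      b0 * C₀ / ρ := by
    refine (h.bad_le hn).trans ?_
    have h2 : ρ ≤ n := by nlinarith
    have h3 : b0 / n ≤ b0 / ρ := by gcongr
    calc _ ≤ b0 / ρ * C₀ := mul_le_mul_of_nonneg_right h3 hC
      _ = _ := by ring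
  have e1 := eA j
  have e2 := eA j'
  have e3 := eB κ
  have e4 := eB κ'
  have e5 : (4 * b0 + 12 * (q * (q * (2 * M + ((q + 1 : ℕ) : ℝ) ^ 2))) + 12 * (q * M)) * C₀ / ρ =
      4 * (b0 * C₀ / ρ) + 6 * (q * (q * (2 * M + ((q + 1 : ℕ) : ℝ) ^ 2)) * C₀ / ρ +
        q * (q * (2 * M + ((q + 1 : ℕ) : ℝ) ^ 2)) * C₀ / ρ + q * (M * C₀ / ρ) +
        q * (M * C₀ / ρ)) := by ring
  rw [e5]
  linarith

/-! ### Powers -/

lemma rpow_inv {x : ℝ} (hx : 1 ≤ x) (k : ℕ) (hk : 0 < k) :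
    1 ≤ x ^ ((k : ℝ)⁻¹) ∧ (x ^ ((k : ℝ)⁻¹)) ^ k = x := by
  constructor
  · exact Real.one_le_rpow hx (by positivity)
  · rw [← Real.rpow_natCast, ← Real.rpow_mul (by linarith), inv_mul_cancel₀ (by positivity),
      Real.rpow_one]

lemma pow_le_self_of {r x : ℝ} (hr : 1 ≤ r) {k m : ℕ} (hk : k ≤ m) (hx : r ^ m = x) :
    r ^ k ≤ x := by
  rw [← hx]
  exact pow_le_pow_right₀ hr hk

/-! ### Interval forms -/

/-- **C5**: the quenched recursion. -/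
theorem C5 {d : ℕ} (hd : 1 ≤ d) {a b : ℝ} (hab : a ≤ b) : ∃ C : ℝ, ∀ n : ℕ, 0 < n →
    ∀ η : ℝ, 1 / n ≤ η → η ≤ 1 → ∀ F : ℝ → ℂ → ℝ, (∀ E, TestF 1 1 (F E)) →
    ∫ E in a..b, avg (regularGraphs n d)
      (fun G => dfct d G (E + η * Complex.I) (F E) ^ 2) ≤ C * ((n : ℝ) * η) ^ (-(1 / 8 : ℝ)) := by
  obtain ⟨q, rfl⟩ : ∃ q, d = q + 1 := ⟨d - 1, by omega⟩
  obtain ⟨C, hC, h⟩ := C5_abs q
  refine ⟨C * (160 + (b - a)), fun n hn η hη1 hη2 F hF => ?_⟩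
  have hn0 : (0 : ℝ) < n := by exact_mod_cast hn
  have hη : 0 < η := lt_of_lt_of_le (by positivity) hη1
  have hx : 1 ≤ (n : ℝ) * η := by
    rw [div_le_iff₀ hn0] at hη1
    linarith
  have hxn : (n : ℝ) * η ≤ n := mul_le_of_le_one_right hn0.le hη2
  obtain ⟨h1, h2⟩ := rpow_inv hx 8 (by norm_num)
  set ρ := ((n : ℝ) * η) ^ (((8 : ℕ) : ℝ)⁻¹) with hρ
  have h3 := h n _ η _ (em_interval n hab hη) ρ h1 h2.le
    ((pow_le_self_of h1 (by norm_num) h2).trans hxn) F hF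
  rw [intervalIntegral.integral_of_le hab]
  refine h3.trans (le_of_eq ?_)
  have h4 : ((n : ℝ) * η) ^ (-(1 / 8 : ℝ)) = 1 / ρ := by
    rw [Real.rpow_neg (by linarith), hρ, one_div]
    norm_num
  rw [h4]
  ring

/-- **C3**: off-diagonal entries at the leads. -/
theorem C3 (d K : ℕ) {a b : ℝ} (hab : a ≤ b) : ∃ C : ℝ, ∀ n : ℕ, 0 < n →
    ∀ η : ℝ, 1 / n ≤ η → η ≤ 1 → ∀ x y : Fin K × Fin d, x ≠ y →
    ∫ E in a..b, avg (WW n d K) (fun ω => min 1 ‖leadMat ω (E + η * Complex.I) x y‖) ≤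
      C * ((n : ℝ) * η) ^ (-(1 / 4 : ℝ)) := by
  refine ⟨(K + 3) * ((((K + 2) ^ 2 * (d + 1) ^ 2 : ℕ) + (2 + d ^ 2)) * (160 + (b - a))),
    fun n hn η hη1 hη2 x y hxy => ?_⟩
  have hn0 : (0 : ℝ) < n := by exact_mod_cast hn
  have hη : 0 < η := lt_of_lt_of_le (by positivity) hη1
  have hx : 1 ≤ (n : ℝ) * η := by
    rw [div_le_iff₀ hn0] at hη1
    linarith
  have hxn : (n : ℝ) * η ≤ n := mul_le_of_le_one_right hn0.le hη2
  obtain ⟨h1, h2⟩ := rpow_inv hx 4 (by norm_num)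
  set r := ((n : ℝ) * η) ^ (((4 : ℕ) : ℝ)⁻¹) with hr
  have hr0 : 0 < r := by linarith
  have hrn : r ≤ n := by
    have := (pow_le_self_of (k := 1) h1 (by norm_num) h2).trans hxn
    rwa [pow_one] at this
  have hE := em_interval n hab hη
  have h3 := hE.C3 h1 h2.le hxy
  rw [intervalIntegral.integral_of_le hab]
  refine h3.trans ?_
  have h4 : ((n : ℝ) * η) ^ (-(1 / 4 : ℝ)) = 1 / r := by
    rw [Real.rpow_neg (by linarith), hr, one_div]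
    norm_num
  rw [h4]
  have h5 := c3e_le (n := n) (d := d) (K := K + 2) hr0 hrn hE.C₀_nonneg
  calc _ ≤ ((K : ℝ) + 3) * ((((K + 2) ^ 2 * (d + 1) ^ 2 : ℕ) + (2 + (d : ℝ) ^ 2)) *
        (160 + (b - a)) / r) := mul_le_mul_of_nonneg_left h5 (by positivity)
    _ = _ := by ring

/-- **C4**: the diagonal entry at a lead versus the entry with one centre removed. -/
theorem C4 (d K : ℕ) {a b : ℝ} (hab : a ≤ b) : ∃ C : ℝ, ∀ n : ℕ, 0 < n →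
    ∀ η : ℝ, 1 / n ≤ η → η ≤ 1 → ∀ (j : Fin K) (k : Fin d),
    ∫ E in a..b, avg (WW n d K) (fun ω => min 1 ‖leadMat ω (E + η * Complex.I) (j, k) (j, k) -
      hc ω.1 (E + η * Complex.I) (ω.2.1 j, ω.2.2 j k)‖) ≤
      C * ((n : ℝ) * η) ^ (-(1 / 4 : ℝ)) := by
  refine ⟨K * (((K ^ 2 * (d + 1) ^ 2 : ℕ) + (2 + d ^ 2)) * (160 + (b - a))),
    fun n hn η hη1 hη2 j k => ?_⟩
  have hn0 : (0 : ℝ) < n := by exact_mod_cast hn
  have hη : 0 < η := lt_of_lt_of_le (by positivity) hη1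
  have hx : 1 ≤ (n : ℝ) * η := by
    rw [div_le_iff₀ hn0] at hη1
    linarith
  have hxn : (n : ℝ) * η ≤ n := mul_le_of_le_one_right hn0.le hη2
  obtain ⟨h1, h2⟩ := rpow_inv hx 4 (by norm_num)
  set r := ((n : ℝ) * η) ^ (((4 : ℕ) : ℝ)⁻¹) with hr
  have hr0 : 0 < r := by linarith
  have hrn : r ≤ n := by
    have := (pow_le_self_of (k := 1) h1 (by norm_num) h2).trans hxn
    rwa [pow_one] at this
  have hE := em_interval n hab hη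
  have h3 := hE.C4 (d := d) (K := K) h1 h2.le j (α := (j, k)) (β := (j, k)) rfl
  rw [intervalIntegral.integral_of_le hab]
  have h6 : ∀ ω : SimpleGraph (Fin n) × StarPos n d K, ∀ z : ℂ,
      hc ω.1 z (ω.2.1 j, ω.2.2 j k) = RL ω {j} z (j, k) (j, k) := by
    intro ω z
    unfold hc RL
    rw [DJ_singleton]
    rfl
  simp only [h6, norm_sub_rev (leadMat _ _ _ _)]
  refine h3.trans ?_
  have h4 : ((n : ℝ) * η) ^ (-(1 / 4 : ℝ)) = 1 / r := by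
    rw [Real.rpow_neg (by linarith), hr, one_div]
    norm_num
  rw [h4]
  have h5 := c3e_le (n := n) (d := d) (K := K) hr0 hrn hE.C₀_nonneg
  have h7 := stepErr_le_c3e (n := n) (d := d) (K := K) hr0.le hE.C₀_nonneg
  calc _ ≤ (K : ℝ) * (((K ^ 2 * (d + 1) ^ 2 : ℕ) + (2 + (d : ℝ) ^ 2)) *
        (160 + (b - a)) / r) := mul_le_mul_of_nonneg_left (h7.trans h5) (by positivity)
    _ = _ := by ring

/-! ### Fixed `z` -/

/-- The parameter for a fixed `z`. -/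
def rz (n : ℕ) (η : ℝ) : ℝ := ((n : ℝ) * min 1 η) ^ (((8 : ℕ) : ℝ)⁻¹)

lemma tendsto_rz {η : ℝ} (hη : 0 < η) : Tendsto (fun n => rz n η) atTop atTop := by
  have h1 : Tendsto (fun n : ℕ => (n : ℝ) * min 1 η) atTop atTop :=
    tendsto_natCast_atTop_atTop.atTop_mul_const (lt_min one_pos hη)
  exact (tendsto_rpow_atTop (by norm_num)).comp h1

lemma rz_spec {n : ℕ} {η : ℝ} (hn : 1 ≤ (n : ℝ) * min 1 η) :
    1 ≤ rz n η ∧ rz n η ^ 4 ≤ n * η ∧ rz n η ^ 8 ≤ n * η ∧ rz n η ≤ n ∧ rz n η ^ 2 ≤ n := by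
  obtain ⟨h1, h2⟩ := rpow_inv hn 8 (by norm_num)
  have h3 : (n : ℝ) * min 1 η ≤ n * η := by
    gcongr
    exact min_le_right _ _
  have h4 : (n : ℝ) * min 1 η ≤ n := mul_le_of_le_one_right (Nat.cast_nonneg _) (min_le_left _ _)
  refine ⟨h1, (pow_le_self_of h1 (by norm_num) h2).trans h3, h2.le.trans h3, ?_,
    (pow_le_self_of h1 (by norm_num) h2).trans h4⟩
  have := (pow_le_self_of (k := 1) h1 (by norm_num) h2).trans h4
  rwa [pow_one] at this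

lemma eventually_rz {η : ℝ} (hη : 0 < η) (C : ℝ) {ε : ℝ} (hε : 0 < ε) :
    ∀ᶠ n : ℕ in atTop, 1 ≤ (n : ℝ) * min 1 η ∧ C / rz n η ≤ ε := by
  have h1 : Tendsto (fun n : ℕ => (n : ℝ) * min 1 η) atTop atTop :=
    tendsto_natCast_atTop_atTop.atTop_mul_const (lt_min one_pos hη)
  have h2 : Tendsto (fun n => C / rz n η) atTop (nhds 0) := (tendsto_rz hη).const_div_atTop C
  exact (h1.eventually_ge_atTop 1).and (h2.eventually_le_const hε)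

lemma eta_form (z : ℂ) : (z.re : ℂ) + z.im * Complex.I = z := Complex.re_add_im z

/-- **C5** at fixed `z`. -/
theorem C5fix {d : ℕ} (hd : 1 ≤ d) {z : ℂ} (hz : 0 < z.im) {ε : ℝ} (hε : 0 < ε) :
    ∀ᶠ n : ℕ in atTop, ∀ F : ℂ → ℝ, TestF 1 1 F →
      avg (regularGraphs n d) (fun G => dfct d G z F ^ 2) ≤ ε := by
  obtain ⟨q, rfl⟩ : ∃ q, d = q + 1 := ⟨d - 1, by omega⟩
  obtain ⟨C, hC, h⟩ := C5_abs q
  filter_upwards [eventually_rz hz (C * max 1 (1 / z.im)) hε] with n hn F hF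
  obtain ⟨h1, h2, h3, h4, h5⟩ := rz_spec hn.1
  have h6 := h n _ z.im _ (em_dirac n z.re hz) (rz n z.im) h1 h3 h5 (fun _ => F) (fun _ => hF)
  rw [integral_dirac, eta_form] at h6
  exact h6.trans hn.2

/-- **C3** at fixed `z`. -/
theorem C3fix (d K : ℕ) {z : ℂ} (hz : 0 < z.im) {ε : ℝ} (hε : 0 < ε) :
    ∀ᶠ n : ℕ in atTop, ∀ x y : Fin K × Fin d, x ≠ y →
      avg (WW n d K) (fun ω => min 1 ‖leadMat ω z x y‖) ≤ ε := by
  filter_upwards [eventually_rz hz ((K + 3) *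
    ((((K + 2) ^ 2 * (d + 1) ^ 2 : ℕ) + (2 + (d : ℝ) ^ 2)) * max 1 (1 / z.im))) hε] with n hn x y hxy
  obtain ⟨h1, h2, h3, h4, h5⟩ := rz_spec hn.1
  have hE := em_dirac n z.re hz
  have h6 := hE.C3 h1 h2 hxy
  rw [integral_dirac, eta_form] at h6
  have h7 := c3e_le (n := n) (d := d) (K := K + 2) (by linarith) h4 hE.C₀_nonneg
  refine h6.trans (le_trans ?_ hn.2)
  calc _ ≤ ((K : ℝ) + 3) * ((((K + 2) ^ 2 * (d + 1) ^ 2 : ℕ) + (2 + (d : ℝ) ^ 2)) *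
        max 1 (1 / z.im) / rz n z.im) := mul_le_mul_of_nonneg_left h7 (by positivity)
    _ = _ := by ring

/-- **C4** at fixed `z`. -/
theorem C4fix (d K : ℕ) {z : ℂ} (hz : 0 < z.im) {ε : ℝ} (hε : 0 < ε) :
    ∀ᶠ n : ℕ in atTop, ∀ (j : Fin K) (k : Fin d),
      avg (WW n d K) (fun ω => min 1 ‖leadMat ω z (j, k) (j, k) -
        hc ω.1 z (ω.2.1 j, ω.2.2 j k)‖) ≤ ε := by
  filter_upwards [eventually_rz hz (K *
    (((K ^ 2 * (d + 1) ^ 2 : ℕ) + (2 + (d : ℝ) ^ 2)) * max 1 (1 / z.im))) hε] with n hn j k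
  obtain ⟨h1, h2, h3, h4, h5⟩ := rz_spec hn.1
  have hE := em_dirac n z.re hz
  have h6 := hE.C4 (d := d) (K := K) h1 h2 j (α := (j, k)) (β := (j, k)) rfl
  rw [integral_dirac, eta_form] at h6
  have h8 : ∀ ω : SimpleGraph (Fin n) × StarPos n d K, ∀ z : ℂ,
      hc ω.1 z (ω.2.1 j, ω.2.2 j k) = RL ω {j} z (j, k) (j, k) := by
    intro ω z
    unfold hc RL
    rw [DJ_singleton]
    rfl
  simp only [h8, norm_sub_rev (leadMat _ _ _ _)]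
  have h5 := c3e_le (n := n) (d := d) (K := K) (by linarith) h4 hE.C₀_nonneg
  have h7 := stepErr_le_c3e (n := n) (d := d) (K := K) (r := rz n z.im) (by linarith) hE.C₀_nonneg
  refine h6.trans (le_trans ?_ hn.2)
  calc _ ≤ (K : ℝ) * (((K ^ 2 * (d + 1) ^ 2 : ℕ) + (2 + (d : ℝ) ^ 2)) *
        max 1 (1 / z.im) / rz n z.im) := mul_le_mul_of_nonneg_left (h7.trans h5) (by positivity)
    _ = _ := by ring

end

end Vale.Agent.P156.B
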