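import Vale.Agent.P156.B.C3
import Vale.Agent.P156.H520.Star

/-!
P156, Part C (C5), pointwise part: the entry `h_e` of a directed edge from the last lead to the
centre of a star.
-/

namespace Vale.Agent.P156.B

open Finset H801 MeasureTheory

noncomputable section

variable {n q K : ℕ}

lemma im_neg_one_div {h : ℂ} (hh : 0 < h.im) : 0 < (-1 / h).im := by
  have h0 : h ≠ 0 := by
    rintro rfl
    simp at hh
  rw [neg_div, one_div, Complex.neg_im, Complex.inv_im, neg_div, neg_neg]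
  exact div_pos hh (Complex.normSq_pos.2 h0)

lemma TestF.abs_le {F : ℂ → ℝ} (hF : TestF 1 1 F) {g : ℂ} (hg : 0 < g.im) : |F (-1 / g)| ≤ 1 :=
  hF.1 _ (im_neg_one_div hg)

lemma TestF.le_two {F : ℂ → ℝ} (hF : TestF 1 1 F) {g g' : ℂ} (hg : 0 < g.im) (hg' : 0 < g'.im) :
    |F (-1 / g) - F (-1 / g')| ≤ 2 * min 1 ‖g - g'‖ := by
  have h1 := (hF.2 g g' hg hg').2
  rw [one_mul] at h1
  have h2 : |F (-1 / g) - F (-1 / g')| ≤ 2 := by
    refine (abs_sub _ _).trans ?_
    have := TestF.abs_le hF hg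
    have := TestF.abs_le hF hg'
    linarith
  rcases le_total 1 ‖g - g'‖ with h3 | h3
  · rw [min_eq_left h3]
    linarith
  · rw [min_eq_right h3]
    have := norm_nonneg (g - g')
    linarith

lemma min_one_sum {ι : Type*} (s : Finset ι) (f : ι → ℂ) :
    min 1 ‖∑ i ∈ s, f i‖ ≤ ∑ i ∈ s, min 1 ‖f i‖ := by
  classical
  induction s using Finset.induction_on with
  | empty => simp
  | insert a s ha ih =>
    rw [Finset.sum_insert ha, Finset.sum_insert ha]
    have h := min_one_tri (f a + ∑ i ∈ s, f i) (∑ i ∈ s, f i) 0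
    simp only [sub_zero, add_sub_cancel_right] at h
    linarith

/-- The directed edge from the last lead to the centre. -/
def eA (ω : SimpleGraph (Fin n) × StarPos n (q + 1) K) (j : Fin K) : Fin n × Fin n :=
  (ω.2.2 j (Fin.last q), ω.2.1 j)

/-- The directed edge from the centre to the first lead. -/
def eB (ω : SimpleGraph (Fin n) × StarPos n (q + 1) K) (j : Fin K) : Fin n × Fin n :=
  (ω.2.1 j, ω.2.2 j 0)

lemma sum_nb {ω : SimpleGraph (Fin n) × StarPos n (q + 1) K} (hω : ω ∈ ZZs n (q + 1) K)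
    (j : Fin K) (f : Fin n → ℂ) :
    ∑ b ∈ univ.filter (fun b => b ∉ insert (ω.2.1 j) ({ω.2.2 j (Fin.last q)} : Finset (Fin n))),
      (adj ω.1 (ω.2.1 j) b : ℂ) * f b = ∑ k : Fin q, f (P156.lead ω (j, k.castSucc)) := by
  have hs := H520.ZZs_star hω j
  have h1 := H520.sum_adj_star hs
    (fun b => if b ∉ insert (ω.2.1 j) ({ω.2.2 j (Fin.last q)} : Finset (Fin n)) then f b else 0)
  rw [Finset.sum_filter]
  have h2 : ∀ b, (if b ∉ insert (ω.2.1 j) ({ω.2.2 j (Fin.last q)} : Finset (Fin n)) then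
      (adj ω.1 (ω.2.1 j) b : ℂ) * f b else 0) = (adj ω.1 b (ω.2.1 j) : ℂ) *
      (if b ∉ insert (ω.2.1 j) ({ω.2.2 j (Fin.last q)} : Finset (Fin n)) then f b else 0) := by
    intro b
    rw [H520.adj_symm]
    split_ifs <;> simp
  rw [Finset.sum_congr rfl fun b _ => h2 b, h1, Fin.sum_univ_castSucc]
  have h3 : (if ω.2.2 j (Fin.last q) ∉ insert (ω.2.1 j) ({ω.2.2 j (Fin.last q)} : Finset (Fin n)) then
      f (ω.2.2 j (Fin.last q)) else 0) = 0 := by
    rw [if_neg]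
    simp
  rw [h3, add_zero]
  refine Finset.sum_congr rfl fun k _ => ?_
  rw [if_pos]
  · rfl
  · rw [Finset.mem_insert, Finset.mem_singleton, not_or]
    refine ⟨H520.ZZs_ne hω j k.castSucc j, fun hcon => ?_⟩
    have := hs.1 hcon
    exact (Fin.castSucc_lt_last k).ne this

/-- The denominator of the recursion. -/
def gA (ω : SimpleGraph (Fin n) × StarPos n (q + 1) K) (z : ℂ) (j : Fin K) : ℂ :=
  z + ∑ k : Fin q, ∑ k' : Fin q,
    resD (adj ω.1) (insert (P156.lead ω (j, Fin.last q)) {ω.2.1 j}) z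
      (P156.lead ω (j, k.castSucc)) (P156.lead ω (j, k'.castSucc))

lemma hc_eA_mul {ω : SimpleGraph (Fin n) × StarPos n (q + 1) K} (hω : ω ∈ ZZs n (q + 1) K)
    {z : ℂ} (hz : z.im ≠ 0) (j : Fin K) : hc ω.1 z (eA ω j) * gA ω z j = -1 := by
  have hv : ω.2.1 j ∉ ({ω.2.2 j (Fin.last q)} : Finset (Fin n)) := by
    rw [Finset.mem_singleton]
    exact (H520.ZZs_ne hω j (Fin.last q) j).symm
  have hvv : adj ω.1 (ω.2.1 j) (ω.2.1 j) = 0 := H520.adj_centres hω j j
  have h := resD_diag (adj_isHermitian ω.1) hz hv hvv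
  have h2 : ∀ b ∈ univ.filter (fun b => b ∉ insert (ω.2.1 j) ({ω.2.2 j (Fin.last q)} : Finset (Fin n))),
      ∑ c ∈ univ.filter (fun c => c ∉ insert (ω.2.1 j) ({ω.2.2 j (Fin.last q)} : Finset (Fin n))),
        (adj ω.1 (ω.2.1 j) b : ℂ) * (adj ω.1 (ω.2.1 j) c : ℂ) *
          resD (adj ω.1) (insert (ω.2.1 j) {ω.2.2 j (Fin.last q)}) z b c =
      (adj ω.1 (ω.2.1 j) b : ℂ) * ∑ k' : Fin q,
        resD (adj ω.1) (insert (ω.2.1 j) {ω.2.2 j (Fin.last q)}) z b
          (P156.lead ω (j, k'.castSucc)) := by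
    intro b _
    rw [← sum_nb hω j (fun c =>
      resD (adj ω.1) (insert (ω.2.1 j) {ω.2.2 j (Fin.last q)}) z b c), Finset.mul_sum]
    exact Finset.sum_congr rfl fun c _ => by ring
  rw [Finset.sum_congr rfl h2, sum_nb hω j] at h
  have h3 : (insert (ω.2.1 j) {ω.2.2 j (Fin.last q)} : Finset (Fin n)) =
      insert (P156.lead ω (j, Fin.last q)) {ω.2.1 j} := Finset.pair_comm _ _
  rw [h3] at h
  exact h

lemma hc_im_pos {ω : SimpleGraph (Fin n) × StarPos n (q + 1) K}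
    (hω : ω ∈ WW n (q + 1) K) (E : ℝ) {η : ℝ} (hη : 0 < η) (j : Fin K) (k : Fin (q + 1)) :
    0 < (hc ω.1 (E + η * Complex.I) (ω.2.1 j, ω.2.2 j k)).im ∧
      0 < (hc ω.1 (E + η * Complex.I) (ω.2.2 j k, ω.2.1 j)).im := by
  have hs := mem_stars.1 (mem_mstars.1 (mem_WW.1 hω).2 j)
  have hadj : ω.1.Adj (ω.2.1 j) (ω.2.2 j k) := hs.2 k
  constructor
  · refine im_resD_diag_pos (adj_isHermitian ω.1) E hη ?_
    rw [Finset.mem_singleton]
    exact hadj.ne'
  · refine im_resD_diag_pos (adj_isHermitian ω.1) E hη ?_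
    rw [Finset.mem_singleton]
    exact hadj.ne

/-- The recursion in terms of the diagonal entries at `q` leads. -/
def TD (F : ℂ → ℝ) (ω : SimpleGraph (Fin n) × StarPos n (q + 1) K) (z : ℂ)
    (a : Fin q → Fin K × Fin (q + 1)) : ℝ :=
  F (-1 / (z + ∑ k, leadMat ω z (a k) (a k)))

lemma im_add_sum_pos {E η : ℝ} (hη : 0 < η) {ι : Type*} (s : Finset ι) {f : ι → ℂ}
    (hf : ∀ i ∈ s, 0 ≤ (f i).im) : 0 < ((E : ℂ) + η * Complex.I + ∑ i ∈ s, f i).im := by
  rw [Complex.add_im, Complex.im_sum]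
  have := Finset.sum_nonneg hf
  have h2 : ((E : ℂ) + η * Complex.I).im = η := by simp
  linarith

lemma im_leadMat_nonneg (ω : SimpleGraph (Fin n) × StarPos n (q + 1) K) (E : ℝ) {η : ℝ}
    (hη : 0 < η) (α : Fin K × Fin (q + 1)) :
    0 ≤ (leadMat ω (E + η * Complex.I) α α).im := by
  rw [leadMat_eq]
  exact im_resD_diag_nonneg (adj_isHermitian ω.1) _ E hη _

lemma TD_abs_le {F : ℂ → ℝ} (hF : TestF 1 1 F) (ω : SimpleGraph (Fin n) × StarPos n (q + 1) K)
    (E : ℝ) {η : ℝ} (hη : 0 < η) (a : Fin q → Fin K × Fin (q + 1)) :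
    |TD F ω (E + η * Complex.I) a| ≤ 1 :=
  TestF.abs_le hF (im_add_sum_pos hη _ fun k _ => im_leadMat_nonneg ω E hη (a k))

/-- The deviation for the edges from centres to leads. -/
def devB (ω : SimpleGraph (Fin n) × StarPos n (q + 1) K) (z : ℂ) (κ : Fin q → Fin K) : ℝ :=
  ∑ k, min 1 ‖RL ω {κ k} z (κ k, 0) (κ k, 0) - leadMat ω z (κ k, 0) (κ k, 0)‖

/-- The function of `q` edges from centres to leads. -/
def FB (F : ℂ → ℝ) (ω : SimpleGraph (Fin n) × StarPos n (q + 1) K) (z : ℂ) (κ : Fin q → Fin K) :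
    ℝ := F (-1 / (z + ∑ k, hc ω.1 z (eB ω (κ k))))

lemma hc_eB (ω : SimpleGraph (Fin n) × StarPos n (q + 1) K) (z : ℂ) (j : Fin K) :
    hc ω.1 z (eB ω j) = RL ω {j} z (j, 0) (j, 0) := by
  unfold hc RL eB
  rw [DJ_singleton]
  rfl

lemma FB_sub_le {F : ℂ → ℝ} (hF : TestF 1 1 F) {ω : SimpleGraph (Fin n) × StarPos n (q + 1) K}
    (hω : ω ∈ WW n (q + 1) K) (E : ℝ) {η : ℝ} (hη : 0 < η) (κ : Fin q → Fin K) :
    |FB F ω (E + η * Complex.I) κ - TD F ω (E + η * Complex.I) (fun k => (κ k, 0))| ≤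
      2 * devB ω (E + η * Complex.I) κ := by
  unfold FB TD
  refine (TestF.le_two hF (im_add_sum_pos hη _ fun k _ => (hc_im_pos hω E hη (κ k) 0).1.le)
    (im_add_sum_pos hη _ fun k _ => im_leadMat_nonneg ω E hη _)).trans ?_
  refine mul_le_mul_of_nonneg_left ?_ (by norm_num)
  rw [add_sub_add_left_eq_sub, ← Finset.sum_sub_distrib]
  refine (min_one_sum _ _).trans (le_of_eq ?_)
  unfold devB
  refine Finset.sum_congr rfl fun k _ => ?_
  rw [← hc_eB]
  rfl

lemma FB_abs_le {F : ℂ → ℝ} (hF : TestF 1 1 F) {ω : SimpleGraph (Fin n) × StarPos n (q + 1) K}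
    (hω : ω ∈ WW n (q + 1) K) (E : ℝ) {η : ℝ} (hη : 0 < η) (κ : Fin q → Fin K) :
    |FB F ω (E + η * Complex.I) κ| ≤ 1 :=
  TestF.abs_le hF (im_add_sum_pos hη _ fun k _ => (hc_im_pos hω E hη (κ k) 0).1.le)

open Classical in
/-- The deviation for the edge from the last lead to the centre. -/
def devA (ω : SimpleGraph (Fin n) × StarPos n (q + 1) K) (z : ℂ) (ρ : ℝ) (j : Fin K) : ℝ :=
  ∑ k : Fin q, ∑ k' : Fin q,
    (ρ * min 1 ‖RL ω {j} z (j, k.castSucc) (j, Fin.last q)‖ +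
      (if ρ < Sx ω (insert (P156.lead ω (j, Fin.last q)) {ω.2.1 j}) (P156.lead ω (j, Fin.last q))
        (P156.lead ω (j, k'.castSucc)) z then (1 : ℝ) else 0) +
      if k = k' then min 1 ‖RL ω {j} z (j, k.castSucc) (j, k.castSucc) -
        leadMat ω z (j, k.castSucc) (j, k.castSucc)‖
      else min 1 ‖RL ω {j} z (j, k.castSucc) (j, k'.castSucc)‖)

lemma devA_term {ω : SimpleGraph (Fin n) × StarPos n (q + 1) K} (hω : ω ∈ ZZs n (q + 1) K)
    {z : ℂ} (hz : z.im ≠ 0) {ρ : ℝ} (hρ : 1 ≤ ρ) (j : Fin K) (k k' : Fin q) :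
    min 1 ‖resD (adj ω.1) (insert (P156.lead ω (j, Fin.last q)) {ω.2.1 j}) z
      (P156.lead ω (j, k.castSucc)) (P156.lead ω (j, k'.castSucc)) -
      (if k = k' then leadMat ω z (j, k.castSucc) (j, k.castSucc) else 0)‖ ≤
    ρ * min 1 ‖RL ω {j} z (j, k.castSucc) (j, Fin.last q)‖ +
      (if ρ < Sx ω (insert (P156.lead ω (j, Fin.last q)) {ω.2.1 j}) (P156.lead ω (j, Fin.last q))
        (P156.lead ω (j, k'.castSucc)) z then (1 : ℝ) else 0) +
      if k = k' then min 1 ‖RL ω {j} z (j, k.castSucc) (j, k.castSucc) -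
        leadMat ω z (j, k.castSucc) (j, k.castSucc)‖
      else min 1 ‖RL ω {j} z (j, k.castSucc) (j, k'.castSucc)‖ := by
  have hinj := H520.ZZs_injl hω
  have hne : ∀ k : Fin q, P156.lead ω (j, k.castSucc) ≠ P156.lead ω (j, Fin.last q) := by
    intro k hcon
    have := hinj (a₁ := (j, k.castSucc)) (a₂ := (j, Fin.last q)) hcon
    rw [Prod.mk.injEq] at this
    exact (Fin.castSucc_lt_last k).ne this.2
  have hnc : ∀ p, P156.lead ω p ∉ ({ω.2.1 j} : Finset (Fin n)) := by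
    intro p
    rw [Finset.mem_singleton]
    exact H520.ZZs_ne hω p.1 p.2 j
  have hy : P156.lead ω (j, k'.castSucc) ∉
      insert (P156.lead ω (j, Fin.last q)) ({ω.2.1 j} : Finset (Fin n)) := by
    rw [Finset.mem_insert, not_or]
    exact ⟨hne k', hnc _⟩
  have h1 := stab_pt (G := ω.1) hz (hnc (j, Fin.last q)) (P156.lead ω (j, k.castSucc)) hy hρ
  rw [norm_sub_rev] at h1
  have h2 := min_one_tri (resD (adj ω.1) (insert (P156.lead ω (j, Fin.last q)) {ω.2.1 j}) z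
      (P156.lead ω (j, k.castSucc)) (P156.lead ω (j, k'.castSucc)))
      (resD (adj ω.1) {ω.2.1 j} z
      (P156.lead ω (j, k.castSucc)) (P156.lead ω (j, k'.castSucc)))
      (if k = k' then leadMat ω z (j, k.castSucc) (j, k.castSucc) else 0)
  refine h2.trans (add_le_add ?_ ?_)
  · unfold RL Sx
    rw [DJ_singleton]
    exact h1
  · unfold RL
    rw [DJ_singleton]
    split_ifs with hk
    · subst hk
      exact le_rfl
    · rw [sub_zero]

lemma FA_sub_le {F : ℂ → ℝ} (hF : TestF 1 1 F) {ω : SimpleGraph (Fin n) × StarPos n (q + 1) K}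
    (hω : ω ∈ ZZs n (q + 1) K) (E : ℝ) {η : ℝ} (hη : 0 < η) {ρ : ℝ} (hρ : 1 ≤ ρ) (j : Fin K) :
    |F (hc ω.1 (E + η * Complex.I) (eA ω j)) -
      TD F ω (E + η * Complex.I) (fun k => (j, k.castSucc))| ≤
      2 * devA ω (E + η * Complex.I) ρ j := by
  have hz := im_ne (E := E) hη
  have hW := (mem_ZZs.1 hω).1
  have h1 := hc_eA_mul hω hz j
  have hpos := (hc_im_pos hW E hη j (Fin.last q)).2
  have hg0 : gA ω (E + η * Complex.I) j ≠ 0 := by
    intro hcon
    rw [hcon, mul_zero] at h1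
    norm_num at h1
  have h2 : hc ω.1 (E + η * Complex.I) (eA ω j) = -1 / gA ω (E + η * Complex.I) j := by
    rw [eq_div_iff hg0, h1]
  have hh0 : hc ω.1 (E + η * Complex.I) (eA ω j) ≠ 0 := by
    intro hcon
    rw [hcon, zero_mul] at h1
    norm_num at h1
  have h3 : gA ω (E + η * Complex.I) j = -1 / hc ω.1 (E + η * Complex.I) (eA ω j) := by
    rw [eq_div_iff hh0, mul_comm, h1]
  have hgpos : 0 < (gA ω (E + η * Complex.I) j).im := by
    rw [h3]
    exact im_neg_one_div hpos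
  rw [h2]
  unfold TD
  refine (TestF.le_two hF hgpos (im_add_sum_pos hη _ fun k _ =>
    im_leadMat_nonneg ω E hη _)).trans ?_
  refine mul_le_mul_of_nonneg_left ?_ (by norm_num)
  unfold gA
  have h4 : ∑ k : Fin q, leadMat ω (E + η * Complex.I) (j, k.castSucc) (j, k.castSucc) =
      ∑ k : Fin q, ∑ k' : Fin q, if k = k' then
        leadMat ω (E + η * Complex.I) (j, k.castSucc) (j, k.castSucc) else 0 := by
    refine Finset.sum_congr rfl fun k _ => ?_
    simp
  rw [h4, add_sub_add_left_eq_sub, ← Finset.sum_sub_distrib]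
  refine (min_one_sum _ _).trans ?_
  unfold devA
  refine Finset.sum_le_sum fun k _ => ?_
  rw [← Finset.sum_sub_distrib]
  refine (min_one_sum _ _).trans ?_
  refine Finset.sum_le_sum fun k' _ => ?_
  exact devA_term hω hz hρ j k k'

end

end Vale.Agent.P156.B
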