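import Vale.Agent.P156.B.C5a

/-!
P156, Part C (C5): the quenched recursion, averaged part.
-/

namespace Vale.Agent.P156.B

open Finset H801 MeasureTheory

noncomputable section

/-! ### Double averages -/

section IA

variable {α : Type*}

/-- Average over a finite set and over the energies. -/
def IA (μ : Measure ℝ) (s : Finset α) (f : α → ℝ → ℝ) : ℝ := ∫ E, avg s (fun a => f a E) ∂μ

variable {μ : Measure ℝ} [IsFiniteMeasure μ] {s : Finset α} {f g : α → ℝ → ℝ}

lemma IA_add (hf : ∀ a ∈ s, BM (f a)) (hg : ∀ a ∈ s, BM (g a)) :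
    IA μ s (fun a E => f a E + g a E) = IA μ s f + IA μ s g := by
  unfold IA
  rw [← integral_add (BM.avg s hf).integrable (BM.avg s hg).integrable]
  refine integral_congr_ae (Filter.Eventually.of_forall fun E => ?_)
  exact avg_add s _ _

omit [IsFiniteMeasure μ] in
lemma IA_const_mul (c : ℝ) (f : α → ℝ → ℝ) :
    IA μ s (fun a E => c * f a E) = c * IA μ s f := by
  unfold IA
  rw [← integral_const_mul]
  refine integral_congr_ae (Filter.Eventually.of_forall fun E => ?_)
  exact avg_const_mul s _ _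

lemma IA_sum {ι : Type*} (t : Finset ι) {f : ι → α → ℝ → ℝ} (hf : ∀ i ∈ t, ∀ a ∈ s, BM (f i a)) :
    IA μ s (fun a E => ∑ i ∈ t, f i a E) = ∑ i ∈ t, IA μ s (f i) := by
  classical
  induction t using Finset.induction_on with
  | empty =>
    unfold IA avg
    simp
  | insert i t hi ih =>
    simp only [Finset.sum_insert hi]
    rw [IA_add (hf i (mem_insert_self i t))
      (fun a ha => BM.sum t fun j hj => hf j (mem_insert_of_mem hj) a ha),
      ih fun j hj => hf j (mem_insert_of_mem hj)]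

lemma IA_sum_le {ι : Type*} (t : Finset ι) {f : ι → α → ℝ → ℝ}
    (hf : ∀ i ∈ t, ∀ a ∈ s, BM (f i a)) {c : ℝ} (hc : ∀ i ∈ t, IA μ s (f i) ≤ c) :
    IA μ s (fun a E => ∑ i ∈ t, f i a E) ≤ t.card * c := by
  rw [IA_sum t hf]
  refine (Finset.sum_le_sum hc).trans (le_of_eq ?_)
  rw [Finset.sum_const, nsmul_eq_mul]

lemma IA_mono {F : ℝ → ℝ} (h0 : ∀ E, 0 ≤ F E) (hg : ∀ a ∈ s, BM (g a))
    (h : ∀ E, F E ≤ avg s (fun a => g a E)) : ∫ E, F E ∂μ ≤ IA μ s g :=
  integral_mono_of_nonneg (Filter.Eventually.of_forall h0) (BM.avg s hg).integrable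
    (Filter.Eventually.of_forall h)

end IA

variable {n q K : ℕ}

/-! ### Integrated deviations -/

lemma BM.devB {η : ℝ} (hη : 0 < η) (ω : SimpleGraph (Fin n) × StarPos n (q + 1) K)
    (κ : Fin q → Fin K) : BM fun E : ℝ => devB ω (E + η * Complex.I) κ := by
  unfold B.devB
  simp only [leadMat_eq]
  exact BM.sum _ fun k _ => (BM.RL_sub hη ω _ _ _ _).min_one

lemma BM.devA {η : ℝ} (hη : 0 < η) (ω : SimpleGraph (Fin n) × StarPos n (q + 1) K) (ρ : ℝ)
    (j : Fin K) : BM fun E : ℝ => devA ω (E + η * Complex.I) ρ j := by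
  unfold B.devA
  simp only [leadMat_eq]
  refine BM.sum _ fun k _ => BM.sum _ fun k' _ => ?_
  refine (((BM.RL hη ω _ _ _).min_one.const_mul ρ).add
    (BM.ind_lt ρ (BM.Sx hη ω _ _ _))).add ?_
  by_cases hk : k = k'
  · simp only [hk, if_true]
    exact (BM.RL_sub hη ω _ _ _ _).min_one
  · simp only [hk, if_false]
    exact (BM.RL hη ω _ _ _).min_one

theorem EM.devB_le {μ : Measure ℝ} {η C₀ : ℝ} (h : EM n μ η C₀) {r : ℝ} (hr : 1 ≤ r)
    (hrn : r ^ 4 ≤ n * η) (κ : Fin q → Fin K) :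
    IA μ (WW n (q + 1) K) (fun ω E => devB ω (E + η * Complex.I) κ) ≤
      q * ((K + 1) * c3e n (q + 1) K r C₀) := by
  have := h.finite
  have h1 := IA_sum_le (μ := μ) (s := WW n (q + 1) K) (univ : Finset (Fin q))
    (f := fun k ω E => min 1 ‖RL ω {κ k} (E + η * Complex.I) (κ k, 0) (κ k, 0) -
      leadMat ω (E + η * Complex.I) (κ k, 0) (κ k, 0)‖)
    (c := (K + 1) * c3e n (q + 1) K r C₀)
    (fun k _ ω _ => by
      simp only [leadMat_eq]
      exact (BM.RL_sub h.hη ω _ _ _ _).min_one)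
    (fun k _ => by
      refine (h.C4 hr hrn (κ k) (α := (κ k, 0)) (β := (κ k, 0)) rfl).trans ?_
      have h2 : stepErr n (q + 1) K r C₀ ≤ c3e n (q + 1) K r C₀ :=
        stepErr_le_c3e (by linarith) h.C₀_nonneg
      have h3 : 0 ≤ c3e n (q + 1) K r C₀ := c3e_nonneg (by linarith) h.C₀_nonneg
      have h4 : (K : ℝ) * stepErr n (q + 1) K r C₀ ≤ K * c3e n (q + 1) K r C₀ :=
        mul_le_mul_of_nonneg_left h2 (Nat.cast_nonneg _)
      linarith)
  rw [Finset.card_univ, Fintype.card_fin] at h1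
  exact h1

theorem EM.devA_le {μ : Measure ℝ} {η C₀ : ℝ} (h : EM n μ η C₀) (hK : 2 ≤ K) {r : ℝ} (hr : 1 ≤ r)
    (hrn : r ^ 4 ≤ n * η) {ρ : ℝ} (hρ : 1 ≤ ρ) (j : Fin K) :
    IA μ (WW n (q + 1) K) (fun ω E => devA ω (E + η * Complex.I) ρ j) ≤
      q * (q * (ρ * ((K + 1) * c3e n (q + 1) K r C₀) + (q + 1 : ℕ) ^ 2 * C₀ / ρ +
        (K + 1) * c3e n (q + 1) K r C₀)) := by
  classical
  have := h.finite
  have hj : j ∈ ({j} : Finset (Fin K)) := Finset.mem_singleton_self j
  have hρ0 : 0 < ρ := by linarith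
  have hne : ∀ k : Fin q, ((j, k.castSucc) : Fin K × Fin (q + 1)) ≠ (j, Fin.last q) := by
    intro k hcon
    rw [Prod.mk.injEq] at hcon
    exact (Fin.castSucc_lt_last k).ne hcon.2
  have key : ∀ k k' : Fin q, IA μ (WW n (q + 1) K) (fun ω E =>
      ρ * min 1 ‖RL ω {j} (E + η * Complex.I) (j, k.castSucc) (j, Fin.last q)‖ +
      (if ρ < Sx ω (insert (P156.lead ω (j, Fin.last q)) {ω.2.1 j}) (P156.lead ω (j, Fin.last q))
        (P156.lead ω (j, k'.castSucc)) (E + η * Complex.I) then (1 : ℝ) else 0) +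
      if k = k' then min 1 ‖RL ω {j} (E + η * Complex.I) (j, k.castSucc) (j, k.castSucc) -
        leadMat ω (E + η * Complex.I) (j, k.castSucc) (j, k.castSucc)‖
      else min 1 ‖RL ω {j} (E + η * Complex.I) (j, k.castSucc) (j, k'.castSucc)‖) ≤
      ρ * ((K + 1) * c3e n (q + 1) K r C₀) + (q + 1 : ℕ) ^ 2 * C₀ / ρ +
        (K + 1) * c3e n (q + 1) K r C₀ := by
    intro k k'
    have B1 : ∀ ω ∈ WW n (q + 1) K, BM (fun E : ℝ =>
        ρ * min 1 ‖RL ω {j} (E + η * Complex.I) (j, k.castSucc) (j, Fin.last q)‖) :=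
      fun ω _ => (BM.RL h.hη ω _ _ _).min_one.const_mul ρ
    have B2 : ∀ ω ∈ WW n (q + 1) K, BM (fun E : ℝ =>
        (if ρ < Sx ω (insert (P156.lead ω (j, Fin.last q)) {ω.2.1 j})
        (P156.lead ω (j, Fin.last q)) (P156.lead ω (j, k'.castSucc)) (E + η * Complex.I)
        then (1 : ℝ) else 0)) := fun ω _ => BM.ind_lt ρ (BM.Sx h.hη ω _ _ _)
    have B3 : ∀ ω ∈ WW n (q + 1) K, BM (fun E : ℝ =>
        (if k = k' then min 1 ‖RL ω {j} (E + η * Complex.I) (j, k.castSucc) (j, k.castSucc) -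
        leadMat ω (E + η * Complex.I) (j, k.castSucc) (j, k.castSucc)‖
        else min 1 ‖RL ω {j} (E + η * Complex.I) (j, k.castSucc) (j, k'.castSucc)‖)) := by
      intro ω _
      simp only [leadMat_eq]
      by_cases hk : k = k'
      · simp only [hk, if_true]
        exact (BM.RL_sub h.hη ω _ _ _ _).min_one
      · simp only [hk, if_false]
        exact (BM.RL h.hη ω _ _ _).min_one
    rw [IA_add (fun ω hω => (B1 ω hω).add (B2 ω hω)) B3, IA_add B1 B2, IA_const_mul]
    refine add_le_add (add_le_add (mul_le_mul_of_nonneg_left ?_ hρ0.le) ?_) ?_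
    · exact h.C3_J hr hrn hK {j} (hne k) hj
    · exact h.Sx_le (d := q + 1) (K := K)
        (fun ω => insert (P156.lead ω (j, Fin.last q)) {ω.2.1 j})
        (fun ω => P156.lead ω (j, Fin.last q)) (fun ω => P156.lead ω (j, k'.castSucc)) hρ0
    · by_cases hk : k = k'
      · simp only [hk, if_true]
        refine (h.C4 hr hrn j (α := (j, k'.castSucc)) (β := (j, k'.castSucc)) rfl).trans ?_
        have h2 : stepErr n (q + 1) K r C₀ ≤ c3e n (q + 1) K r C₀ :=
          stepErr_le_c3e (by linarith) h.C₀_nonneg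
        have h3 : 0 ≤ c3e n (q + 1) K r C₀ := c3e_nonneg (by linarith) h.C₀_nonneg
        have h4 : (K : ℝ) * stepErr n (q + 1) K r C₀ ≤ K * c3e n (q + 1) K r C₀ :=
          mul_le_mul_of_nonneg_left h2 (Nat.cast_nonneg _)
        linarith
      · simp only [hk, if_false]
        refine h.C3_J hr hrn hK {j} (fun hcon => hk ?_) hj
        rw [Prod.mk.injEq] at hcon
        exact Fin.castSucc_injective q hcon.2
  have hBM : ∀ k k' : Fin q, ∀ ω ∈ WW n (q + 1) K, BM (fun E : ℝ =>
      ρ * min 1 ‖RL ω {j} (E + η * Complex.I) (j, k.castSucc) (j, Fin.last q)‖ +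
      (if ρ < Sx ω (insert (P156.lead ω (j, Fin.last q)) {ω.2.1 j}) (P156.lead ω (j, Fin.last q))
        (P156.lead ω (j, k'.castSucc)) (E + η * Complex.I) then (1 : ℝ) else 0) +
      if k = k' then min 1 ‖RL ω {j} (E + η * Complex.I) (j, k.castSucc) (j, k.castSucc) -
        leadMat ω (E + η * Complex.I) (j, k.castSucc) (j, k.castSucc)‖
      else min 1 ‖RL ω {j} (E + η * Complex.I) (j, k.castSucc) (j, k'.castSucc)‖) := by
    intro k k' ω _
    simp only [leadMat_eq]
    refine (((BM.RL h.hη ω _ _ _).min_one.const_mul ρ).add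
      (BM.ind_lt ρ (BM.Sx h.hη ω _ _ _))).add ?_
    by_cases hk : k = k'
    · simp only [hk, if_true]
      exact (BM.RL_sub h.hη ω _ _ _ _).min_one
    · simp only [hk, if_false]
      exact (BM.RL h.hη ω _ _ _).min_one
  have h1 : ∀ k ∈ (univ : Finset (Fin q)), IA μ (WW n (q + 1) K) (fun ω E => ∑ k' : Fin q,
      (ρ * min 1 ‖RL ω {j} (E + η * Complex.I) (j, k.castSucc) (j, Fin.last q)‖ +
      (if ρ < Sx ω (insert (P156.lead ω (j, Fin.last q)) {ω.2.1 j}) (P156.lead ω (j, Fin.last q))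
        (P156.lead ω (j, k'.castSucc)) (E + η * Complex.I) then (1 : ℝ) else 0) +
      if k = k' then min 1 ‖RL ω {j} (E + η * Complex.I) (j, k.castSucc) (j, k.castSucc) -
        leadMat ω (E + η * Complex.I) (j, k.castSucc) (j, k.castSucc)‖
      else min 1 ‖RL ω {j} (E + η * Complex.I) (j, k.castSucc) (j, k'.castSucc)‖)) ≤
      q * (ρ * ((K + 1) * c3e n (q + 1) K r C₀) + (q + 1 : ℕ) ^ 2 * C₀ / ρ +
        (K + 1) * c3e n (q + 1) K r C₀) := by
    intro k _
    have h2 := IA_sum_le (μ := μ) (s := WW n (q + 1) K) (univ : Finset (Fin q))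
      (fun k' _ => hBM k k') (fun k' _ => key k k')
    rw [Finset.card_univ, Fintype.card_fin] at h2
    exact h2
  have h3 := IA_sum_le (μ := μ) (s := WW n (q + 1) K) (univ : Finset (Fin q))
    (fun k _ ω hω => BM.sum univ fun k' _ => hBM k k' ω hω) h1
  rw [Finset.card_univ, Fintype.card_fin] at h3
  exact h3

/-! ### The square of the defect as an average over stars -/

lemma avg_pi_unit {X : Type*} (S : Finset X) (f : X → ℝ) :
    avg (Fintype.piFinset fun _ : Unit => S) (fun u => f (u ())) = avg S f := by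
  unfold avg
  congr 1
  · refine Finset.sum_nbij' (fun u => u ()) (fun t _ => t) ?_ ?_ ?_ ?_ ?_
    · intro u hu
      exact Fintype.mem_piFinset.1 hu ()
    · intro t ht
      exact Fintype.mem_piFinset.2 fun _ => ht
    · intro u _
      rfl
    · intro t _
      rfl
    · intro u _
      rfl
  · rw [Fintype.card_piFinset]
    simp

/-- The function of the edge from the last lead to the centre. -/
def FA (F : ℂ → ℝ) (ω : SimpleGraph (Fin n) × StarPos n (q + 1) K) (z : ℂ) (j : Fin K) : ℝ :=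
  F (hc ω.1 z (eA ω j))

lemma avg_A {G : SimpleGraph (Fin n)} (hG : Reg (q + 1) G) (z : ℂ) (F : ℂ → ℝ) :
    avg (Fintype.piFinset fun _ : Unit => stars (q + 1) G)
      (fun u => F (hc G z ((u ()).2 (Fin.last q), (u ()).1))) =
      wavg (ew (q + 1) G) (fun e => F (hc G z e)) := by
  rw [avg_pi_unit (stars (q + 1) G) (fun t => F (hc G z (t.2 (Fin.last q), t.1)))]
  exact avg_stars_edge' hG (Fin.last q) (fun e => F (hc G z e))

lemma avg_B {G : SimpleGraph (Fin n)} (hG : Reg (q + 1) G) (z : ℂ) (F : ℂ → ℝ) :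
    avg (Fintype.piFinset fun _ : Fin q => stars (q + 1) G)
      (fun u => F (-1 / (z + ∑ k, hc G z ((u k).1, (u k).2 0)))) =
      wavgq q (ew (q + 1) G) (fun t => F (-1 / (z + ∑ k, hc G z (t k)))) :=
  avg_pi_push (ι := Fin q) (stars (q + 1) G) (fun t => (t.1, t.2 0)) (ew (q + 1) G)
    (fun f => avg_stars_edge hG 0 f) (fun t => F (-1 / (z + ∑ k, hc G z (t k))))

lemma dfct_sq {G : SimpleGraph (Fin n)} (hG : Reg (q + 1) G) (hn : 0 < n) (z : ℂ) (F : ℂ → ℝ)
    {κ κ' : Fin q → Fin K} {j j' : Fin K} (hj : j ≠ j')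
    (hκj : Function.Injective (Sum.elim (fun _ : Unit => j) κ))
    (hκκ : Function.Injective (Sum.elim κ κ')) :
    dfct (q + 1) G z F ^ 2 = avg (mstars (q + 1) K G) (fun s =>
      FA F (mk G s) z j * FA F (mk G s) z j' - 2 * (FA F (mk G s) z j * FB F (mk G s) z κ) +
        FB F (mk G s) z κ * FB F (mk G s) z κ') := by
  have hS := stars_nonempty hG hn
  set fa : (Unit → Fin n × (Fin (q + 1) → Fin n)) → ℝ :=
    fun u => F (hc G z ((u ()).2 (Fin.last q), (u ()).1)) with hfa
  set fb : (Fin q → Fin n × (Fin (q + 1) → Fin n)) → ℝ :=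
    fun u => F (-1 / (z + ∑ k, hc G z ((u k).1, (u k).2 0))) with hfb
  have hjj : Function.Injective (Sum.elim (fun _ : Unit => j) (fun _ : Unit => j')) := by
    rintro (a | a) (b | b) hab
    · rfl
    · exact absurd hab hj
    · exact absurd hab (Ne.symm hj)
    · rfl
  have h1 := avg_pi_mul hS hjj fa fa
  have h2 := avg_pi_mul hS hκj fa fb
  have h3 := avg_pi_mul hS hκκ fb fb
  rw [avg_A hG z F] at h1 h2
  rw [avg_B hG z F] at h2 h3
  have h4 : avg (mstars (q + 1) K G) (fun s =>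
      FA F (mk G s) z j * FA F (mk G s) z j' - 2 * (FA F (mk G s) z j * FB F (mk G s) z κ) +
        FB F (mk G s) z κ * FB F (mk G s) z κ') =
      avg (mstars (q + 1) K G) (fun s => FA F (mk G s) z j * FA F (mk G s) z j') +
      (-2) * avg (mstars (q + 1) K G) (fun s => FA F (mk G s) z j * FB F (mk G s) z κ) +
      avg (mstars (q + 1) K G) (fun s => FB F (mk G s) z κ * FB F (mk G s) z κ') := by
    rw [← avg_const_mul, ← avg_add, ← avg_add]
    unfold avg
    congr 1
    refine Finset.sum_congr rfl fun s _ => ?_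
    ring
  have e1 : avg (mstars (q + 1) K G) (fun s => FA F (mk G s) z j * FA F (mk G s) z j') =
      wavg (ew (q + 1) G) (fun e => F (hc G z e)) *
        wavg (ew (q + 1) G) (fun e => F (hc G z e)) := h1
  have e2 : avg (mstars (q + 1) K G) (fun s => FA F (mk G s) z j * FB F (mk G s) z κ) =
      wavg (ew (q + 1) G) (fun e => F (hc G z e)) *
      wavgq q (ew (q + 1) G) (fun t => F (-1 / (z + ∑ k, hc G z (t k)))) := h2
  have e3 : avg (mstars (q + 1) K G) (fun s => FB F (mk G s) z κ * FB F (mk G s) z κ') =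
      wavgq q (ew (q + 1) G) (fun t => F (-1 / (z + ∑ k, hc G z (t k)))) *
      wavgq q (ew (q + 1) G) (fun t => F (-1 / (z + ∑ k, hc G z (t k)))) := h3
  rw [h4, e1, e2, e3, dfct, dfctW, Nat.add_sub_cancel]
  ring

lemma avg_dfct_sq (hn : 0 < n) (z : ℂ) (F : ℂ → ℝ)
    {κ κ' : Fin q → Fin K} {j j' : Fin K} (hj : j ≠ j')
    (hκj : Function.Injective (Sum.elim (fun _ : Unit => j) κ))
    (hκκ : Function.Injective (Sum.elim κ κ')) :
    avg (regularGraphs n (q + 1)) (fun G => dfct (q + 1) G z F ^ 2) =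
      avg (WW n (q + 1) K) (fun ω => FA F ω z j * FA F ω z j' -
        2 * (FA F ω z j * FB F ω z κ) + FB F ω z κ * FB F ω z κ') := by
  rw [avg_WW_eq]
  unfold avg
  rw [Finset.sum_congr rfl fun G hG => dfct_sq (mem_regularGraphs.1 hG) hn z F hj hκj hκκ]
  rfl

/-! ### Exchangeability of the limiting products -/

open Classical in
lemma TD_perm (F : ℂ → ℝ) (z : ℂ) {a b a' b' : Fin q → Fin K × Fin (q + 1)}
    (hab : Function.Injective (Sum.elim a b)) (hab' : Function.Injective (Sum.elim a' b')) :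
    avg (WW n (q + 1) K) (fun ω => if ω ∈ ZZs n (q + 1) K then TD F ω z a * TD F ω z b else 0) =
    avg (WW n (q + 1) K)
      (fun ω => if ω ∈ ZZs n (q + 1) K then TD F ω z a' * TD F ω z b' else 0) := by
  obtain ⟨σ, hσ⟩ := exists_perm_of_inj hab hab'
  have h := avg_Z_perm (n := n) (d := q + 1) (K := K) σ z
    (fun M => F (-1 / (z + ∑ k, M (a k) (a k))) * F (-1 / (z + ∑ k, M (b k) (b k))))
  have ha : ∀ k, σ (a k) = a' k := fun k => hσ (Sum.inl k)
  have hb : ∀ k, σ (b k) = b' k := fun k => hσ (Sum.inr k)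
  simp only [Matrix.submatrix_apply, ha, hb] at h
  exact h

lemma FA_abs_le {F : ℂ → ℝ} (hF : TestF 1 1 F) {ω : SimpleGraph (Fin n) × StarPos n (q + 1) K}
    (hω : ω ∈ WW n (q + 1) K) (E : ℝ) {η : ℝ} (hη : 0 < η) (j : Fin K) :
    |FA F ω (E + η * Complex.I) j| ≤ 1 := by
  have h := (hc_im_pos hω E hη j (Fin.last q)).2
  exact hF.1 _ h

lemma mul_sub_mul_le {x y x' y' a b : ℝ} (hy : |y| ≤ 1) (hx' : |x'| ≤ 1) (h1 : |x - x'| ≤ a)
    (h2 : |y - y'| ≤ b) : |x * y - x' * y'| ≤ a + b := by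
  have h3 : x * y - x' * y' = (x - x') * y + x' * (y - y') := by ring
  rw [h3]
  refine (abs_add_le _ _).trans ?_
  rw [abs_mul, abs_mul]
  have h4 : |x - x'| * |y| ≤ a * 1 :=
    mul_le_mul h1 hy (abs_nonneg _) ((abs_nonneg _).trans h1)
  have h5 : |x'| * |y - y'| ≤ 1 * b :=
    mul_le_mul hx' h2 (abs_nonneg _) zero_le_one
  linarith

lemma devA_nonneg (ω : SimpleGraph (Fin n) × StarPos n (q + 1) K) (z : ℂ) {ρ : ℝ} (hρ : 0 ≤ ρ)
    (j : Fin K) : 0 ≤ devA ω z ρ j := by
  unfold devA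
  refine Finset.sum_nonneg fun k _ => Finset.sum_nonneg fun k' _ => ?_
  refine add_nonneg (add_nonneg (mul_nonneg hρ (le_min zero_le_one (norm_nonneg _)))
    (ind_nonneg _)) ?_
  split_ifs
  · exact le_min zero_le_one (norm_nonneg _)
  · exact le_min zero_le_one (norm_nonneg _)

lemma devB_nonneg (ω : SimpleGraph (Fin n) × StarPos n (q + 1) K) (z : ℂ) (κ : Fin q → Fin K) :
    0 ≤ devB ω z κ :=
  Finset.sum_nonneg fun _ _ => le_min zero_le_one (norm_nonneg _)

open Classical in
/-- The pointwise (in the energy) bound for C5. -/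
lemma dfct_le (hn : 0 < n) {F : ℂ → ℝ} (hF : TestF 1 1 F) (E : ℝ) {η : ℝ} (hη : 0 < η) {ρ : ℝ}
    (hρ : 1 ≤ ρ) {e : Fin q ⊕ Fin q ⊕ Fin 2 → Fin K} (he : Function.Injective e) :
    avg (regularGraphs n (q + 1)) (fun G => dfct (q + 1) G (E + η * Complex.I) F ^ 2) ≤
      avg (WW n (q + 1) K) (fun ω => 4 * (if ω ∉ ZZs n (q + 1) K then (1 : ℝ) else 0) +
        6 * (devA ω (E + η * Complex.I) ρ (e (Sum.inr (Sum.inr 0))) +
          devA ω (E + η * Complex.I) ρ (e (Sum.inr (Sum.inr 1))) +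
          devB ω (E + η * Complex.I) (fun k => e (Sum.inl k)) +
          devB ω (E + η * Complex.I) (fun k => e (Sum.inr (Sum.inl k))))) := by
  set z : ℂ := E + η * Complex.I with hz
  set j := e (Sum.inr (Sum.inr 0)) with hj
  set j' := e (Sum.inr (Sum.inr 1)) with hj'
  set κ : Fin q → Fin K := fun k => e (Sum.inl k) with hκ
  set κ' : Fin q → Fin K := fun k => e (Sum.inr (Sum.inl k)) with hκ'
  have hjj : j ≠ j' := by
    intro h
    have := he h
    simp at this
  have hκj : Function.Injective (Sum.elim (fun _ : Unit => j) κ) := by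
    rintro (a | a) (b | b) hab
    · rfl
    · have := he (a₁ := Sum.inr (Sum.inr 0)) (a₂ := Sum.inl b) hab
      simp at this
    · have := he (a₁ := Sum.inl a) (a₂ := Sum.inr (Sum.inr 0)) hab
      simp at this
    · have := he (a₁ := Sum.inl a) (a₂ := Sum.inl b) hab
      rw [Sum.inl.injEq] at this
      rw [this]
  have hκκ : Function.Injective (Sum.elim κ κ') := by
    rintro (a | a) (b | b) hab
    · have := he (a₁ := Sum.inl a) (a₂ := Sum.inl b) hab
      rw [Sum.inl.injEq] at this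
      rw [this]
    · have := he (a₁ := Sum.inl a) (a₂ := Sum.inr (Sum.inl b)) hab
      simp at this
    · have := he (a₁ := Sum.inr (Sum.inl a)) (a₂ := Sum.inl b) hab
      simp at this
    · have := he (a₁ := Sum.inr (Sum.inl a)) (a₂ := Sum.inr (Sum.inl b)) hab
      simp only [Sum.inr.injEq, Sum.inl.injEq] at this
      rw [this]
  rw [avg_dfct_sq hn z F hjj hκj hκκ]
  -- the three families of leads
  set a1 : Fin q → Fin K × Fin (q + 1) := fun k => (j, k.castSucc) with ha1
  set a2 : Fin q → Fin K × Fin (q + 1) := fun k => (j', k.castSucc) with ha2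
  set b1 : Fin q → Fin K × Fin (q + 1) := fun k => (κ k, 0) with hb1
  set b2 : Fin q → Fin K × Fin (q + 1) := fun k => (κ' k, 0) with hb2
  have i1 : Function.Injective (Sum.elim a1 a2) := by
    rintro (a | a) (b | b) hab
    · have : ((j, a.castSucc) : Fin K × Fin (q + 1)) = (j, b.castSucc) := hab
      rw [Prod.mk.injEq] at this
      rw [Fin.castSucc_injective q this.2]
    · have : ((j, a.castSucc) : Fin K × Fin (q + 1)) = (j', b.castSucc) := hab
      rw [Prod.mk.injEq] at this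
      exact absurd this.1 hjj
    · have : ((j', a.castSucc) : Fin K × Fin (q + 1)) = (j, b.castSucc) := hab
      rw [Prod.mk.injEq] at this
      exact absurd this.1.symm hjj
    · have : ((j', a.castSucc) : Fin K × Fin (q + 1)) = (j', b.castSucc) := hab
      rw [Prod.mk.injEq] at this
      rw [Fin.castSucc_injective q this.2]
  have i2 : Function.Injective (Sum.elim a1 b1) := by
    rintro (a | a) (b | b) hab
    · have : ((j, a.castSucc) : Fin K × Fin (q + 1)) = (j, b.castSucc) := hab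
      rw [Prod.mk.injEq] at this
      rw [Fin.castSucc_injective q this.2]
    · have : ((j, a.castSucc) : Fin K × Fin (q + 1)) = (κ b, 0) := hab
      rw [Prod.mk.injEq] at this
      have := hκj (a₁ := Sum.inl ()) (a₂ := Sum.inr b) this.1
      simp at this
    · have : ((κ a, 0) : Fin K × Fin (q + 1)) = (j, b.castSucc) := hab
      rw [Prod.mk.injEq] at this
      have := hκj (a₁ := Sum.inr a) (a₂ := Sum.inl ()) this.1
      simp at this
    · have : ((κ a, 0) : Fin K × Fin (q + 1)) = (κ b, 0) := hab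
      rw [Prod.mk.injEq] at this
      have := hκj (a₁ := Sum.inr a) (a₂ := Sum.inr b) this.1
      rw [Sum.inr.injEq] at this
      rw [this]
  have i3 : Function.Injective (Sum.elim b1 b2) := by
    have hc : Sum.elim b1 b2 = (fun x : Fin K => ((x, 0) : Fin K × Fin (q + 1))) ∘
        Sum.elim κ κ' := by
      funext x
      rcases x with x | x <;> rfl
    rw [hc]
    refine Function.Injective.comp ?_ hκκ
    intro x y hxy
    rw [Prod.mk.injEq] at hxy
    exact hxy.1
  have t12 := TD_perm (n := n) F z i1 i2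
  have t13 := TD_perm (n := n) F z i1 i3
  set Dev : SimpleGraph (Fin n) × StarPos n (q + 1) K → ℝ := fun ω =>
    devA ω z ρ j + devA ω z ρ j' + devB ω z κ + devB ω z κ' with hDev
  have hρ0 : (0 : ℝ) ≤ ρ := by linarith
  have key : ∀ ω ∈ WW n (q + 1) K, FA F ω z j * FA F ω z j' -
        2 * (FA F ω z j * FB F ω z κ) + FB F ω z κ * FB F ω z κ' ≤
      (if ω ∈ ZZs n (q + 1) K then TD F ω z a1 * TD F ω z a2 else 0) +
      (-2) * (if ω ∈ ZZs n (q + 1) K then TD F ω z a1 * TD F ω z b1 else 0) +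
      (if ω ∈ ZZs n (q + 1) K then TD F ω z b1 * TD F ω z b2 else 0) +
      (4 * (if ω ∉ ZZs n (q + 1) K then (1 : ℝ) else 0) + 6 * Dev ω) := by
    intro ω hω
    have A1 := FA_abs_le hF hω E hη j
    have A2 := FA_abs_le hF hω E hη j'
    have B1 := FB_abs_le hF hω E hη κ
    have B2 := FB_abs_le hF hω E hη κ'
    have n1 := devA_nonneg ω z hρ0 j
    have n2 := devA_nonneg ω z hρ0 j'
    have n3 := devB_nonneg ω z κ
    have n4 := devB_nonneg ω z κ'
    by_cases hZ : ω ∈ ZZs n (q + 1) K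
    · simp only [hZ, if_true, not_true_eq_false, if_false]
      have T1 := TD_abs_le hF ω E hη a1
      have T2 := TD_abs_le hF ω E hη a2
      have T3 := TD_abs_le hF ω E hη b1
      have D1 : |FA F ω z j - TD F ω z a1| ≤ 2 * devA ω z ρ j := FA_sub_le hF hZ E hη hρ j
      have D2 : |FA F ω z j' - TD F ω z a2| ≤ 2 * devA ω z ρ j' := FA_sub_le hF hZ E hη hρ j'
      have D3 : |FB F ω z κ - TD F ω z b1| ≤ 2 * devB ω z κ := FB_sub_le hF hω E hη κ
      have D4 : |FB F ω z κ' - TD F ω z b2| ≤ 2 * devB ω z κ' := FB_sub_le hF hω E hη κ'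
      have P1 := mul_sub_mul_le A2 T1 D1 D2
      have P2 := mul_sub_mul_le B1 T1 D1 D3
      have P3 := mul_sub_mul_le B2 T3 D3 D4
      rw [abs_le] at P1 P2 P3
      simp only [hDev]
      linarith [P1.2, P2.1, P3.2]
    · simp only [hZ, if_false, not_false_eq_true, if_true]
      have Q1 : FA F ω z j * FA F ω z j' ≤ 1 := by
        refine (le_abs_self _).trans ?_
        rw [abs_mul]
        exact mul_le_one₀ A1 (abs_nonneg _) A2
      have Q2 : -1 ≤ FA F ω z j * FB F ω z κ := by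
        have : |FA F ω z j * FB F ω z κ| ≤ 1 := by
          rw [abs_mul]
          exact mul_le_one₀ A1 (abs_nonneg _) B1
        rw [abs_le] at this
        exact this.1
      have Q3 : FB F ω z κ * FB F ω z κ' ≤ 1 := by
        refine (le_abs_self _).trans ?_
        rw [abs_mul]
        exact mul_le_one₀ B1 (abs_nonneg _) B2
      simp only [hDev]
      linarith
  refine (avg_mono key).trans (le_of_eq ?_)
  rw [avg_add, avg_add, avg_add, avg_const_mul, ← t12, ← t13]
  ring

end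

end Vale.Agent.P156.B
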