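import Vale.Agent.P156.H801.Mat

/-!
P156, Part C: deletion of a vertex in the resolvents `resD`.
-/

namespace Vale.Agent.P156.B

open Matrix Finset H801

noncomputable section

variable {V : Type*} [Fintype V] [DecidableEq V] {A : Matrix V V ℝ} {D : Finset V} {z : ℂ}

lemma isUnit_cut (hA : A.IsHermitian) (D : Finset V) (hz : z.im ≠ 0) :
    IsUnit (cutMat A D z).det :=
  isUnit_cutMat hA D (eig_sub_ne hA D hz)

lemma resD_mem (hA : A.IsHermitian) (hz : z.im ≠ 0) {x y : V} (h : x ∈ D ∨ y ∈ D) :
    resD A D z x y = if x = y then 1 else 0 :=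
  resD_apply_mem hA (eig_sub_ne hA D hz) h

lemma resD_comm (hA : A.IsHermitian) (hz : z.im ≠ 0) (x y : V) :
    resD A D z x y = resD A D z y x :=
  resD_symm hA (eig_sub_ne hA D hz) x y

/-- **Deletion of a vertex**. -/
theorem resD_sub (hA : A.IsHermitian) (hz : z.im ≠ 0) {v : V} (hv : v ∉ D) (x : V) {y : V}
    (hy : y ∉ insert v D) :
    resD A D z x y - resD A (insert v D) z x y =
      -(resD A D z x v * ∑ b, (A v b : ℂ) * resD A (insert v D) z b y) := by
  have hyv : y ≠ v := fun h => hy (h ▸ mem_insert_self v D)
  have hyD : y ∉ D := fun h => hy (mem_insert_of_mem h)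
  have h1 : resD A D z - resD A (insert v D) z =
      resD A D z * (cutMat A (insert v D) z - cutMat A D z) * resD A (insert v D) z := by
    rw [Matrix.mul_sub, Matrix.sub_mul, resD, resD, Matrix.nonsing_inv_mul _ (isUnit_cut hA D hz),
      Matrix.one_mul, Matrix.mul_assoc, Matrix.mul_nonsing_inv _ (isUnit_cut hA _ hz),
      Matrix.mul_one]
  have h2 := congrFun (congrFun h1 x) y
  rw [Matrix.sub_apply] at h2
  rw [h2, Matrix.mul_assoc, Matrix.mul_apply, Finset.sum_eq_single v]
  · rw [← mul_neg]
    congr 1
    rw [Matrix.mul_apply, ← Finset.sum_neg_distrib]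
    refine Finset.sum_congr rfl fun b _ => ?_
    by_cases hb : b ∈ insert v D
    · have : resD A (insert v D) z b y = 0 := by
        rw [resD_mem hA hz (Or.inl hb), if_neg (fun h : b = y => hy (h ▸ hb))]
      rw [this]
      simp
    · have hbv : b ≠ v := fun h => hb (h ▸ mem_insert_self v D)
      have hbD : b ∉ D := fun h => hb (mem_insert_of_mem h)
      have h3 : cutMat A (insert v D) z v b = 0 := by
        rw [cutMat, if_pos (Or.inl (mem_insert_self v D)), if_neg (Ne.symm hbv)]
      have h4 : cutMat A D z v b = A v b := by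
        rw [cutMat, if_neg (by tauto), if_neg (Ne.symm hbv), sub_zero]
      rw [Matrix.sub_apply, h3, h4]
      ring
  · intro a _ hav
    rw [Matrix.mul_apply]
    rw [Finset.sum_eq_zero, mul_zero]
    intro b _
    by_cases hb : b ∈ insert v D
    · have : resD A (insert v D) z b y = 0 := by
        rw [resD_mem hA hz (Or.inl hb), if_neg (fun h : b = y => hy (h ▸ hb))]
      rw [this, mul_zero]
    · have hbv : b ≠ v := fun h => hb (h ▸ mem_insert_self v D)
      have hbD : b ∉ D := fun h => hb (mem_insert_of_mem h)
      have h5 : cutMat A (insert v D) z a b = cutMat A D z a b := by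
        by_cases ha : a ∈ D
        · rw [cutMat, cutMat, if_pos (Or.inl (mem_insert_of_mem ha)), if_pos (Or.inl ha)]
        · have ha' : a ∉ insert v D := by
            rw [mem_insert]
            tauto
          rw [cutMat, cutMat, if_neg (not_or.2 ⟨ha', hb⟩), if_neg (not_or.2 ⟨ha, hbD⟩)]
      rw [Matrix.sub_apply, h5, sub_self, zero_mul]
  · intro h
    exact absurd (Finset.mem_univ v) h

/-- The row of the deleted vertex. -/
theorem resD_row (hA : A.IsHermitian) (hz : z.im ≠ 0) {v : V} (hv : v ∉ D) {y : V}
    (hy : y ∉ insert v D) :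
    resD A D z v y = -(resD A D z v v * ∑ b, (A v b : ℂ) * resD A (insert v D) z b y) := by
  have h := resD_sub hA hz hv v hy
  rwa [resD_mem hA hz (Or.inl (mem_insert_self v D)),
    if_neg (fun h : v = y => hy (h ▸ mem_insert_self v D)), sub_zero] at h

/-- **Recursion for the diagonal entry**. -/
theorem resD_diag (hA : A.IsHermitian) (hz : z.im ≠ 0) {v : V} (hv : v ∉ D) (hvv : A v v = 0) :
    resD A D z v v * (z + ∑ b ∈ univ.filter (fun b => b ∉ insert v D),
      ∑ c ∈ univ.filter (fun c => c ∉ insert v D),
        (A v b : ℂ) * (A v c : ℂ) * resD A (insert v D) z b c) = -1 := by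
  have key : cutMat A D z * resD A D z = 1 := by
    rw [resD, Matrix.mul_nonsing_inv _ (isUnit_cut hA _ hz)]
  have h1 := congrFun (congrFun key v) v
  rw [Matrix.mul_apply, Matrix.one_apply_eq] at h1
  have h2 : ∀ b, cutMat A D z v b * resD A D z b v =
      (if b = v then -z * resD A D z v v else 0) +
      if b ∉ insert v D then -(resD A D z v v * ∑ c ∈ univ.filter (fun c => c ∉ insert v D),
        (A v b : ℂ) * (A v c : ℂ) * resD A (insert v D) z b c) else 0 := by
    intro b
    by_cases hbv : b = v
    · subst hbv
      rw [if_pos rfl, if_neg (not_not.2 (mem_insert_self b D)), add_zero, cutMat,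
        if_neg (by tauto), if_pos rfl, hvv]
      simp
    · rw [if_neg hbv, zero_add]
      by_cases hbD : b ∈ D
      · rw [if_neg (not_not.2 (mem_insert_of_mem hbD)), resD_mem hA hz (Or.inl hbD), if_neg hbv,
          mul_zero]
      · have hb : b ∉ insert v D := by
          rw [mem_insert]
          tauto
        rw [if_pos hb, resD_comm hA hz b v, resD_row hA hz hv hb, cutMat, if_neg (by tauto),
          if_neg (Ne.symm hbv), sub_zero, mul_neg, neg_inj]
        rw [Finset.mul_sum, Finset.mul_sum, Finset.mul_sum]
        symm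
        rw [Finset.sum_filter]
        refine Finset.sum_congr rfl fun c _ => ?_
        by_cases hc : c ∈ insert v D
        · rw [if_neg (not_not.2 hc), resD_mem hA hz (Or.inl hc),
            if_neg (fun h : c = b => hb (h ▸ hc))]
          simp
        · rw [if_pos hc, resD_comm hA hz b c]
          ring
  rw [Finset.sum_congr rfl fun b _ => h2 b, Finset.sum_add_distrib, Finset.sum_ite_eq',
    if_pos (mem_univ v), ← Finset.sum_filter, Finset.sum_neg_distrib, ← Finset.mul_sum] at h1
  linear_combination -h1

end

end Vale.Agent.P156.B
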