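import Vale.Agent.P156.H801.Meas
import Vale.Agent.P156.B.Del
import Vale.Agent.P156.B.Bridge

/-!
P156, Part C: measures on the energies with weak type bounds; bounded measurable functions;
stability of the resolvent entries under deletion of a vertex.
-/

namespace Vale.Agent.P156.B

open Matrix Finset MeasureTheory H801

noncomputable section

/-- Bounded measurable functions of the energy. -/
def BM (f : ℝ → ℝ) : Prop := Measurable f ∧ ∃ C, ∀ E, |f E| ≤ C

namespace BM

variable {f g : ℝ → ℝ}

lemma integrable {μ : Measure ℝ} [IsFiniteMeasure μ] (hf : BM f) : Integrable f μ := by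
  obtain ⟨hm, C, hC⟩ := hf
  exact Integrable.of_bound hm.aestronglyMeasurable C (Filter.Eventually.of_forall fun E => by
    simpa using hC E)

lemma const (c : ℝ) : BM (fun _ => c) := ⟨measurable_const, |c|, fun _ => le_rfl⟩

lemma add (hf : BM f) (hg : BM g) : BM (fun E => f E + g E) := by
  obtain ⟨hf, C, hC⟩ := hf
  obtain ⟨hg, C', hC'⟩ := hg
  exact ⟨hf.add hg, C + C', fun E => (abs_add_le _ _).trans (add_le_add (hC E) (hC' E))⟩

lemma mul (hf : BM f) (hg : BM g) : BM (fun E => f E * g E) := by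
  obtain ⟨hf, C, hC⟩ := hf
  obtain ⟨hg, C', hC'⟩ := hg
  refine ⟨hf.mul hg, C * C', fun E => ?_⟩
  rw [abs_mul]
  exact mul_le_mul (hC E) (hC' E) (abs_nonneg _) ((abs_nonneg _).trans (hC E))

lemma const_mul (c : ℝ) (hf : BM f) : BM (fun E => c * f E) := (const c).mul hf

lemma div_const (hf : BM f) (c : ℝ) : BM (fun E => f E / c) := by
  simpa only [div_eq_mul_inv] using hf.mul (const c⁻¹)

lemma sq (hf : BM f) : BM (fun E => f E ^ 2) := by
  simpa only [pow_two] using hf.mul hf

lemma sum {α : Type*} (s : Finset α) {f : α → ℝ → ℝ} (h : ∀ a ∈ s, BM (f a)) :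
    BM (fun E => ∑ a ∈ s, f a E) := by
  classical
  induction s using Finset.induction_on with
  | empty => simpa using const 0
  | insert a s ha ih =>
    simp only [Finset.sum_insert ha]
    exact (h a (mem_insert_self a s)).add (ih fun b hb => h b (mem_insert_of_mem hb))

lemma avg {α : Type*} (s : Finset α) {f : α → ℝ → ℝ} (h : ∀ a ∈ s, BM (f a)) :
    BM (fun E => avg s (fun a => f a E)) := by
  unfold P156.avg
  exact (sum s h).div_const _

lemma min_one (hf : BM f) : BM (fun E => min 1 (f E)) := by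
  obtain ⟨hf, C, hC⟩ := hf
  refine ⟨measurable_const.min hf, max 1 C, fun E => ?_⟩
  change |min 1 (f E)| ≤ _
  rcases min_choice 1 (f E) with h | h
  · rw [h]
    simp
  · rw [h]
    exact (hC E).trans (le_max_right _ _)

lemma ite {P : ℝ → Prop} [DecidablePred P] (hP : MeasurableSet {E | P E}) (hf : BM f)
    (hg : BM g) : BM (fun E => if P E then f E else g E) := by
  obtain ⟨hf, C, hC⟩ := hf
  obtain ⟨hg, C', hC'⟩ := hg
  refine ⟨Measurable.ite hP hf hg, max C C', fun E => ?_⟩
  change |if P E then f E else g E| ≤ _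
  split_ifs
  · exact (hC E).trans (le_max_left _ _)
  · exact (hC' E).trans (le_max_right _ _)

lemma ind_lt (c : ℝ) (hf : BM f) : BM (fun E => if c < f E then (1 : ℝ) else 0) :=
  ite (measurableSet_lt measurable_const hf.1) (const 1) (const 0)

end BM

section

variable {V : Type*} [Fintype V] [DecidableEq V]

lemma measurable_resD_line (A : Matrix V V ℝ) (D : Finset V) (η : ℝ) (x y : V) :
    Measurable fun E : ℝ => resD A D (E + η * Complex.I) x y :=
  (measurable_resD A D x y).comp (by fun_prop)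

lemma BM.resD {A : Matrix V V ℝ} (hA : A.IsHermitian) (D : Finset V) {η : ℝ} (hη : 0 < η)
    (x y : V) : BM fun E => ‖resD A D (E + η * Complex.I) x y‖ :=
  ⟨(measurable_resD_line A D η x y).norm, _, fun E => by
    rw [abs_norm]
    exact norm_resD_le hA D E hη x y⟩

lemma BM.resD_im {A : Matrix V V ℝ} (hA : A.IsHermitian) (D : Finset V) {η : ℝ} (hη : 0 < η)
    (x y : V) : BM fun E => (P156.resD A D (E + η * Complex.I) x y).im :=
  ⟨Complex.measurable_im.comp (measurable_resD_line A D η x y), _, fun E =>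
    (Complex.abs_im_le_norm _).trans (norm_resD_le hA D E hη x y)⟩

lemma BM.resD_sub {A : Matrix V V ℝ} (hA : A.IsHermitian) (D D' : Finset V) {η : ℝ} (hη : 0 < η)
    (x y x' y' : V) : BM fun E => ‖P156.resD A D (E + η * Complex.I) x y -
      P156.resD A D' (E + η * Complex.I) x' y'‖ :=
  ⟨((measurable_resD_line A D η x y).sub (measurable_resD_line A D' η x' y')).norm, _, fun E => by
    rw [abs_norm]
    exact (norm_sub_le _ _).trans (add_le_add (norm_resD_le hA D E hη x y)
      (norm_resD_le hA D' E hη x' y'))⟩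

end

/-- A finite measure on the energies with the weak type bound and the mass bound. -/
structure EM (n : ℕ) (μ : Measure ℝ) (η C₀ : ℝ) : Prop where
  hη : 0 < η
  C₀_nonneg : 0 ≤ C₀
  fin : μ Set.univ ≤ ENNReal.ofReal C₀
  weak : ∀ A : Matrix (Fin n) (Fin n) ℝ, A.IsHermitian → ∀ (D : Finset (Fin n)) (x y : Fin n)
    (B : ℝ), 1 ≤ B → μ {E | B < ‖resD A D (E + η * Complex.I) x y‖} ≤ ENNReal.ofReal (C₀ / B)
  mass : ∀ A : Matrix (Fin n) (Fin n) ℝ, A.IsHermitian → ∀ (D : Finset (Fin n)) (x : Fin n),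
    x ∉ D → ∫ E, (resD A D (E + η * Complex.I) x x).im ∂μ ≤ C₀

/-- Lebesgue measure on an interval. -/
lemma em_interval (n : ℕ) {a b : ℝ} (hab : a ≤ b) {η : ℝ} (hη : 0 < η) :
    EM n (volume.restrict (Set.Ioc a b)) η (160 + (b - a)) where
  hη := hη
  C₀_nonneg := by linarith
  fin := by
    rw [Measure.restrict_apply_univ, Real.volume_Ioc]
    exact ENNReal.ofReal_le_ofReal (by linarith)
  weak := by
    intro A hA D x y B hB
    refine (Measure.restrict_apply_le _ _).trans ((weak_resD hA D x y hη.le hB).trans ?_)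
    refine ENNReal.ofReal_le_ofReal ?_
    have : 0 < B := by linarith
    gcongr
    linarith
  mass := by
    intro A hA D x hx
    obtain ⟨h1, h2⟩ := integral_im_resD hA (D := D) hη hx
    have h3 := setIntegral_le_integral (s := Set.Ioc a b) h1
      (Filter.Eventually.of_forall fun E => im_resD_diag_nonneg hA D E hη x)
    rw [h2] at h3
    have := Real.pi_le_four
    linarith

/-- A single energy. -/
lemma em_dirac (n : ℕ) (E₀ : ℝ) {η : ℝ} (hη : 0 < η) :
    EM n (Measure.dirac E₀) η (max 1 (1 / η)) where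
  hη := hη
  C₀_nonneg := le_trans zero_le_one (le_max_left _ _)
  fin := by
    rw [Measure.dirac_apply_of_mem (Set.mem_univ _), ENNReal.one_le_ofReal]
    exact le_max_left _ _
  weak := by
    intro A hA D x y B hB
    by_cases h : E₀ ∈ {E : ℝ | B < ‖resD A D (E + η * Complex.I) x y‖}
    · have h1 : B < ‖resD A D (E₀ + η * Complex.I) x y‖ := h
      have h2 := norm_resD_le hA D E₀ hη x y
      calc _ ≤ (1 : ENNReal) := prob_le_one
        _ ≤ _ := by
          rw [ENNReal.one_le_ofReal, le_div_iff₀ (by linarith), one_mul]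
          exact h1.le.trans h2
    · have hm : MeasurableSet {E : ℝ | B < ‖resD A D (E + η * Complex.I) x y‖} :=
        measurableSet_lt measurable_const (measurable_resD_line A D η x y).norm
      rw [Measure.dirac_apply' _ hm, Set.indicator_of_notMem h]
      exact bot_le
  mass := by
    intro A hA D x _
    rw [integral_dirac]
    exact (le_abs_self _).trans ((Complex.abs_im_le_norm _).trans (norm_resD_le hA D E₀ hη x x))

namespace EM

variable {n : ℕ} {μ : Measure ℝ} {η C₀ : ℝ}

lemma finite (h : EM n μ η C₀) : IsFiniteMeasure μ :=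
  ⟨h.fin.trans_lt ENNReal.ofReal_lt_top⟩

lemma real_univ (h : EM n μ η C₀) : μ.real Set.univ ≤ C₀ := by
  rw [Measure.real]
  exact ENNReal.toReal_le_of_le_ofReal h.C₀_nonneg h.fin

lemma int_const_le (h : EM n μ η C₀) {c : ℝ} (hc : 0 ≤ c) : ∫ _, c ∂μ ≤ c * C₀ := by
  have := h.finite
  rw [integral_const, smul_eq_mul, mul_comm]
  exact mul_le_mul_of_nonneg_left h.real_univ hc

lemma int_le (h : EM n μ η C₀) {f : ℝ → ℝ} {c : ℝ} (hc : 0 ≤ c) (h0 : ∀ E, 0 ≤ f E)
    (hf : ∀ E, f E ≤ c) : ∫ E, f E ∂μ ≤ c * C₀ := by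
  have := h.finite
  exact (integral_mono_of_nonneg (Filter.Eventually.of_forall h0) (integrable_const c)
    (Filter.Eventually.of_forall hf)).trans (h.int_const_le hc)

/-- Weak type bound in integrated form, any level. -/
lemma weak_int (h : EM n μ η C₀) {A : Matrix (Fin n) (Fin n) ℝ} (hA : A.IsHermitian)
    (D : Finset (Fin n)) (x y : Fin n) {B : ℝ} (hB : 0 < B) :
    ∫ E, (if B < ‖resD A D (E + η * Complex.I) x y‖ then (1 : ℝ) else 0) ∂μ ≤ C₀ / B := by
  have := h.finite
  rcases le_or_gt 1 B with h1 | h1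
  · have hm : MeasurableSet {E : ℝ | B < ‖resD A D (E + η * Complex.I) x y‖} :=
      measurableSet_lt measurable_const (measurable_resD_line A D η x y).norm
    have h2 : (fun E : ℝ => if B < ‖resD A D (E + η * Complex.I) x y‖ then (1 : ℝ) else 0) =
        Set.indicator {E : ℝ | B < ‖resD A D (E + η * Complex.I) x y‖} (fun _ => 1) := by
      funext E
      by_cases hE : B < ‖resD A D (E + η * Complex.I) x y‖
      · rw [if_pos hE, Set.indicator_of_mem (by exact hE)]
      · rw [if_neg hE, Set.indicator_of_notMem (by exact hE)]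
    rw [h2, integral_indicator hm, setIntegral_const, smul_eq_mul, mul_one]
    exact ENNReal.toReal_le_of_le_ofReal (div_nonneg h.C₀_nonneg hB.le) (h.weak A hA D x y B h1)
  · have h2 := h.int_le (f := fun E : ℝ =>
      if B < ‖resD A D (E + η * Complex.I) x y‖ then (1 : ℝ) else 0) zero_le_one
      (fun E => by split_ifs <;> norm_num) (fun E => by split_ifs <;> norm_num)
    refine h2.trans ?_
    rw [one_mul, le_div_iff₀ hB]
    exact mul_le_of_le_one_right h.C₀_nonneg h1.le

end EM

lemma ind_nonneg (P : Prop) [Decidable P] : (0 : ℝ) ≤ if P then 1 else 0 := by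
  split_ifs <;> norm_num

lemma ind_le_one (P : Prop) [Decidable P] : (if P then 1 else 0 : ℝ) ≤ 1 := by
  split_ifs <;> norm_num

/-! ### Sums over neighbours -/

open Classical in
/-- The sum of the resolvent over the neighbours of `v`. -/
lemma norm_sum_adj_le {n : ℕ} (G : SimpleGraph (Fin n)) (v : Fin n) (f : Fin n → ℂ) :
    ‖∑ b, (adj G v b : ℂ) * f b‖ ≤ ∑ b ∈ univ.filter (fun b => G.Adj v b), ‖f b‖ := by
  refine (norm_sum_le _ _).trans ?_
  rw [Finset.sum_filter]
  refine Finset.sum_le_sum fun b _ => ?_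
  rw [adj, SimpleGraph.adjMatrix_apply]
  split_ifs <;> simp

open Classical in
lemma card_neighbors {n d : ℕ} {G : SimpleGraph (Fin n)} (hG : Reg d G) (v : Fin n) :
    (univ.filter (fun b => G.Adj v b)).card = d := by
  rw [← hG v, Set.ncard_eq_toFinset_card']
  congr 1
  ext w
  simp

/-- Weak type bound for the sum over the neighbours. -/
lemma EM.weak_sum {n d : ℕ} {μ : Measure ℝ} {η C₀ : ℝ} (h : EM n μ η C₀)
    {G : SimpleGraph (Fin n)} (hG : Reg d G) (D : Finset (Fin n)) (v y : Fin n) {B : ℝ}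
    (hB : 0 < B) :
    ∫ E, (if B < ‖∑ b, (adj G v b : ℂ) * resD (adj G) D (E + η * Complex.I) b y‖
      then (1 : ℝ) else 0) ∂μ ≤ d ^ 2 * C₀ / B := by
  classical
  have := h.finite
  have hA := adj_isHermitian G
  rcases Nat.eq_zero_or_pos d with hd | hd
  · have h1 : ∀ E : ℝ, (if B < ‖∑ b, (adj G v b : ℂ) * resD (adj G) D (E + η * Complex.I) b y‖
        then (1 : ℝ) else 0) = 0 := by
      intro E
      rw [if_neg]
      rw [not_lt]
      refine (norm_sum_adj_le G v _).trans ?_
      have hc := card_neighbors hG v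
      rw [hd, Finset.card_eq_zero] at hc
      rw [hc, Finset.sum_empty]
      exact hB.le
    simp only [h1, integral_zero]
    rw [hd]
    simp
  · have hd0 : (0 : ℝ) < d := by exact_mod_cast hd
    have h1 : ∀ E : ℝ, (if B < ‖∑ b, (adj G v b : ℂ) * resD (adj G) D (E + η * Complex.I) b y‖
        then (1 : ℝ) else 0) ≤ ∑ b ∈ univ.filter (fun b => G.Adj v b),
          (if B / d < ‖resD (adj G) D (E + η * Complex.I) b y‖ then (1 : ℝ) else 0) := by
      intro E
      split_ifs with hE
      · by_contra hcon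
        rw [not_le] at hcon
        have h2 : ∀ b ∈ univ.filter (fun b => G.Adj v b),
            ‖resD (adj G) D (E + η * Complex.I) b y‖ ≤ B / d := by
          intro b hb
          by_contra hcon2
          rw [not_le] at hcon2
          have h3 := Finset.single_le_sum (f := fun b =>
            (if B / d < ‖resD (adj G) D (E + η * Complex.I) b y‖ then (1 : ℝ) else 0))
            (fun b _ => by split_ifs <;> norm_num) hb
          simp only [if_pos hcon2] at h3
          linarith
        have h4 := (norm_sum_adj_le G v fun b => resD (adj G) D (E + η * Complex.I) b y).trans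
          (Finset.sum_le_sum h2)
        rw [Finset.sum_const, card_neighbors hG, nsmul_eq_mul, mul_div_cancel₀ _ hd0.ne'] at h4
        linarith
      · exact Finset.sum_nonneg fun b _ => by split_ifs <;> norm_num
    have hint : ∀ b ∈ univ.filter (fun b => G.Adj v b), Integrable (fun E : ℝ =>
        (if B / d < ‖resD (adj G) D (E + η * Complex.I) b y‖ then (1 : ℝ) else 0)) μ :=
      fun b _ => (BM.ind_lt _ (BM.resD hA D h.hη b y)).integrable
    calc _ ≤ ∫ E, ∑ b ∈ univ.filter (fun b => G.Adj v b),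
          (if B / d < ‖resD (adj G) D (E + η * Complex.I) b y‖ then (1 : ℝ) else 0) ∂μ :=
          integral_mono_of_nonneg (Filter.Eventually.of_forall fun E => ind_nonneg _)
            (integrable_finsetSum _ hint) (Filter.Eventually.of_forall h1)
      _ = ∑ b ∈ univ.filter (fun b => G.Adj v b), ∫ E,
          (if B / d < ‖resD (adj G) D (E + η * Complex.I) b y‖ then (1 : ℝ) else 0) ∂μ :=
          integral_finsetSum _ hint
      _ ≤ ∑ b ∈ univ.filter (fun b => G.Adj v b), C₀ / (B / d) :=
          Finset.sum_le_sum fun b _ => h.weak_int hA D b y (div_pos hB hd0)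
      _ = _ := by
          rw [Finset.sum_const, card_neighbors hG, nsmul_eq_mul]
          field_simp

lemma min_one_mul_le {r a : ℝ} (hr : 1 ≤ r) (ha : 0 ≤ a) : min 1 (r * a) ≤ r * min 1 a := by
  rcases le_total 1 a with h | h
  · rw [min_eq_left h, mul_one]
    exact (min_le_left _ _).trans hr
  · rw [min_eq_right h]
    exact min_le_right _ _

/-- **Stability, pointwise.** -/
lemma stab_pt {n : ℕ} {G : SimpleGraph (Fin n)} {D : Finset (Fin n)} {z : ℂ} (hz : z.im ≠ 0)
    {v : Fin n} (hv : v ∉ D) (x : Fin n) {y : Fin n} (hy : y ∉ insert v D) {r : ℝ} (hr : 1 ≤ r) :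
    min 1 ‖resD (adj G) D z x y - resD (adj G) (insert v D) z x y‖ ≤
      r * min 1 ‖resD (adj G) D z x v‖ +
        (if r < ‖∑ b, (adj G v b : ℂ) * resD (adj G) (insert v D) z b y‖ then (1 : ℝ) else 0) := by
  rw [resD_sub (adj_isHermitian G) hz hv x hy, norm_neg, norm_mul]
  split_ifs with h
  · have h1 : (0 : ℝ) ≤ r * min 1 ‖resD (adj G) D z x v‖ :=
      mul_nonneg (by linarith) (le_min zero_le_one (norm_nonneg _))
    have h2 := min_le_left 1 (‖resD (adj G) D z x v‖ *
      ‖∑ b, (adj G v b : ℂ) * resD (adj G) (insert v D) z b y‖)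
    linarith
  · rw [not_lt] at h
    rw [add_zero]
    refine le_trans (min_le_min le_rfl ?_) (min_one_mul_le hr (norm_nonneg _))
    rw [mul_comm]
    exact mul_le_mul_of_nonneg_right h (norm_nonneg _)

/-- AM-GM form of the Cauchy–Schwarz inequality. -/
lemma le_half {r a : ℝ} (hr : 0 < r) : a ≤ (r ^ 2 * a ^ 2 + (r ^ 2)⁻¹) / 2 := by
  have h := sq_nonneg (r * a - r⁻¹)
  have h2 : r * r⁻¹ = 1 := mul_inv_cancel₀ hr.ne'
  have h3 : (r ^ 2)⁻¹ = r⁻¹ * r⁻¹ := by rw [pow_two, mul_inv]
  have h4 : (r * a - r⁻¹) ^ 2 = r ^ 2 * a ^ 2 - 2 * (r * r⁻¹) * a + r⁻¹ * r⁻¹ := by ring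
  rw [h4, h2] at h
  rw [h3]
  linarith

/-- Swapping the averages. -/
lemma int_avg {α : Type*} {μ : Measure ℝ} [IsFiniteMeasure μ] (s : Finset α) {f : α → ℝ → ℝ}
    (h : ∀ a ∈ s, BM (f a)) : ∫ E, avg s (fun a => f a E) ∂μ = avg s (fun a => ∫ E, f a E ∂μ) := by
  unfold avg
  rw [integral_div, integral_finsetSum _ fun a ha => (h a ha).integrable]

end

end Vale.Agent.P156.B
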