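import Vale.Agent.P156.FE.Spec

/-!
P156, fixed energy upgrade, block FE7: the switching map on `ZZs` and weighted exchangeability.
-/

namespace Vale.Agent.P156.B

open Finset

noncomputable section

variable {n d K : ℕ}

lemma neighborSet_glue_out {V I L : Type*} {F : SimpleGraph I} {base : L → I}
    {H : SimpleGraph V} {x : I → V} {l : L → V} {u : V}
    (hu : ∀ i, x i ≠ u) (hul : ∀ a, l a ≠ u) :
    (glue F base H x l).neighborSet u = H.neighborSet u := by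
  ext v
  constructor
  · rintro ⟨hne, h1 | ⟨i', j', hij, hi, hj⟩ | ⟨b, h1, h2⟩ | ⟨b, h1, h2⟩⟩
    · exact h1
    · exact absurd hi (hu _)
    · exact absurd h1 (hu _)
    · exact absurd h2 (hul b)
  · intro hv
    exact ⟨SimpleGraph.Adj.ne hv, Or.inl hv⟩

lemma mem_ZZs_iff_emb {ω : SimpleGraph (Fin n) × StarPos n d K} :
    ω ∈ ZZs n d K ↔ Reg d ω.1 ∧
      Emb (⊥ : SimpleGraph (Fin K)) (Prod.fst : Fin K × Fin d → Fin K) ω.1 ω.2.1
        (P156.lead ω) := by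
  rw [mem_ZZs, mem_WW]
  constructor
  · rintro ⟨⟨h1, h2⟩, h3⟩
    exact ⟨h1, (emb_iff h1 (st ω)).2 ⟨h2, h3⟩⟩
  · rintro ⟨h1, h2⟩
    have h3 := (emb_iff h1 (st ω)).1 h2
    exact ⟨⟨h1, h3.1⟩, h3.2⟩

/-- The switching map: reattach the leads by `σ`. -/
def sw (σ : Equiv.Perm (Fin K × Fin d)) (ω : SimpleGraph (Fin n) × StarPos n d K) :
    SimpleGraph (Fin n) × StarPos n d K :=
  (glue (⊥ : SimpleGraph (Fin K)) (Prod.fst : Fin K × Fin d → Fin K) (cut ω.1 ω.2.1) ω.2.1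
    (P156.lead ω ∘ σ), ω.2.1, fun j k => P156.lead ω (σ (j, k)))

@[simp] lemma sw_centres (σ : Equiv.Perm (Fin K × Fin d))
    (ω : SimpleGraph (Fin n) × StarPos n d K) : (sw σ ω).2.1 = ω.2.1 := rfl

@[simp] lemma sw_lead (σ : Equiv.Perm (Fin K × Fin d))
    (ω : SimpleGraph (Fin n) × StarPos n d K) (p : Fin K × Fin d) :
    P156.lead (sw σ ω) p = P156.lead ω (σ p) := rfl

lemma cut_sw (σ : Equiv.Perm (Fin K × Fin d)) (ω : SimpleGraph (Fin n) × StarPos n d K) :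
    cut (sw σ ω).1 (sw σ ω).2.1 = cut ω.1 ω.2.1 :=
  cut_glue (noEdge_cut _ _) _

lemma sw_mem {σ : Equiv.Perm (Fin K × Fin d)} {ω : SimpleGraph (Fin n) × StarPos n d K}
    (hω : ω ∈ ZZs n d K) : sw σ ω ∈ ZZs n d K := by
  rw [mem_ZZs_iff_emb] at hω ⊢
  exact ⟨reg_switch hω.2 hω.1 (degCond_star d K) σ,
    emb_glue (noEdge_cut _ _) (inj_comp hω.2.inj σ)⟩

lemma sw_inv {σ : Equiv.Perm (Fin K × Fin d)} {ω : SimpleGraph (Fin n) × StarPos n d K}
    (hω : ω ∈ ZZs n d K) : sw σ⁻¹ (sw σ ω) = ω := by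
  have hω' := mem_ZZs_iff_emb.1 hω
  have e1 : P156.lead (sw σ ω) ∘ (σ⁻¹ : Equiv.Perm (Fin K × Fin d)) = P156.lead ω := by
    funext a
    simp
  have e2 : (sw σ⁻¹ (sw σ ω)).1 = ω.1 := by
    change glue _ _ (cut (sw σ ω).1 (sw σ ω).2.1) (sw σ ω).2.1
      (P156.lead (sw σ ω) ∘ (σ⁻¹ : Equiv.Perm (Fin K × Fin d))) = ω.1
    rw [e1, cut_sw]
    exact hω'.2.glue_cut hω'.1 (degCond_star d K)
  have e3 : (sw σ⁻¹ (sw σ ω)).2.2 = ω.2.2 := by
    funext j k
    exact congrFun e1 (j, k)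
  exact Prod.ext e2 (Prod.ext rfl e3)

/-- The switching map is a bijection of `ZZs`. -/
theorem sum_sw {M : Type*} [AddCommMonoid M] (σ : Equiv.Perm (Fin K × Fin d))
    (Ψ : SimpleGraph (Fin n) × StarPos n d K → M) :
    ∑ ω ∈ ZZs n d K, Ψ (sw σ ω) = ∑ ω ∈ ZZs n d K, Ψ ω := by
  refine Finset.sum_nbij' (sw σ) (sw σ⁻¹) (fun ω h => sw_mem h) (fun ω h => sw_mem h)
    (fun ω h => sw_inv h) ?_ (fun ω _ => rfl)
  intro ω h
  have := sw_inv (σ := σ⁻¹) h
  rwa [inv_inv] at this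

lemma leadMat_sw (σ : Equiv.Perm (Fin K × Fin d)) (ω : SimpleGraph (Fin n) × StarPos n d K)
    (z : ℂ) : leadMat (sw σ ω) z = (leadMat ω z).submatrix σ σ := by
  have h1 : cutMat (adj (sw σ ω).1) (centres (sw σ ω)) z = cutMat (adj ω.1) (centres ω) z := by
    rw [← cutMat_cut (sw σ ω), cut_sw, ← cutMat_cut ω]
    rfl
  unfold leadMat resD
  rw [h1, Matrix.submatrix_submatrix]
  rfl

/-- The switched graph is near the original one. -/
lemma near_sw {σ : Equiv.Perm (Fin K × Fin d)} {ω : SimpleGraph (Fin n) × StarPos n d K}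
    (hω : ω ∈ ZZs n d K) : FE.Near (K * (d + 1)) ω.1 (sw σ ω).1 := by
  have hω' := mem_ZZs_iff_emb.1 hω
  have h1 : {v : Fin n | ω.1.neighborSet v ≠ (sw σ ω).1.neighborSet v} ⊆
      Set.range ω.2.1 ∪ Set.range (P156.lead ω) := by
    intro v hv
    by_contra hcon
    rw [Set.mem_union, not_or] at hcon
    have hx : ∀ i, ω.2.1 i ≠ v := fun i hi => hcon.1 ⟨i, hi⟩
    have hl : ∀ a, P156.lead ω a ≠ v := fun a ha => hcon.2 ⟨a, ha⟩
    apply hv
    have e1 := neighborSet_glue_out (F := (⊥ : SimpleGraph (Fin K)))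
      (base := (Prod.fst : Fin K × Fin d → Fin K)) (H := cut ω.1 ω.2.1) hx
      (l := P156.lead ω ∘ σ) (fun a => hl (σ a))
    have e2 := neighborSet_glue_out (F := (⊥ : SimpleGraph (Fin K)))
      (base := (Prod.fst : Fin K × Fin d → Fin K)) (H := cut ω.1 ω.2.1) hx
      (l := P156.lead ω) hl
    rw [hω'.2.glue_cut hω'.1 (degCond_star d K)] at e2
    rw [e2]
    exact e1.symm
  have h2 : (Set.range ω.2.1).ncard ≤ K := by
    rw [← Set.image_univ]
    refine (Set.ncard_image_le (Set.toFinite _)).trans ?_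
    rw [Set.ncard_univ]
    simp
  have h3 : (Set.range (P156.lead ω)).ncard ≤ K * d := by
    rw [← Set.image_univ]
    refine (Set.ncard_image_le (Set.toFinite _)).trans ?_
    rw [Set.ncard_univ]
    simp
  unfold FE.Near
  refine (Set.ncard_le_ncard h1 (Set.toFinite _)).trans ((Set.ncard_union_le _ _).trans ?_)
  calc _ ≤ K + K * d := add_le_add h2 h3
    _ = K * (d + 1) := by ring

lemma near_mono {k k' : ℕ} (hk : k ≤ k') {G G' : SimpleGraph (Fin n)} (h : FE.Near k G G') :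
    FE.Near k' G G' := le_trans h hk

/-- **FE7**: weighted exchangeability. -/
theorem specSW (d : ℕ) : FE.SpecSW d := by
  intro n K hK σ ι z b w w' hw Φ
  rw [← sum_sw σ (fun ω => w ω.1 * Φ (fun i => leadMat ω (z i)))]
  simp only [leadMat_sw]
  rw [← Finset.sum_sub_distrib, Finset.mul_sum]
  refine (Finset.abs_sum_le_sum_abs _ _).trans (Finset.sum_le_sum fun ω hω => ?_)
  rw [← sub_mul, abs_mul, ← mul_assoc]
  refine mul_le_mul_of_nonneg_right ?_ (abs_nonneg _)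
  have h1 : ω.1 ∈ regularGraphs n d := mem_regularGraphs.2 (mem_ZZs_iff_emb.1 hω).1
  have h2 : (sw σ ω).1 ∈ regularGraphs n d :=
    mem_regularGraphs.2 (mem_ZZs_iff_emb.1 (sw_mem (σ := σ) hω)).1
  refine hw.var ω.1 h1 _ h2 (near_mono ?_ (near_sw hω))
  rw [pow_two]
  exact Nat.mul_le_mul_right _ hK

end

end Vale.Agent.P156.B
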