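import Vale.Agent.P156.H801.Meas
import Vale.Agent.P156.H520.CDefs
import Vale.Agent.P156.B.Bridge

/-!
P156, Part C: sampling lemmas: averages over the sample space as iterated averages, resampling of
one star, marginals, weights of directed edges.
-/

namespace Vale.Agent.P156.B

open Finset H801

noncomputable section

section PiF

variable {ι ι' ι₁ ι₂ X : Type*} [Fintype ι] [DecidableEq ι] [Fintype ι'] [DecidableEq ι']
  [Fintype ι₁] [DecidableEq ι₁] [Fintype ι₂] [DecidableEq ι₂]

lemma sum_pi_sum (S : Finset X) (f : (ι₁ → X) → ℝ) (g : (ι₂ → X) → ℝ) :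
    ∑ u ∈ Fintype.piFinset (fun _ : ι₁ ⊕ ι₂ => S), f (u ∘ Sum.inl) * g (u ∘ Sum.inr) =
      (∑ u ∈ Fintype.piFinset (fun _ : ι₁ => S), f u) *
        ∑ u ∈ Fintype.piFinset (fun _ : ι₂ => S), g u := by
  rw [Finset.sum_mul_sum, ← Finset.sum_product']
  refine Finset.sum_nbij' (fun u => (u ∘ Sum.inl, u ∘ Sum.inr)) (fun p => Sum.elim p.1 p.2)
    ?_ ?_ ?_ ?_ ?_
  · intro u hu
    rw [Fintype.mem_piFinset] at hu
    rw [Finset.mem_product, Fintype.mem_piFinset, Fintype.mem_piFinset]
    exact ⟨fun a => hu _, fun a => hu _⟩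
  · intro p hp
    rw [Finset.mem_product, Fintype.mem_piFinset, Fintype.mem_piFinset] at hp
    rw [Fintype.mem_piFinset]
    rintro (a | a)
    · exact hp.1 a
    · exact hp.2 a
  · intro u _
    funext a
    rcases a with a | a <;> rfl
  · intro p _
    rfl
  · intro u _
    rfl

lemma sum_pi_equiv (S : Finset X) (e : ι' ≃ ι) (f : (ι' → X) → ℝ) :
    ∑ u ∈ Fintype.piFinset (fun _ : ι => S), f (u ∘ e) =
      ∑ u ∈ Fintype.piFinset (fun _ : ι' => S), f u := by
  refine Finset.sum_nbij' (fun u => u ∘ e) (fun u => u ∘ e.symm) ?_ ?_ ?_ ?_ ?_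
  · intro u hu
    rw [Fintype.mem_piFinset] at hu ⊢
    exact fun a => hu _
  · intro u hu
    rw [Fintype.mem_piFinset] at hu ⊢
    exact fun a => hu _
  · intro u _
    funext a
    simp
  · intro u _
    funext a
    simp
  · intro u _
    rfl

/-- Marginals of a uniform tuple. -/
lemma avg_pi_marg {S : Finset X} (hS : S.Nonempty) {κ : ι' → ι} (hκ : Function.Injective κ)
    (f : (ι' → X) → ℝ) :
    avg (Fintype.piFinset (fun _ : ι => S)) (fun u => f (u ∘ κ)) =
      avg (Fintype.piFinset (fun _ : ι' => S)) f := by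
  classical
  let e : ι' ⊕ {i // i ∉ Set.range κ} ≃ ι :=
    (Equiv.sumCongr (Equiv.ofInjective κ hκ) (Equiv.refl _)).trans (Equiv.Set.sumCompl _)
  have he : ∀ a, e (Sum.inl a) = κ a := fun a => rfl
  have h1 : ∑ u ∈ Fintype.piFinset (fun _ : ι => S), f (u ∘ κ) =
      (∑ u ∈ Fintype.piFinset (fun _ : ι' => S), f u) *
        ((Fintype.piFinset (fun _ : {i // i ∉ Set.range κ} => S)).card : ℝ) := by
    have h := sum_pi_equiv S e (fun u => f (u ∘ Sum.inl) * (fun _ => (1 : ℝ)) (u ∘ Sum.inr))
    rw [sum_pi_sum S f (fun _ => (1 : ℝ))] at h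
    simp only [mul_one, Finset.sum_const, nsmul_eq_mul] at h
    rw [← h]
    rfl
  have h2 : ((Fintype.piFinset (fun _ : ι => S)).card : ℝ) =
      ((Fintype.piFinset (fun _ : ι' => S)).card : ℝ) *
        ((Fintype.piFinset (fun _ : {i // i ∉ Set.range κ} => S)).card : ℝ) := by
    rw [Fintype.card_piFinset, Fintype.card_piFinset, Fintype.card_piFinset, Finset.prod_const,
      Finset.prod_const, Finset.prod_const, Finset.card_univ, Finset.card_univ, Finset.card_univ,
      ← Fintype.card_congr e, Fintype.card_sum, pow_add]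
    push_cast
    rfl
  have h3 : ((Fintype.piFinset (fun _ : {i // i ∉ Set.range κ} => S)).card : ℝ) ≠ 0 := by
    rw [Fintype.card_piFinset, Finset.prod_const]
    have := hS.card_pos
    positivity
  unfold avg
  rw [h1, h2, mul_div_mul_right _ _ h3]

/-- Independence of disjoint parts of a uniform tuple. -/
lemma avg_pi_mul {S : Finset X} (hS : S.Nonempty) {κ₁ : ι₁ → ι} {κ₂ : ι₂ → ι}
    (hκ : Function.Injective (Sum.elim κ₁ κ₂)) (f : (ι₁ → X) → ℝ) (g : (ι₂ → X) → ℝ) :
    avg (Fintype.piFinset (fun _ : ι => S)) (fun u => f (u ∘ κ₁) * g (u ∘ κ₂)) =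
      avg (Fintype.piFinset (fun _ : ι₁ => S)) f * avg (Fintype.piFinset (fun _ : ι₂ => S)) g := by
  have h1 := avg_pi_marg hS hκ (fun u => f (u ∘ Sum.inl) * g (u ∘ Sum.inr))
  have h2 : (fun u : ι → X => f ((u ∘ Sum.elim κ₁ κ₂) ∘ Sum.inl) *
      g ((u ∘ Sum.elim κ₁ κ₂) ∘ Sum.inr)) = fun u => f (u ∘ κ₁) * g (u ∘ κ₂) := rfl
  rw [h2] at h1
  rw [h1]
  unfold avg
  rw [sum_pi_sum, Fintype.card_piFinset, Fintype.card_piFinset, Fintype.card_piFinset,
    Fintype.prod_sum_type, Nat.cast_mul, mul_div_mul_comm]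

/-- Push-forward of independent samples. -/
lemma avg_pi_push {Y : Type*} [Fintype Y] [DecidableEq Y] (S : Finset X) (e : X → Y) (p : Y → ℝ)
    (hp : ∀ F : Y → ℝ, avg S (fun x => F (e x)) = ∑ y, p y * F y) (F : (ι → Y) → ℝ) :
    avg (Fintype.piFinset (fun _ : ι => S)) (fun u => F (e ∘ u)) =
      ∑ t : ι → Y, (∏ k, p (t k)) * F t := by
  classical
  have h1 : ∀ y, p y = (∑ x ∈ S, if e x = y then (1 : ℝ) else 0) / S.card := by
    intro y
    have := hp (fun y' => if y' = y then (1 : ℝ) else 0)
    simp only [mul_ite, mul_one, mul_zero, Finset.sum_ite_eq', Finset.mem_univ, if_true] at this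
    rw [← this]
    rfl
  have h2 : ∀ t : ι → Y, (∏ k, p (t k)) * F t =
      (∑ u ∈ Fintype.piFinset (fun _ : ι => S), if e ∘ u = t then F t else 0) /
        (Fintype.piFinset (fun _ : ι => S)).card := by
    intro t
    simp only [h1]
    rw [Finset.prod_div_distrib, Finset.prod_univ_sum, Finset.prod_const, Finset.card_univ,
      Fintype.card_piFinset, Finset.prod_const, Finset.card_univ, Nat.cast_pow, div_mul_eq_mul_div,
      Finset.sum_mul]
    congr 1
    refine Finset.sum_congr rfl fun u _ => ?_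
    by_cases h : e ∘ u = t
    · rw [if_pos h]
      rw [Finset.prod_eq_one, one_mul]
      intro k _
      have hk : e (u k) = t k := congrFun h k
      rw [if_pos hk]
    · rw [if_neg h]
      have : ∃ k, e (u k) ≠ t k := by
        by_contra hcon
        push Not at hcon
        exact h (funext hcon)
      obtain ⟨k, hk⟩ := this
      rw [Finset.prod_eq_zero (Finset.mem_univ k) (if_neg hk), zero_mul]
  simp only [h2]
  rw [← Finset.sum_div, Finset.sum_comm]
  unfold avg
  congr 1
  refine Finset.sum_congr rfl fun u _ => ?_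
  simp

end PiF

section WWs

variable {n d K : ℕ}

/-- Averages over the sample space are iterated averages. -/
lemma avg_WW_eq (f : SimpleGraph (Fin n) × StarPos n d K → ℝ) :
    avg (WW n d K) f =
      avg (regularGraphs n d) (fun G => avg (mstars d K G) (fun s => f (mk G s))) := by
  unfold avg
  rw [sum_WW, card_WW]
  have h : ∀ G ∈ regularGraphs n d,
      (∑ s ∈ mstars d K G, f (mk G s)) / ((mstars d K G).card : ℝ) =
      (∑ s ∈ mstars d K G, f (mk G s)) / (d.factorial * n : ℝ) ^ K := by
    intro G hG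
    rw [card_mstars (mem_regularGraphs.1 hG), Fintype.card_fin]
  rw [Finset.sum_congr rfl h, ← Finset.sum_div, div_div, mul_comm]

lemma stars_nonempty {G : SimpleGraph (Fin n)} (hG : Reg d G) (hn : 0 < n) :
    (stars d G).Nonempty := by
  rw [← Finset.card_pos]
  have h := card_stars hG
  rw [Fintype.card_fin] at h
  have h2 : (0 : ℝ) < (stars d G).card := by
    rw [h]
    positivity
  exact_mod_cast h2

/-- Marginal of the sample space. -/
lemma avg_WW_marg {K' : ℕ} (hn : 0 < n) {κ : Fin K' → Fin K} (hκ : Function.Injective κ)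
    (f : SimpleGraph (Fin n) × StarPos n d K' → ℝ) :
    avg (WW n d K) (fun ω => f (mk ω.1 (st ω ∘ κ))) = avg (WW n d K') f := by
  rw [avg_WW_eq, avg_WW_eq]
  have h : ∀ G ∈ regularGraphs n d,
      avg (mstars d K G) (fun s => f (mk (mk G s).1 (st (mk G s) ∘ κ))) =
      avg (mstars d K' G) (fun s => f (mk G s)) := by
    intro G hG
    simp only [mk_fst, st_mk]
    exact avg_pi_marg (stars_nonempty (mem_regularGraphs.1 hG) hn) hκ (fun s => f (mk G s))
  unfold avg at h ⊢
  rw [Finset.sum_congr rfl h]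

/-- Resample the star `i`. -/
def upd (ω : SimpleGraph (Fin n) × StarPos n d K) (i : Fin K) (t : Fin n × (Fin d → Fin n)) :
    SimpleGraph (Fin n) × StarPos n d K := mk ω.1 (Function.update (st ω) i t)

lemma avg_resample (i : Fin K) (f : SimpleGraph (Fin n) × StarPos n d K → ℝ) :
    avg (WW n d K) (fun ω => avg (stars d ω.1) (fun t => f (upd ω i t))) = avg (WW n d K) f := by
  unfold avg
  congr 1
  rw [sum_WW, sum_WW]
  refine Finset.sum_congr rfl fun G _ => ?_
  have h := sum_resample (G := G) (d := d) i (fun s => f (mk G s))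
  simp only [mk_fst, upd, st_mk]
  rw [← Finset.sum_div, h]
  by_cases hc : ((stars d G).card : ℝ) = 0
  · have h0 : mstars d K G = ∅ := by
      rw [Finset.eq_empty_iff_forall_notMem]
      intro s hs
      have h1 := mem_mstars.1 hs i
      have h2 : stars d G = ∅ := by
        rw [← Finset.card_eq_zero]
        exact_mod_cast hc
      rw [h2] at h1
      exact absurd h1 (Finset.notMem_empty _)
    rw [h0]
    simp
  · rw [mul_div_cancel_left₀ _ hc]

/-- Every position of a star is uniform. -/
lemma avg_stars_pos {G : SimpleGraph (Fin n)} (hG : Reg d G) (o : Option (Fin d))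
    (f : Fin n → ℝ) : avg (stars d G) (fun t => f (pos t o)) = (∑ v, f v) / n := by
  unfold avg
  rw [sum_stars_pos hG, card_stars hG, Fintype.card_fin, mul_div_mul_left]
  positivity

lemma wavg_ew (G : SimpleGraph (Fin n)) (f : Fin n × Fin n → ℝ) :
    wavg (ew d G) f = esum G (fun v w => f (v, w)) / (n * d) := by
  classical
  unfold wavg ew esum
  rw [Fintype.sum_prod_type, Finset.sum_div]
  refine Finset.sum_congr rfl fun v _ => ?_
  rw [Finset.sum_div]
  refine Finset.sum_congr rfl fun w _ => ?_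
  rw [adj, SimpleGraph.adjMatrix_apply]
  by_cases h : G.Adj v w
  · simp only [h, if_true]
    ring
  · simp only [h, if_false]
    ring

/-- A directed edge from the centre to a lead. -/
lemma avg_stars_edge {G : SimpleGraph (Fin n)} (hG : Reg d G) (k : Fin d)
    (f : Fin n × Fin n → ℝ) : avg (stars d G) (fun t => f (t.1, t.2 k)) = wavg (ew d G) f := by
  have hd : (d : ℝ) ≠ 0 := by
    have := k.pos
    positivity
  have h := sum_stars_edge hG k (fun v w => f (v, w))
  rw [wavg_ew]
  unfold avg
  rw [card_stars hG, Fintype.card_fin]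
  have h2 : ∑ t ∈ stars d G, f (t.1, t.2 k) = d.factorial * (esum G fun v w => f (v, w)) / d := by
    rw [← h]
    field_simp
  rw [h2]
  have hf : (d.factorial : ℝ) ≠ 0 := by positivity
  rcases Nat.eq_zero_or_pos n with hn | hn
  · subst hn
    simp
  · field_simp

/-- A directed edge from a lead to the centre. -/
lemma avg_stars_edge' {G : SimpleGraph (Fin n)} (hG : Reg d G) (k : Fin d)
    (f : Fin n × Fin n → ℝ) : avg (stars d G) (fun t => f (t.2 k, t.1)) = wavg (ew d G) f := by
  have h := avg_stars_edge hG k (fun e => f (e.2, e.1))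
  simp only at h
  rw [h, wavg_ew, wavg_ew]
  congr 1
  exact esum_swap G fun v w => f (v, w)

lemma sum_ew {G : SimpleGraph (Fin n)} (hG : Reg d G) (hn : 0 < n) (hd : 0 < d) :
    ∑ e, ew d G e = 1 := by
  have h := avg_stars_edge hG ⟨0, hd⟩ (fun _ => (1 : ℝ))
  have h2 : avg (stars d G) (fun _ => (1 : ℝ)) = 1 := by
    unfold avg
    have := (stars_nonempty hG hn).card_pos
    rw [Finset.sum_const, nsmul_eq_mul, mul_one, div_self (by positivity)]
  rw [h2] at h
  rw [h]
  unfold wavg
  simp

lemma ew_nonneg (G : SimpleGraph (Fin n)) (e : Fin n × Fin n) : 0 ≤ ew d G e := by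
  classical
  unfold ew
  rw [adj, SimpleGraph.adjMatrix_apply]
  split_ifs <;> positivity

/-- **MARG**: marginal law of a directed edge. -/
theorem avg_WW_edge (hn : 0 < n) (j : Fin K) (k : Fin d)
    (Φ : SimpleGraph (Fin n) → Fin n × Fin n → ℝ) :
    avg (WW n d K) (fun ω => Φ ω.1 (ω.2.1 j, ω.2.2 j k)) =
      avg (regularGraphs n d) (fun G => wavg (ew d G) (Φ G)) := by
  rw [avg_WW_eq]
  have h : ∀ G ∈ regularGraphs n d,
      avg (mstars d K G) (fun s => Φ (mk G s).1 ((mk G s).2.1 j, (mk G s).2.2 j k)) =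
      wavg (ew d G) (Φ G) := by
    intro G hG
    have hG' := mem_regularGraphs.1 hG
    rw [← avg_stars_edge hG' k]
    have h1 := avg_pi_marg (ι := Fin K) (ι' := Unit) (stars_nonempty hG' hn) (κ := fun _ => j)
      (fun a b _ => Subsingleton.elim a b) (fun u => Φ G ((u ()).1, (u ()).2 k))
    have h3 : avg (Fintype.piFinset fun _ : Unit => stars d G)
        (fun u => Φ G ((u ()).1, (u ()).2 k)) = avg (stars d G) (fun t => Φ G (t.1, t.2 k)) := by
      unfold avg
      congr 1
      · refine Finset.sum_nbij' (fun u => u ()) (fun t _ => t) ?_ ?_ ?_ ?_ ?_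
        · intro u hu
          exact Fintype.mem_piFinset.1 hu ()
        · intro t ht
          exact Fintype.mem_piFinset.2 fun _ => ht
        · intro u _
          rfl
        · intro t _
          rfl
        · intro u _
          rfl
      · rw [Fintype.card_piFinset]
        simp
    rw [← h3, ← h1]
    rfl
  unfold avg at h ⊢
  rw [Finset.sum_congr rfl h]

end WWs

end

end Vale.Agent.P156.B
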