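import Vale.Agent.P156.B.EM
import Vale.Agent.P156.B.Samp

/-!
P156, Part C (C2, stability): independent stars and resolvent entries.
-/

namespace Vale.Agent.P156.B

open Finset H801 MeasureTheory

noncomputable section

variable {n d K : ℕ}

/-- The centres with index in `J`. -/
def DJ (ω : SimpleGraph (Fin n) × StarPos n d K) (J : Finset (Fin K)) : Finset (Fin n) :=
  J.image ω.2.1

lemma DJ_insert (ω : SimpleGraph (Fin n) × StarPos n d K) (i : Fin K) (J : Finset (Fin K)) :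
    DJ ω (insert i J) = insert (ω.2.1 i) (DJ ω J) := Finset.image_insert _ _ _

lemma DJ_univ (ω : SimpleGraph (Fin n) × StarPos n d K) : DJ ω univ = centres ω := by
  unfold DJ centres
  congr 1

lemma DJ_singleton (ω : SimpleGraph (Fin n) × StarPos n d K) (j : Fin K) :
    DJ ω {j} = {ω.2.1 j} := Finset.image_singleton _ _

lemma DJ_upd (ω : SimpleGraph (Fin n) × StarPos n d K) {i : Fin K} {J : Finset (Fin K)}
    (hi : i ∉ J) (t : Fin n × (Fin d → Fin n)) : DJ (upd ω i t) J = DJ ω J := by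
  unfold DJ
  refine Finset.image_congr fun j hj => ?_
  have hj' : j ≠ i := fun h => hi (h ▸ hj)
  change (Function.update (st ω) i t j).1 = _
  rw [Function.update_of_ne hj']
  rfl

lemma lead_upd (ω : SimpleGraph (Fin n) × StarPos n d K) {i : Fin K} {p : Fin K × Fin d}
    (hi : p.1 ≠ i) (t : Fin n × (Fin d → Fin n)) :
    P156.lead (upd ω i t) p = P156.lead ω p := by
  change (Function.update (st ω) i t p.1).2 p.2 = _
  rw [Function.update_of_ne hi]
  rfl

/-- C2, first step: averaging over an independent star. -/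
lemma ward_avg {J : Finset (Fin K)} {i : Fin K} (hi : i ∉ J)
    {x : SimpleGraph (Fin n) × StarPos n d K → Fin n} (hx : ∀ ω t, x (upd ω i t) = x ω)
    (o : Option (Fin d)) {η : ℝ} (hη : 0 < η) (E : ℝ) :
    avg (WW n d K) (fun ω => if x ω ∈ DJ ω J then 0 else
      ‖resD (adj ω.1) (DJ ω J) (E + η * Complex.I) (x ω) (pos (st ω i) o)‖ ^ 2) =
    avg (WW n d K) (fun ω => if x ω ∈ DJ ω J then 0 else
      (resD (adj ω.1) (DJ ω J) (E + η * Complex.I) (x ω) (x ω)).im / (n * η)) := by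
  rw [← avg_resample i]
  have h : ∀ ω ∈ WW n d K, avg (stars d ω.1) (fun t => if x (upd ω i t) ∈ DJ (upd ω i t) J then 0
      else ‖resD (adj (upd ω i t).1) (DJ (upd ω i t) J) (E + η * Complex.I) (x (upd ω i t))
        (pos (st (upd ω i t) i) o)‖ ^ 2) = if x ω ∈ DJ ω J then 0 else
      (resD (adj ω.1) (DJ ω J) (E + η * Complex.I) (x ω) (x ω)).im / (n * η) := by
    intro ω hω
    have hG := (mem_WW.1 hω).1
    have h1 : ∀ t, (if x (upd ω i t) ∈ DJ (upd ω i t) J then 0
      else ‖resD (adj (upd ω i t).1) (DJ (upd ω i t) J) (E + η * Complex.I) (x (upd ω i t))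
        (pos (st (upd ω i t) i) o)‖ ^ 2) = if x ω ∈ DJ ω J then 0
      else ‖resD (adj ω.1) (DJ ω J) (E + η * Complex.I) (x ω) (pos t o)‖ ^ 2 := by
      intro t
      have h2 : st (upd ω i t) i = t := by
        change Function.update (st ω) i t i = t
        rw [Function.update_self]
      rw [DJ_upd ω hi, hx, h2]
      rfl
    simp only [h1]
    by_cases hxD : x ω ∈ DJ ω J
    · simp only [hxD, if_true]
      unfold avg
      simp
    · simp only [hxD, if_false]
      rw [avg_stars_pos hG o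
        (fun v => ‖resD (adj ω.1) (DJ ω J) (E + η * Complex.I) (x ω) v‖ ^ 2),
        ward_resD (adj_isHermitian ω.1) E hη hxD, div_div, mul_comm η]
  unfold avg at h ⊢
  rw [Finset.sum_congr rfl h]

/-- **C2**. -/
lemma EM.ward {μ : Measure ℝ} {η C₀ : ℝ} (h : EM n μ η C₀) {J : Finset (Fin K)} {i : Fin K}
    (hi : i ∉ J) {x : SimpleGraph (Fin n) × StarPos n d K → Fin n}
    (hx : ∀ ω t, x (upd ω i t) = x ω) (o : Option (Fin d)) :
    ∫ E : ℝ, avg (WW n d K) (fun ω => if x ω ∈ DJ ω J then 0 else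
      ‖resD (adj ω.1) (DJ ω J) (E + η * Complex.I) (x ω) (pos (st ω i) o)‖ ^ 2) ∂μ ≤
    C₀ / (n * η) := by
  have := h.finite
  simp only [ward_avg hi hx o h.hη]
  rw [int_avg (f := fun ω (E : ℝ) => if x ω ∈ DJ ω J then 0 else
      (resD (adj ω.1) (DJ ω J) (E + η * Complex.I) (x ω) (x ω)).im / (n * η))]
  · have hη := h.hη
    refine avg_le_of_le (div_nonneg h.C₀_nonneg (by positivity)) fun ω _ => ?_
    by_cases hxD : x ω ∈ DJ ω J
    · simp only [hxD, if_true, integral_zero]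
      exact div_nonneg h.C₀_nonneg (by positivity)
    · simp only [hxD, if_false]
      rw [integral_div]
      have := h.mass (adj ω.1) (adj_isHermitian ω.1) (DJ ω J) (x ω) hxD
      gcongr
  · intro ω _
    by_cases hxD : x ω ∈ DJ ω J
    · simp only [hxD, if_true]
      exact BM.const 0
    · simp only [hxD, if_false]
      exact (BM.resD_im (adj_isHermitian ω.1) _ h.hη _ _).div_const _

/-- C2 in the first moment. -/
lemma EM.ward1 {μ : Measure ℝ} {η C₀ : ℝ} (h : EM n μ η C₀) {J : Finset (Fin K)} {i : Fin K}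
    (hi : i ∉ J) {x : SimpleGraph (Fin n) × StarPos n d K → Fin n}
    (hx : ∀ ω t, x (upd ω i t) = x ω) (o : Option (Fin d)) {r : ℝ} (hr : 0 < r)
    (hrn : r ^ 4 ≤ n * η) :
    ∫ E : ℝ, avg (WW n d K) (fun ω => if x ω ∈ DJ ω J then 0 else
      ‖resD (adj ω.1) (DJ ω J) (E + η * Complex.I) (x ω) (pos (st ω i) o)‖) ∂μ ≤
    C₀ / r ^ 2 := by
  have := h.finite
  have hBM : ∀ ω ∈ WW n d K, BM (fun E : ℝ => if x ω ∈ DJ ω J then 0 else
      ‖resD (adj ω.1) (DJ ω J) (E + η * Complex.I) (x ω) (pos (st ω i) o)‖ ^ 2) := by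
    intro ω _
    by_cases hxD : x ω ∈ DJ ω J
    · simp only [hxD, if_true]
      exact BM.const 0
    · simp only [hxD, if_false]
      exact (BM.resD (adj_isHermitian ω.1) _ h.hη _ _).sq
  have h1 : ∀ E : ℝ, avg (WW n d K) (fun ω => if x ω ∈ DJ ω J then 0 else
      ‖resD (adj ω.1) (DJ ω J) (E + η * Complex.I) (x ω) (pos (st ω i) o)‖) ≤
      r ^ 2 / 2 * avg (WW n d K) (fun ω => if x ω ∈ DJ ω J then 0 else
      ‖resD (adj ω.1) (DJ ω J) (E + η * Complex.I) (x ω) (pos (st ω i) o)‖ ^ 2) +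
      (r ^ 2)⁻¹ / 2 := by
    intro E
    rw [← avg_const_mul]
    have h2 : (r ^ 2)⁻¹ / 2 ≥ avg (WW n d K) (fun _ => (r ^ 2)⁻¹ / 2) :=
      avg_le_of_le (by positivity) fun _ _ => le_rfl
    refine le_trans ?_ (add_le_add le_rfl h2)
    rw [← avg_add]
    refine avg_mono fun ω _ => ?_
    split_ifs
    · rw [mul_zero, zero_add]
      positivity
    · have := le_half (a := ‖resD (adj ω.1) (DJ ω J) (E + η * Complex.I) (x ω)
        (pos (st ω i) o)‖) hr
      linarith
  have h0 : ∀ E : ℝ, 0 ≤ avg (WW n d K) (fun ω => if x ω ∈ DJ ω J then 0 else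
      ‖resD (adj ω.1) (DJ ω J) (E + η * Complex.I) (x ω) (pos (st ω i) o)‖) := by
    intro E
    refine avg_nonneg fun ω _ => ?_
    split_ifs
    · exact le_rfl
    · exact norm_nonneg _
  refine (integral_mono_of_nonneg (Filter.Eventually.of_forall h0) ?_
    (Filter.Eventually.of_forall h1)).trans ?_
  · exact (((BM.avg _ hBM).const_mul _).add (BM.const _)).integrable
  · rw [integral_add ((BM.avg _ hBM).const_mul _).integrable (BM.const _).integrable,
      integral_const_mul]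
    have h2 := h.ward hi hx o
    have h3 := h.int_const_le (c := (r ^ 2)⁻¹ / 2) (by positivity)
    have h4 : r ^ 2 / 2 * (C₀ / (n * η)) ≤ C₀ / r ^ 2 / 2 := by
      have h5 : 0 < r ^ 4 := by positivity
      have h6 : C₀ / (n * η) ≤ C₀ / r ^ 4 := by
        gcongr
        exact h.C₀_nonneg
      calc r ^ 2 / 2 * (C₀ / (n * η)) ≤ r ^ 2 / 2 * (C₀ / r ^ 4) := by gcongr
        _ = C₀ / r ^ 2 / 2 := by
          field_simp
    have h7 : (r ^ 2)⁻¹ / 2 * C₀ = C₀ / r ^ 2 / 2 := by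
      field_simp
    have h8 : r ^ 2 / 2 * ∫ E : ℝ, avg (WW n d K) (fun ω => if x ω ∈ DJ ω J then 0 else
      ‖resD (adj ω.1) (DJ ω J) (E + η * Complex.I) (x ω) (pos (st ω i) o)‖ ^ 2) ∂μ ≤
        r ^ 2 / 2 * (C₀ / (n * η)) := by
      gcongr
    linarith

open Classical in
lemma avg_bad_le (hn : 0 < n) :
    avg (WW n d K) (fun ω => if ω ∉ ZZs n d K then (1 : ℝ) else 0) ≤
      (K ^ 2 * (d + 1) ^ 2 : ℕ) / n := by
  have hn0 : (0 : ℝ) < n := by exact_mod_cast hn
  rw [avg]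
  by_cases h0 : (WW n d K).card = 0
  · rw [h0]
    simp only [Nat.cast_zero, div_zero]
    positivity
  · have h0' : (0 : ℝ) < (WW n d K).card := by
      exact_mod_cast Nat.pos_of_ne_zero h0
    rw [div_le_div_iff₀ h0' hn0]
    have h := card_bad_le (n := n) (d := d) (K := K)
    rw [mul_comm] at h
    exact h

open Classical in
lemma EM.bad_le {μ : Measure ℝ} {η C₀ : ℝ} (h : EM n μ η C₀) (hn : 0 < n) :
    ∫ _, avg (WW n d K) (fun ω => if ω ∉ ZZs n d K then (1 : ℝ) else 0) ∂μ ≤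
      (K ^ 2 * (d + 1) ^ 2 : ℕ) / n * C₀ := by
  refine (h.int_const_le (avg_nonneg fun ω _ => ind_nonneg _)).trans ?_
  exact mul_le_mul_of_nonneg_right (avg_bad_le hn) h.C₀_nonneg

/-- On good points the leads are not centres. -/
lemma lead_notMem {ω : SimpleGraph (Fin n) × StarPos n d K} (hω : ω ∈ ZZs n d K)
    (p : Fin K × Fin d) (J : Finset (Fin K)) : P156.lead ω p ∉ DJ ω J := by
  intro h
  obtain ⟨i, _, hi⟩ := Finset.mem_image.1 h
  have hg := (mem_ZZs.1 hω).2
  have := hg (a₁ := Sum.inl i) (a₂ := Sum.inr p) hi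
  exact Sum.inl_ne_inr this

lemma centre_notMem {ω : SimpleGraph (Fin n) × StarPos n d K} (hω : ω ∈ ZZs n d K)
    {i : Fin K} {J : Finset (Fin K)} (hi : i ∉ J) : ω.2.1 i ∉ DJ ω J := by
  intro h
  obtain ⟨j, hj, hji⟩ := Finset.mem_image.1 h
  have hg := (mem_ZZs.1 hω).2
  have := hg (a₁ := Sum.inl j) (a₂ := Sum.inl i) hji
  rw [Sum.inl.injEq] at this
  exact hi (this ▸ hj)

lemma im_ne {E η : ℝ} (hη : 0 < η) : ((E : ℂ) + η * Complex.I).im ≠ 0 := by simp [hη.ne']

/-- The quantity `S` of the stability estimates for the star `i`. -/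
def Sx (ω : SimpleGraph (Fin n) × StarPos n d K) (D : Finset (Fin n)) (v y : Fin n) (z : ℂ) : ℝ :=
  ‖∑ b, (adj ω.1 v b : ℂ) * resD (adj ω.1) D z b y‖

lemma BM.Sx {η : ℝ} (hη : 0 < η) (ω : SimpleGraph (Fin n) × StarPos n d K) (D : Finset (Fin n))
    (v y : Fin n) : BM fun E : ℝ => Sx ω D v y (E + η * Complex.I) := by
  unfold B.Sx
  refine ⟨?_, ∑ b, |adj ω.1 v b| * (max 1 (1 / η)), fun E => ?_⟩
  · refine Measurable.norm (Finset.measurable_fun_sum _ fun b _ => ?_)
    exact (measurable_resD_line (adj ω.1) D η b y).const_mul _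
  · rw [abs_norm]
    refine (norm_sum_le _ _).trans (Finset.sum_le_sum fun b _ => ?_)
    rw [norm_mul, Complex.norm_real, Real.norm_eq_abs]
    exact mul_le_mul_of_nonneg_left (norm_resD_le (adj_isHermitian ω.1) D E hη b y) (abs_nonneg _)

lemma EM.Sx_le {μ : Measure ℝ} {η C₀ : ℝ} (h : EM n μ η C₀)
    (D : SimpleGraph (Fin n) × StarPos n d K → Finset (Fin n))
    (v y : SimpleGraph (Fin n) × StarPos n d K → Fin n) {B : ℝ} (hB : 0 < B) :
    ∫ E : ℝ, avg (WW n d K) (fun ω => if B < Sx ω (D ω) (v ω) (y ω) (E + η * Complex.I)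
      then (1 : ℝ) else 0) ∂μ ≤ d ^ 2 * C₀ / B := by
  have := h.finite
  rw [int_avg (f := fun ω (E : ℝ) => if B < Sx ω (D ω) (v ω) (y ω) (E + η * Complex.I)
      then (1 : ℝ) else 0) _ fun ω _ => BM.ind_lt _ (BM.Sx h.hη ω _ _ _)]
  have hC := h.C₀_nonneg
  exact avg_le_of_le (by positivity) fun ω hω => h.weak_sum (mem_WW.1 hω).1 _ _ _ hB

open Classical in
/-- **Stability**: adding the centre of an independent star. -/
theorem EM.step {μ : Measure ℝ} {η C₀ : ℝ} (h : EM n μ η C₀) {J : Finset (Fin K)} {i : Fin K}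
    (hi : i ∉ J) {α β : Fin K × Fin d} (hα : α.1 ≠ i) {r : ℝ} (hr : 1 ≤ r)
    (hrn : r ^ 4 ≤ n * η) :
    ∫ E : ℝ, avg (WW n d K) (fun ω => min 1
      ‖resD (adj ω.1) (DJ ω J) (E + η * Complex.I) (P156.lead ω α) (P156.lead ω β) -
        resD (adj ω.1) (DJ ω (insert i J)) (E + η * Complex.I) (P156.lead ω α)
          (P156.lead ω β)‖) ∂μ ≤
      ((K ^ 2 * (d + 1) ^ 2 : ℕ) / n + (1 + d ^ 2) / r) * C₀ := by
  have := h.finite
  have hr0 : 0 < r := by linarith
  have hn : 0 < n := by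
    rcases Nat.eq_zero_or_pos n with hn | hn
    · subst hn
      have : 0 < r ^ 4 := by positivity
      simp at hrn
      linarith
    · exact hn
  set f1 : SimpleGraph (Fin n) × StarPos n d K → ℝ → ℝ := fun ω E =>
    if ω ∉ ZZs n d K then (1 : ℝ) else 0 with hf1
  set f2 : SimpleGraph (Fin n) × StarPos n d K → ℝ → ℝ := fun ω E =>
    r * (if P156.lead ω α ∈ DJ ω J then 0 else
      ‖resD (adj ω.1) (DJ ω J) (E + η * Complex.I) (P156.lead ω α) (pos (st ω i) none)‖) with hf2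
  set f3 : SimpleGraph (Fin n) × StarPos n d K → ℝ → ℝ := fun ω E =>
    if r < Sx ω (DJ ω (insert i J)) (ω.2.1 i) (P156.lead ω β) (E + η * Complex.I)
      then (1 : ℝ) else 0 with hf3
  have B1 : ∀ ω ∈ WW n d K, BM (f1 ω) := fun ω _ => BM.const _
  have B2' : ∀ ω ∈ WW n d K, BM (fun E : ℝ => (if P156.lead ω α ∈ DJ ω J then 0 else
      ‖resD (adj ω.1) (DJ ω J) (E + η * Complex.I) (P156.lead ω α) (pos (st ω i) none)‖)) := by
    intro ω _
    by_cases hxD : P156.lead ω α ∈ DJ ω J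
    · simp only [hxD, if_true]
      exact BM.const 0
    · simp only [hxD, if_false]
      exact BM.resD (adj_isHermitian ω.1) _ h.hη _ _
  have B2 : ∀ ω ∈ WW n d K, BM (f2 ω) := fun ω hω => (B2' ω hω).const_mul r
  have B3 : ∀ ω ∈ WW n d K, BM (f3 ω) := fun ω _ => BM.ind_lt _ (BM.Sx h.hη ω _ _ _)
  have hle : ∀ E : ℝ, avg (WW n d K) (fun ω => min 1
      ‖resD (adj ω.1) (DJ ω J) (E + η * Complex.I) (P156.lead ω α) (P156.lead ω β) -
        resD (adj ω.1) (DJ ω (insert i J)) (E + η * Complex.I) (P156.lead ω α)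
          (P156.lead ω β)‖) ≤
      avg (WW n d K) (fun ω => f1 ω E) + avg (WW n d K) (fun ω => f2 ω E) +
        avg (WW n d K) (fun ω => f3 ω E) := by
    intro E
    rw [← avg_add, ← avg_add]
    refine avg_mono fun ω hω => ?_
    by_cases hZ : ω ∈ ZZs n d K
    · have hv := centre_notMem hZ hi
      have hx := lead_notMem hZ α J
      have hy := lead_notMem hZ β (insert i J)
      rw [DJ_insert] at hy
      have h1 := stab_pt (G := ω.1) (im_ne (E := E) h.hη) hv (P156.lead ω α) hy hr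
      rw [DJ_insert]
      refine h1.trans ?_
      simp only [hf1, hf2, hf3, hx, if_false, DJ_insert, hZ, not_true_eq_false, zero_add]
      refine add_le_add (mul_le_mul_of_nonneg_left (min_le_right _ _) hr0.le) ?_
      exact le_of_eq rfl
    · have h2 : f1 ω E = 1 := by simp only [hf1, if_pos hZ]
      have h3 : 0 ≤ f2 ω E := by
        simp only [hf2]
        refine mul_nonneg hr0.le ?_
        split_ifs
        · exact le_rfl
        · exact norm_nonneg _
      have h4 : 0 ≤ f3 ω E := ind_nonneg _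
      have h5 := min_le_left 1
        ‖resD (adj ω.1) (DJ ω J) (E + η * Complex.I) (P156.lead ω α) (P156.lead ω β) -
        resD (adj ω.1) (DJ ω (insert i J)) (E + η * Complex.I) (P156.lead ω α)
          (P156.lead ω β)‖
      linarith
  have h0 : ∀ E : ℝ, 0 ≤ avg (WW n d K) (fun ω => min 1
      ‖resD (adj ω.1) (DJ ω J) (E + η * Complex.I) (P156.lead ω α) (P156.lead ω β) -
        resD (adj ω.1) (DJ ω (insert i J)) (E + η * Complex.I) (P156.lead ω α)
          (P156.lead ω β)‖) := fun E =>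
    avg_nonneg fun ω _ => le_min zero_le_one (norm_nonneg _)
  have I1 := (BM.avg _ B1).integrable (μ := μ)
  have I2 := (BM.avg _ B2).integrable (μ := μ)
  have I3 := (BM.avg _ B3).integrable (μ := μ)
  refine (integral_mono_of_nonneg (Filter.Eventually.of_forall h0) ((I1.add I2).add I3)
    (Filter.Eventually.of_forall hle)).trans ?_
  have hsum : ∫ E, ((fun E => avg (WW n d K) (fun ω => f1 ω E)) +
      (fun E => avg (WW n d K) (fun ω => f2 ω E)) +
        fun E => avg (WW n d K) (fun ω => f3 ω E)) E ∂μ =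
      ∫ E, avg (WW n d K) (fun ω => f1 ω E) ∂μ + ∫ E, avg (WW n d K) (fun ω => f2 ω E) ∂μ +
        ∫ E, avg (WW n d K) (fun ω => f3 ω E) ∂μ := by
    rw [integral_add' (I1.add I2) I3, integral_add' I1 I2]
  refine (le_of_eq hsum).trans ?_
  have e1 : ∫ E, avg (WW n d K) (fun ω => f1 ω E) ∂μ ≤
      (K ^ 2 * (d + 1) ^ 2 : ℕ) / n * C₀ := h.bad_le hn
  have e2 : ∫ E, avg (WW n d K) (fun ω => f2 ω E) ∂μ ≤ 1 / r * C₀ := by
    have h6 : ∀ E, avg (WW n d K) (fun ω => f2 ω E) = r * avg (WW n d K)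
        (fun ω => (if P156.lead ω α ∈ DJ ω J then 0 else
      ‖resD (adj ω.1) (DJ ω J) (E + η * Complex.I) (P156.lead ω α) (pos (st ω i) none)‖)) :=
      fun E => avg_const_mul _ _ _
    simp only [h6]
    rw [integral_const_mul]
    have h7 := h.ward1 hi (x := fun ω => P156.lead ω α) (fun ω t => lead_upd ω hα t) none hr0 hrn
    calc _ ≤ r * (C₀ / r ^ 2) := mul_le_mul_of_nonneg_left h7 hr0.le
      _ = 1 / r * C₀ := by
        field_simp
  have e3 : ∫ E, avg (WW n d K) (fun ω => f3 ω E) ∂μ ≤ d ^ 2 / r * C₀ := by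
    have h8 := h.Sx_le (d := d) (K := K) (fun ω => DJ ω (insert i J)) (fun ω => ω.2.1 i)
      (fun ω => P156.lead ω β) hr0
    calc _ ≤ d ^ 2 * C₀ / r := h8
      _ = _ := by ring
  have e4 : ((K ^ 2 * (d + 1) ^ 2 : ℕ) / n + (1 + d ^ 2) / r) * C₀ =
      (K ^ 2 * (d + 1) ^ 2 : ℕ) / n * C₀ + 1 / r * C₀ + d ^ 2 / r * C₀ := by ring
  rw [e4]
  linarith

end

end Vale.Agent.P156.B
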