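import Vale.Agent.P156.B.FE7
import Vale.Agent.P156.B.Samp
import Vale.Agent.P156.B.Step
import Vale.Agent.P156.H894.FE8Defs

/-!
P156, fixed energy upgrade, block FE8a: averages of the squared errors.
-/

namespace Vale.Agent.P156.B

open Finset H801

noncomputable section

variable {n d K : ℕ}

open Classical in
lemma avg_ite_ZZs (f : SimpleGraph (Fin n) × StarPos n d K → ℝ) :
    avg (WW n d K) (fun ω => if ω ∈ ZZs n d K then f ω else 0) =
      (∑ ω ∈ ZZs n d K, f ω) / (WW n d K).card := by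
  unfold avg
  congr 1
  have hsub : ZZs n d K ⊆ WW n d K := fun ω hω => (mem_ZZs.1 hω).1
  rw [← Finset.sum_subset hsub (f := fun ω => if ω ∈ ZZs n d K then f ω else 0)]
  · exact Finset.sum_congr rfl fun ω hω => if_pos hω
  · intro ω _ hω
    exact if_neg hω

open Classical in
/-- Weighted exchangeability for averages over the sample space. -/
lemma avg_sw (hK : K ≤ d + 1) (σ : Equiv.Perm (Fin K × Fin d)) {ι : Type} (z : ι → ℂ) {b : ℝ}
    {w w' : SimpleGraph (Fin n) → ℝ} (hw : FE.Wt n d b w w')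
    {Φ : (ι → Matrix (Fin K × Fin d) (Fin K × Fin d) ℂ) → ℝ} (hΦ : ∀ M, 0 ≤ Φ M) :
    avg (WW n d K) (fun ω => if ω ∈ ZZs n d K then w ω.1 * Φ (fun i => leadMat ω (z i)) else 0) ≤
      avg (WW n d K) (fun ω => if ω ∈ ZZs n d K then
        w ω.1 * Φ (fun i => (leadMat ω (z i)).submatrix σ σ) else 0) +
      b * avg (WW n d K) (fun ω => if ω ∈ ZZs n d K then
        w' ω.1 * Φ (fun i => (leadMat ω (z i)).submatrix σ σ) else 0) := by
  rw [avg_ite_ZZs, avg_ite_ZZs, avg_ite_ZZs]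
  have h := specSW d n K hK σ ι z b w w' hw Φ
  simp only [abs_of_nonneg (hΦ _)] at h
  have h2 := (abs_le.1 h).2
  rw [← mul_div_assoc, ← add_div]
  refine div_le_div_of_nonneg_right ?_ (Nat.cast_nonneg _)
  linarith

/-- The mean weight over the sample space. -/
lemma avg_WW_weight (hn : 0 < n) (w : SimpleGraph (Fin n) → ℝ) :
    avg (WW n d K) (fun ω => w ω.1) = FE.MW n d w := by
  rw [avg_WW_eq]
  have h : ∀ G ∈ regularGraphs n d,
      avg (mstars d K G) (fun s => w (mk G s).1) = w G := by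
    intro G hG
    have hG' := mem_regularGraphs.1 hG
    unfold avg
    have hne : ((mstars d K G).card : ℝ) ≠ 0 := by
      rw [card_mstars hG', Fintype.card_fin]
      positivity
    simp only [mk_fst]
    rw [Finset.sum_const, nsmul_eq_mul, mul_div_cancel_left₀ _ hne]
  unfold FE.MW
  unfold avg at h ⊢
  rw [Finset.sum_congr rfl h]

lemma rho_nonneg (ω : SimpleGraph (Fin n) × StarPos n d K) (z : ℂ) : 0 ≤ FE.rho ω z :=
  le_min zero_le_one (Finset.sum_nonneg fun _ _ => Finset.sum_nonneg fun _ _ => sq_nonneg _)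

lemma min_sq_le_rho (ω : SimpleGraph (Fin n) × StarPos n d K) (z : ℂ) (a b : Fin K × Fin d) :
    min 1 (‖leadMat ω z a b - (if a = b then FE.mm d z else 0)‖ ^ 2) ≤ FE.rho ω z := by
  refine min_le_min le_rfl ?_
  refine le_trans ?_ (Finset.single_le_sum (f := fun a => ∑ b,
    ‖leadMat ω z a b - (if a = b then FE.mm d z else 0)‖ ^ 2)
    (fun _ _ => Finset.sum_nonneg fun _ _ => sq_nonneg _) (Finset.mem_univ a))
  exact Finset.single_le_sum (f := fun b =>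
    ‖leadMat ω z a b - (if a = b then FE.mm d z else 0)‖ ^ 2)
    (fun _ _ => sq_nonneg _) (Finset.mem_univ b)

lemma sq_le_mul_min {x B : ℝ} (hB : 1 ≤ B) (hx : 0 ≤ x) (hxB : x ≤ B) :
    x ^ 2 ≤ B ^ 2 * min 1 (x ^ 2) := by
  rcases le_total 1 (x ^ 2) with h | h
  · rw [min_eq_left h, mul_one]
    exact pow_le_pow_left₀ hx hxB 2
  · rw [min_eq_right h]
    have h1 : (1 : ℝ) ≤ B ^ 2 := one_le_pow₀ hB
    nlinarith [sq_nonneg x]

lemma starMat_eq_pos (ω : SimpleGraph (Fin n) × StarPos n d K) (z : ℂ)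
    (x y : Fin K × Option (Fin d)) :
    starMat ω z x y = resD (adj ω.1) ∅ z (pos (st ω x.1) x.2) (pos (st ω y.1) y.2) := rfl

lemma starMat_comm (ω : SimpleGraph (Fin n) × StarPos n d K) {z : ℂ} (hz : z.im ≠ 0)
    (x y : Fin K × Option (Fin d)) : starMat ω z x y = starMat ω z y x :=
  resD_comm (adj_isHermitian ω.1) hz _ _

open Classical in
/-- Weighted average of the coupling where star `0` is tame. -/
lemma avg_Gam_le (hW : FE.SpecWard d) (hn : 0 < n) (E : ℝ) {η : ℝ} (hη : 0 < η)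
    {w : SimpleGraph (Fin n) → ℝ} (hw : ∀ G, 0 ≤ w G) {B : ℝ} (hB : 0 ≤ B) :
    avg (WW n d 2) (fun ω => w ω.1 * if (∀ x : Option (Fin d),
        (resD (adj ω.1) ∅ (FE.zz E η) (pos (st ω 0) x) (pos (st ω 0) x)).im ≤ B)
      then FE.Gam ω.1 (FE.zz E η) (st ω 0) (st ω 1) else 0) ≤
      ((d : ℝ) + 1) ^ 2 * B / (n * η) * FE.MW n d w := by
  rw [← avg_resample 1]
  rw [← avg_WW_weight (d := d) (K := 2) hn w, ← avg_const_mul]
  refine avg_mono fun ω hω => ?_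
  have hG : ω.1 ∈ regularGraphs n d := mem_regularGraphs.2 (mem_WW.1 hω).1
  have h0 : ∀ t, st (upd ω 1 t) 0 = st ω 0 := by
    intro t
    change Function.update (st ω) 1 t 0 = _
    rw [Function.update_of_ne (by decide)]
  have h1 : ∀ t, st (upd ω 1 t) 1 = t := by
    intro t
    change Function.update (st ω) 1 t 1 = _
    rw [Function.update_self]
  have hfst : ∀ t, (upd ω 1 t).1 = ω.1 := fun t => rfl
  simp only [h0, h1, hfst]
  rw [avg_const_mul]
  rw [mul_comm]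
  refine mul_le_mul_of_nonneg_right ?_ (hw _)
  by_cases hc : ∀ x : Option (Fin d),
        (resD (adj ω.1) ∅ (FE.zz E η) (pos (st ω 0) x) (pos (st ω 0) x)).im ≤ B
  · simp only [hc, implies_true, if_true]
    rw [hW n ω.1 hG hn E η hη (st ω 0)]
    have h2 : ∑ x : Option (Fin d),
        (resD (adj ω.1) ∅ (FE.zz E η) (pos (st ω 0) x) (pos (st ω 0) x)).im ≤ (d + 1) * B := by
      refine (Finset.sum_le_sum fun x _ => hc x).trans (le_of_eq ?_)
      rw [Finset.sum_const, Finset.card_univ, Fintype.card_option, Fintype.card_fin, nsmul_eq_mul]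
      push_cast
      ring
    calc _ ≤ ((d : ℝ) + 1) / (n * η) * ((d + 1) * B) :=
          mul_le_mul_of_nonneg_left h2 (by positivity)
      _ = _ := by ring
  · simp only [hc, if_false]
    have : avg (stars d ω.1) (fun _ => (0 : ℝ)) = 0 := by
      unfold avg
      simp
    rw [this]
    positivity

lemma avg_sum {ι α : Type*} (S : Finset α) (s : Finset ι) (f : ι → α → ℝ) :
    avg S (fun ω => ∑ i ∈ s, f i ω) = ∑ i ∈ s, avg S (f i) := by
  unfold avg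
  rw [Finset.sum_comm, Finset.sum_div]

lemma EE_split (w : SimpleGraph (Fin n) → ℝ) (z : ℂ)
    (P : SimpleGraph (Fin n) × StarPos n d 2 → Prop) [DecidablePred P] :
    avg (WW n d 2) (fun ω => w ω.1 * if P ω then FE.EE ω z else 0) =
      (∑ j : Fin 2, ∑ p : Fin d, ∑ r : Fin d, avg (WW n d 2) (fun ω => w ω.1 *
        if P ω then
        ‖leadMat ω z (j, p) (j, r) - leadMat (FE.sub1 ω j) z (0, p) (0, r)‖ ^ 2 else 0)) +
      ∑ a : Fin 2 × Fin d, ∑ a' : Fin 2 × Fin d, if a = a' then 0 else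
        avg (WW n d 2) (fun ω => w ω.1 * if P ω then ‖leadMat ω z a a'‖ ^ 2 else 0) := by
  have hpt : ∀ ω, (w ω.1 * if P ω then FE.EE ω z else 0) =
      (∑ j : Fin 2, ∑ p : Fin d, ∑ r : Fin d, w ω.1 *
      (if P ω then
      ‖leadMat ω z (j, p) (j, r) - leadMat (FE.sub1 ω j) z (0, p) (0, r)‖ ^ 2 else 0)) +
    ∑ a : Fin 2 × Fin d, ∑ a' : Fin 2 × Fin d, if a = a' then 0 else w ω.1 *
      (if P ω then ‖leadMat ω z a a'‖ ^ 2 else 0) := by
    intro ω
    by_cases hgood : P ω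
    · simp only [hgood, if_true]
      unfold FE.EE
      rw [mul_add, Finset.mul_sum, Finset.mul_sum]
      congr 1
      · refine Finset.sum_congr rfl fun j _ => ?_
        rw [Finset.mul_sum]
        refine Finset.sum_congr rfl fun p _ => ?_
        rw [Finset.mul_sum]
      · refine Finset.sum_congr rfl fun a _ => ?_
        rw [Finset.mul_sum]
        refine Finset.sum_congr rfl fun a' _ => ?_
        split_ifs
        · exact mul_zero _
        · rfl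
    · simp only [hgood, if_false, mul_zero, Finset.sum_const_zero, ite_self, add_zero]
  have h1 : (fun ω => (w ω.1 * if P ω then FE.EE ω z else 0)) = fun ω =>
      (∑ j : Fin 2, ∑ p : Fin d, ∑ r : Fin d, w ω.1 *
      (if P ω then
      ‖leadMat ω z (j, p) (j, r) - leadMat (FE.sub1 ω j) z (0, p) (0, r)‖ ^ 2 else 0)) +
    ∑ a : Fin 2 × Fin d, ∑ a' : Fin 2 × Fin d, if a = a' then 0 else w ω.1 *
      (if P ω then ‖leadMat ω z a a'‖ ^ 2 else 0) := funext hpt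
  rw [h1, avg_add, avg_sum, avg_sum]
  congr 1
  · refine Finset.sum_congr rfl fun j _ => ?_
    rw [avg_sum]
    refine Finset.sum_congr rfl fun p _ => ?_
    rw [avg_sum]
  · refine Finset.sum_congr rfl fun a _ => ?_
    rw [avg_sum]
    refine Finset.sum_congr rfl fun a' _ => ?_
    split_ifs
    · unfold avg
      simp
    · rfl

lemma sum_cases {Q X : ℝ} (hQ : 0 ≤ Q) (hX : 0 ≤ X) {f : Fin 2 × Fin d → Fin 2 × Fin d → ℝ}
    (h2 : ∀ a a', a.1 ≠ a'.1 → f a a' ≤ Q) (h3 : ∀ a a', a ≠ a' → f a a' ≤ Q + X) :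
    ∑ a : Fin 2 × Fin d, ∑ a' : Fin 2 × Fin d, (if a = a' then 0 else f a a') ≤
      4 * d ^ 2 * Q + 2 * d ^ 2 * X := by
  have h1 : ∀ a a' : Fin 2 × Fin d, (if a = a' then 0 else f a a') ≤
      Q + if a.1 = a'.1 then X else 0 := by
    intro a a'
    by_cases h1 : a = a'
    · rw [if_pos h1]
      split_ifs <;> linarith
    · rw [if_neg h1]
      by_cases h4 : a.1 = a'.1
      · rw [if_pos h4]
        exact h3 a a' h1
      · rw [if_neg h4, add_zero]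
        exact h2 a a' h4
  refine (Finset.sum_le_sum fun a _ => Finset.sum_le_sum fun a' _ => h1 a a').trans
    (le_of_eq ?_)
  simp only [Finset.sum_add_distrib, Finset.sum_const, Finset.card_univ, Fintype.card_prod,
    Fintype.card_fin, nsmul_eq_mul]
  have h2 : ∑ a : Fin 2 × Fin d, ∑ a' : Fin 2 × Fin d, (if a.1 = a'.1 then X else 0) =
      2 * d ^ 2 * X := by
    rw [Fintype.sum_prod_type]
    have h3 : ∀ (x : Fin 2) (y : Fin d), ∑ a' : Fin 2 × Fin d,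
        (if ((x, y) : Fin 2 × Fin d).1 = a'.1 then X else 0) = d * X := by
      intro x y
      rw [Fintype.sum_prod_type, Finset.sum_eq_single x]
      · simp
      · intro j _ hj
        refine Finset.sum_eq_zero fun r _ => if_neg ?_
        exact Ne.symm hj
      · intro h
        exact absurd (Finset.mem_univ x) h
    simp only [h3, Finset.sum_const, Finset.card_univ, Fintype.card_fin, nsmul_eq_mul]
    push_cast
    ring
  rw [h2]
  push_cast
  ring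

/-- The final arithmetic. -/
lemma err_arith {D Cd P u v Q X : ℝ} (hD : 0 ≤ D) (hP : 0 ≤ P) (hu : 0 ≤ u)
    (hv : 0 ≤ v) (hQ : Q ≤ Cd ^ 2 * (D + 1) ^ 2 * P * u) (hX : X ≤ P * v) :
    2 * D ^ 2 * Q + (4 * D ^ 2 * Q + 2 * D ^ 2 * X) ≤
      (6 * D ^ 2 * Cd ^ 2 * (D + 1) ^ 2 + 2 * D ^ 2 + 1) * P * (u + v) := by
  have g1 : 6 * D ^ 2 * Q ≤ 6 * D ^ 2 * (Cd ^ 2 * (D + 1) ^ 2 * P * u) :=
    mul_le_mul_of_nonneg_left hQ (by positivity)
  have g2 : 2 * D ^ 2 * X ≤ 2 * D ^ 2 * (P * v) :=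
    mul_le_mul_of_nonneg_left hX (by positivity)
  have g3 : (6 * D ^ 2 * Cd ^ 2 * (D + 1) ^ 2 + 2 * D ^ 2 + 1) * P * (u + v) =
      6 * D ^ 2 * (Cd ^ 2 * (D + 1) ^ 2 * P * u) + 2 * D ^ 2 * (P * v) +
      ((2 * D ^ 2 + 1) * (P * u) + (6 * D ^ 2 * Cd ^ 2 * (D + 1) ^ 2 + 1) * (P * v)) := by ring
  rw [g3]
  have g4 : 0 ≤ (2 * D ^ 2 + 1) * (P * u) +
      (6 * D ^ 2 * Cd ^ 2 * (D + 1) ^ 2 + 1) * (P * v) := by positivity
  linarith

/-- The conclusion of the decoupling lemma in terms of the coupling. -/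
lemma dec_Gam {Cd : ℝ} {c : ℕ}
    (hDec : ∀ (n : ℕ) (ω : SimpleGraph (Fin n) × StarPos n d 2),
    ω ∈ ZZs n d 2 → ∀ z : ℂ, 0 < z.im → ∀ (B t : ℝ), 1 ≤ B → 0 ≤ t →
    (∀ x y, ‖starMat ω z x y‖ ≤ B) → (∀ i j, ‖(centreMat ω z)⁻¹ i j‖ ≤ B) →
    ∀ k : Fin 2, ‖(starMat ω z (k, none) (k, none))⁻¹‖ ≤ B →
    (∀ x y, ∀ j ≠ k, ‖starMat ω z (k, x) (j, y)‖ ≤ t) →
    (∀ p r : Fin d, ‖leadMat ω z (k, p) (k, r) - leadMat (FE.sub1 ω k) z (0, p) (0, r)‖
      ≤ Cd * B ^ c * t) ∧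
    (∀ p : Fin d, ∀ j ≠ k, ∀ r : Fin d, ‖leadMat ω z (k, p) (j, r)‖ ≤ Cd * B ^ c * t))
    {ω : SimpleGraph (Fin n) × StarPos n d 2} (hω : ω ∈ ZZs n d 2) {z : ℂ} (hz : 0 < z.im)
    {B : ℝ} (hB : 1 ≤ B) (hb : FE.Bdd ω z B) :
    (∀ j p r, ‖leadMat ω z (j, p) (j, r) - leadMat (FE.sub1 ω j) z (0, p) (0, r)‖ ^ 2 ≤
        Cd ^ 2 * B ^ (2 * c) * FE.Gam ω.1 z (st ω 0) (st ω 1)) ∧
      (∀ a b : Fin 2 × Fin d, a.1 ≠ b.1 → ‖leadMat ω z a b‖ ^ 2 ≤
        Cd ^ 2 * B ^ (2 * c) * FE.Gam ω.1 z (st ω 0) (st ω 1)) := by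
  set Gm := FE.Gam ω.1 z (st ω 0) (st ω 1) with hGm
  have hGm0 : 0 ≤ Gm := Finset.sum_nonneg fun _ _ => Finset.sum_nonneg fun _ _ => sq_nonneg _
  have ht : 0 ≤ Real.sqrt Gm := Real.sqrt_nonneg _
  have hle : ∀ x y, ‖starMat ω z (0, x) (1, y)‖ ≤ Real.sqrt Gm := by
    intro x y
    apply Real.le_sqrt_of_sq_le
    refine le_trans ?_ (Finset.single_le_sum (f := fun x => ∑ y : Option (Fin d),
      ‖resD (adj ω.1) ∅ z (pos (st ω 0) x) (pos (st ω 1) y)‖ ^ 2)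
      (fun _ _ => Finset.sum_nonneg fun _ _ => sq_nonneg _) (Finset.mem_univ x))
    exact Finset.single_le_sum (f := fun y : Option (Fin d) =>
      ‖resD (adj ω.1) ∅ z (pos (st ω 0) x) (pos (st ω 1) y)‖ ^ 2)
      (fun _ _ => sq_nonneg _) (Finset.mem_univ y)
  have hcoup : ∀ k : Fin 2, ∀ x y, ∀ j ≠ k, ‖starMat ω z (k, x) (j, y)‖ ≤
      Real.sqrt Gm := by
    intro k x y j hj
    fin_cases k
    · have : j = 1 := by
        fin_cases j
        · exact absurd rfl hj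
        · rfl
      rw [this]
      exact hle x y
    · have : j = 0 := by
        fin_cases j
        · rfl
        · exact absurd rfl hj
      rw [this]
      have h := starMat_comm ω hz.ne' (1, x) (0, y)
      have h2 := hle y x
      rw [← h] at h2
      exact h2
  have hsq : ∀ u : ℝ, 0 ≤ u → u ≤ Cd * B ^ c * Real.sqrt Gm →
      u ^ 2 ≤ Cd ^ 2 * B ^ (2 * c) * Gm := by
    intro u hu0 hu
    have h1 := pow_le_pow_left₀ hu0 hu 2
    refine h1.trans (le_of_eq ?_)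
    rw [mul_pow, mul_pow, Real.sq_sqrt hGm0, ← pow_mul, mul_comm c 2]
  constructor
  · intro j p r
    have h := (hDec n ω hω z hz B _ hB ht hb.star hb.cinv j (hb.sinv j) (hcoup j)).1 p r
    exact hsq _ (norm_nonneg _) h
  · rintro ⟨j, p⟩ ⟨j', r⟩ hjj
    have h := (hDec n ω hω z hz B _ hB ht hb.star hb.cinv j (hb.sinv j) (hcoup j)).2 p j'
      (Ne.symm hjj) r
    exact hsq _ (norm_nonneg _) h

open Classical in
/-- Exchange of the entry inside a star with a cross entry. -/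
lemma same_star_le (hd : 1 ≤ d) {z z' : ℂ}
    {g : Matrix (Fin 2 × Fin d) (Fin 2 × Fin d) ℂ → Prop}
    (hg : ∀ (σ : Equiv.Perm (Fin 2 × Fin d)) (M : Matrix (Fin 2 × Fin d) (Fin 2 × Fin d) ℂ),
      g (M.submatrix σ σ) ↔ g M)
    {P : SimpleGraph (Fin n) × StarPos n d 2 → Prop}
    (hP : ∀ ω, P ω ↔ ω ∈ ZZs n d 2 ∧ g (leadMat ω z'))
    {B b : ℝ} (hB : 1 ≤ B) (hb : 0 ≤ b) (hbdd : ∀ ω, P ω → FE.Bdd ω z B)
    {w w' : SimpleGraph (Fin n) → ℝ} (hw : FE.Wt n d b w w') {Q : ℝ}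
    (e2 : ∀ a a' : Fin 2 × Fin d, a.1 ≠ a'.1 → avg (WW n d 2) (fun ω => w ω.1 *
      if P ω then ‖leadMat ω z a a'‖ ^ 2 else 0) ≤ Q)
    {a a' : Fin 2 × Fin d} (haa : a ≠ a') (h1 : a.1 = a'.1) :
    avg (WW n d 2) (fun ω => w ω.1 * if P ω then ‖leadMat ω z a a'‖ ^ 2 else 0) ≤
      Q + b * (B ^ 2 * FE.XW n d w' z) := by
  obtain ⟨j2, hj2⟩ : ∃ j2 : Fin 2, j2 ≠ a.1 := ⟨a.1 + 1, by
    rcases a with ⟨j, p⟩
    fin_cases j <;> simp⟩
  set a2 : Fin 2 × Fin d := (j2, a'.2) with ha2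
  have haa2 : a ≠ a2 := fun h => hj2 (congrArg Prod.fst h).symm
  set σ : Equiv.Perm (Fin 2 × Fin d) := Equiv.swap a' a2 with hσ
  have hσa : σ a = a := Equiv.swap_apply_of_ne_of_ne haa haa2
  have hσa' : σ a' = a2 := Equiv.swap_apply_left _ _
  set zz' : Bool → ℂ := fun i => if i then z' else z with hzz
  set Φ : (Bool → Matrix (Fin 2 × Fin d) (Fin 2 × Fin d) ℂ) → ℝ :=
    fun M => if g (M true) then ‖M false a a'‖ ^ 2 else 0 with hΦ
  have hΦ0 : ∀ M, 0 ≤ Φ M := by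
    intro M
    simp only [hΦ]
    split_ifs
    · exact sq_nonneg _
    · exact le_rfl
  have hsw := avg_sw (n := n) (d := d) (K := 2) (by omega) σ zz' hw hΦ0
  have hzt : zz' true = z' := by simp [hzz]
  have hzf : zz' false = z := by simp [hzz]
  simp only [hΦ, hzt, hzf, hg, Matrix.submatrix_apply, hσa, hσa'] at hsw
  have conv : ∀ (v : SimpleGraph (Fin n) → ℝ) (a a' : Fin 2 × Fin d),
      avg (WW n d 2) (fun ω => v ω.1 * if P ω then ‖leadMat ω z a a'‖ ^ 2 else 0) =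
      avg (WW n d 2) (fun ω => if ω ∈ ZZs n d 2 then
        v ω.1 * (if g (leadMat ω z') then ‖leadMat ω z a a'‖ ^ 2 else 0) else 0) := by
    intro v a a'
    congr 1
    funext ω
    by_cases hZ : ω ∈ ZZs n d 2
    · by_cases hgω : g (leadMat ω z')
      · rw [if_pos ((hP ω).2 ⟨hZ, hgω⟩), if_pos hZ, if_pos hgω]
      · rw [if_neg (fun h => hgω ((hP ω).1 h).2), if_pos hZ, if_neg hgω]
    · rw [if_neg (fun h => hZ ((hP ω).1 h).1), if_neg hZ, mul_zero]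
  rw [conv w a a']
  refine hsw.trans (add_le_add ?_ ?_)
  · rw [← conv w a a2]
    exact e2 a a2 hj2.symm
  · refine mul_le_mul_of_nonneg_left ?_ hb
    unfold FE.XW
    rw [← avg_const_mul]
    refine avg_mono fun ω _ => ?_
    have hr := rho_nonneg ω z
    have hw'0 := hw.nonneg' ω.1
    have hpos : 0 ≤ B ^ 2 * (w' ω.1 * FE.rho ω z) :=
      mul_nonneg (sq_nonneg _) (mul_nonneg hw'0 hr)
    by_cases hZ : ω ∈ ZZs n d 2
    · rw [if_pos hZ]
      by_cases hgω : g (leadMat ω z')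
      · rw [if_pos hgω, mul_left_comm]
        refine mul_le_mul_of_nonneg_left ?_ hw'0
        have hbb := (hbdd ω ((hP ω).2 ⟨hZ, hgω⟩)).lead a a2
        have h3 := min_sq_le_rho ω z a a2
        rw [if_neg haa2, sub_zero] at h3
        refine (sq_le_mul_min hB (norm_nonneg _) hbb).trans ?_
        exact mul_le_mul_of_nonneg_left h3 (sq_nonneg _)
      · rw [if_neg hgω, mul_zero]
        exact hpos
    · rw [if_neg hZ]
      exact hpos

/-- Average of the coupling over the good part. -/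
lemma good_Gam_le (hWard : FE.SpecWard d) (hn : 0 < n) (E : ℝ) {η : ℝ} (hη : 0 < η)
    (P : SimpleGraph (Fin n) × StarPos n d 2 → Prop) [DecidablePred P] {B : ℝ} (hB : 0 ≤ B)
    (hbdd : ∀ ω, P ω → FE.Bdd ω (FE.zz E η) B)
    {w : SimpleGraph (Fin n) → ℝ} (hw : ∀ G, 0 ≤ w G) :
    avg (WW n d 2) (fun ω => w ω.1 *
      if P ω then FE.Gam ω.1 (FE.zz E η) (st ω 0) (st ω 1) else 0) ≤
      ((d : ℝ) + 1) ^ 2 * B / (n * η) * FE.MW n d w := by
  classical
  refine le_trans (avg_mono fun ω _ => ?_) (avg_Gam_le hWard hn E hη hw hB)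
  refine mul_le_mul_of_nonneg_left ?_ (hw _)
  by_cases hgood : P ω
  · have hb := hbdd ω hgood
    have hcond : ∀ x : Option (Fin d),
        (resD (adj ω.1) ∅ (FE.zz E η) (pos (st ω 0) x) (pos (st ω 0) x)).im ≤ B := by
      intro x
      have h1 := hb.star (0, x) (0, x)
      rw [starMat_eq_pos] at h1
      exact ((le_abs_self _).trans (Complex.abs_im_le_norm _)).trans h1
    rw [if_pos hgood, if_pos hcond]
  · rw [if_neg hgood]
    split_ifs
    · exact Finset.sum_nonneg fun _ _ => Finset.sum_nonneg fun _ _ => sq_nonneg _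
    · exact le_rfl

/-- Transfer of a pointwise bound to the weighted average over the good part. -/
lemma good_le (P : SimpleGraph (Fin n) × StarPos n d 2 → Prop) [DecidablePred P]
    {w : SimpleGraph (Fin n) → ℝ} (hw : ∀ G, 0 ≤ w G)
    {f h : SimpleGraph (Fin n) × StarPos n d 2 → ℝ} {c : ℝ}
    (hf : ∀ ω, P ω → f ω ≤ c * h ω) :
    avg (WW n d 2) (fun ω => w ω.1 * if P ω then f ω else 0) ≤
      c * avg (WW n d 2) (fun ω => w ω.1 * if P ω then h ω else 0) := by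
  rw [← avg_const_mul]
  refine avg_mono fun ω _ => ?_
  rw [mul_left_comm]
  refine mul_le_mul_of_nonneg_left ?_ (hw _)
  by_cases hgood : P ω
  · rw [if_pos hgood, if_pos hgood]
    exact hf ω hgood
  · rw [if_neg hgood, if_neg hgood, mul_zero]

lemma Gam_nonneg (G : SimpleGraph (Fin n)) (z : ℂ) (s t : Fin n × (Fin d → Fin n)) :
    0 ≤ FE.Gam G z s t :=
  Finset.sum_nonneg fun _ _ => Finset.sum_nonneg fun _ _ => sq_nonneg _

lemma XW_nonneg {w : SimpleGraph (Fin n) → ℝ} (hw : ∀ G, 0 ≤ w G) (z : ℂ) :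
    0 ≤ FE.XW n d w z :=
  avg_nonneg fun ω _ => mul_nonneg (hw _) (rho_nonneg ω z)

lemma MW_nonneg {w : SimpleGraph (Fin n) → ℝ} (hw : ∀ G, 0 ≤ w G) : 0 ≤ FE.MW n d w :=
  avg_nonneg fun G _ => hw G

open Classical in
/-- FE8a with an opaque good event. -/
lemma specErr_aux (hd : 1 ≤ d) {Cd : ℝ} {c : ℕ}
    (hDec : ∀ (n : ℕ) (ω : SimpleGraph (Fin n) × StarPos n d 2),
    ω ∈ ZZs n d 2 → ∀ z : ℂ, 0 < z.im → ∀ (B t : ℝ), 1 ≤ B → 0 ≤ t →
    (∀ x y, ‖starMat ω z x y‖ ≤ B) → (∀ i j, ‖(centreMat ω z)⁻¹ i j‖ ≤ B) →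
    ∀ k : Fin 2, ‖(starMat ω z (k, none) (k, none))⁻¹‖ ≤ B →
    (∀ x y, ∀ j ≠ k, ‖starMat ω z (k, x) (j, y)‖ ≤ t) →
    (∀ p r : Fin d, ‖leadMat ω z (k, p) (k, r) - leadMat (FE.sub1 ω k) z (0, p) (0, r)‖
      ≤ Cd * B ^ c * t) ∧
    (∀ p : Fin d, ∀ j ≠ k, ∀ r : Fin d, ‖leadMat ω z (k, p) (j, r)‖ ≤ Cd * B ^ c * t))
    (hWard : FE.SpecWard d) (hn : 0 < n) (E : ℝ) {η : ℝ} (hη : 0 < η) {z' : ℂ}
    {g : Matrix (Fin 2 × Fin d) (Fin 2 × Fin d) ℂ → Prop}
    (hg : ∀ (σ : Equiv.Perm (Fin 2 × Fin d)) (M : Matrix (Fin 2 × Fin d) (Fin 2 × Fin d) ℂ),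
      g (M.submatrix σ σ) ↔ g M)
    {P : SimpleGraph (Fin n) × StarPos n d 2 → Prop}
    (hP : ∀ ω, P ω ↔ ω ∈ ZZs n d 2 ∧ g (leadMat ω z'))
    {B b : ℝ} (hB : 1 ≤ B) (hb : 0 ≤ b) (hbdd : ∀ ω, P ω → FE.Bdd ω (FE.zz E η) B)
    {w w' : SimpleGraph (Fin n) → ℝ} (hw : FE.Wt n d b w w') :
    avg (WW n d 2) (fun ω => w ω.1 * if P ω then FE.EE ω (FE.zz E η) else 0) ≤
      (6 * d ^ 2 * Cd ^ 2 * (d + 1) ^ 2 + 2 * d ^ 2 + 1) * B ^ (2 * c + 2) *
        (FE.MW n d w / (n * η) + b * FE.XW n d w' (FE.zz E η)) := by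
  set z := FE.zz E η with hz
  have hzim : 0 < z.im := by simp [hz, FE.zz, hη]
  have hB0 : 0 ≤ B := by linarith
  set S1 : ℝ := avg (WW n d 2) (fun ω => w ω.1 *
    if P ω then FE.Gam ω.1 z (st ω 0) (st ω 1) else 0) with hS1
  have hS1le : S1 ≤ ((d : ℝ) + 1) ^ 2 * B / (n * η) * FE.MW n d w :=
    good_Gam_le hWard hn E hη P hB0 hbdd hw.nonneg
  have hS10 : 0 ≤ S1 := avg_nonneg fun ω _ => mul_nonneg (hw.nonneg _) (by
    split_ifs
    · exact Gam_nonneg _ _ _ _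
    · exact le_rfl)
  set Q : ℝ := Cd ^ 2 * B ^ (2 * c) * S1 with hQ
  have hQ0 : 0 ≤ Q := by positivity
  have e1 : ∀ j p r, avg (WW n d 2) (fun ω => w ω.1 *
      if P ω then
        ‖leadMat ω z (j, p) (j, r) - leadMat (FE.sub1 ω j) z (0, p) (0, r)‖ ^ 2 else 0) ≤ Q :=
    fun j p r => good_le P hw.nonneg fun ω hω =>
      (dec_Gam hDec ((hP ω).1 hω).1 hzim hB (hbdd ω hω)).1 j p r
  have e2 : ∀ a a' : Fin 2 × Fin d, a.1 ≠ a'.1 → avg (WW n d 2) (fun ω => w ω.1 *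
      if P ω then ‖leadMat ω z a a'‖ ^ 2 else 0) ≤ Q :=
    fun a a' haa => good_le P hw.nonneg fun ω hω =>
      (dec_Gam hDec ((hP ω).1 hω).1 hzim hB (hbdd ω hω)).2 a a' haa
  have hXW0 : 0 ≤ FE.XW n d w' z := XW_nonneg hw.nonneg' z
  set X : ℝ := b * (B ^ 2 * FE.XW n d w' z) with hX
  have hX0 : 0 ≤ X := by positivity
  have e3 : ∀ a a' : Fin 2 × Fin d, a ≠ a' → avg (WW n d 2) (fun ω => w ω.1 *
      if P ω then ‖leadMat ω z a a'‖ ^ 2 else 0) ≤ Q + X := by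
    intro a a' haa
    by_cases h1 : a.1 = a'.1
    · exact same_star_le hd hg hP hB hb hbdd hw e2 haa h1
    · exact (e2 a a' h1).trans (by linarith)
  rw [EE_split]
  have f1 : ∑ j : Fin 2, ∑ p : Fin d, ∑ r : Fin d, avg (WW n d 2) (fun ω => w ω.1 *
        if P ω then
        ‖leadMat ω z (j, p) (j, r) - leadMat (FE.sub1 ω j) z (0, p) (0, r)‖ ^ 2 else 0) ≤
      2 * d ^ 2 * Q := by
    refine (Finset.sum_le_sum fun j _ => Finset.sum_le_sum fun p _ =>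
      Finset.sum_le_sum fun r _ => e1 j p r).trans (le_of_eq ?_)
    simp only [Finset.sum_const, Finset.card_univ, Fintype.card_fin, nsmul_eq_mul]
    push_cast
    ring
  have f2 := sum_cases hQ0 hX0 e2 e3
  refine (add_le_add f1 f2).trans ?_
  have hMW0 : 0 ≤ FE.MW n d w := MW_nonneg hw.nonneg
  have hn0 : (0 : ℝ) < n := by exact_mod_cast hn
  have hQle : Q ≤ Cd ^ 2 * (d + 1) ^ 2 * B ^ (2 * c + 2) * (FE.MW n d w / (n * η)) := by
    have h1 : Q ≤ Cd ^ 2 * B ^ (2 * c) * (((d : ℝ) + 1) ^ 2 * B / (n * η) * FE.MW n d w) :=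
      mul_le_mul_of_nonneg_left hS1le (by positivity)
    refine h1.trans ?_
    have h2 : Cd ^ 2 * B ^ (2 * c) * (((d : ℝ) + 1) ^ 2 * B / (n * η) * FE.MW n d w) =
        Cd ^ 2 * (d + 1) ^ 2 * (B ^ (2 * c) * B) * (FE.MW n d w / (n * η)) := by ring
    rw [h2]
    have h3 : B ^ (2 * c) * B ≤ B ^ (2 * c + 2) := by
      rw [← pow_succ]
      exact pow_le_pow_right₀ hB (by omega)
    gcongr
  have hXle : X ≤ B ^ (2 * c + 2) * (b * FE.XW n d w' z) := by
    have h3 : B ^ 2 ≤ B ^ (2 * c + 2) := pow_le_pow_right₀ hB (by omega)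
    have h4 : X = B ^ 2 * (b * FE.XW n d w' z) := by rw [hX]; ring
    rw [h4]
    exact mul_le_mul_of_nonneg_right h3 (by positivity)
  exact err_arith (Nat.cast_nonneg d) (by positivity) (by positivity) (by positivity) hQle hXle

/-- **FE8a**. -/
theorem specErr (hd : 1 ≤ d) (hDec : FE.SpecDec d) (hWard : FE.SpecWard d) : FE.SpecErr d := by
  obtain ⟨Cd, c, hCd, hDec⟩ := hDec 2
  refine ⟨6 * d ^ 2 * Cd ^ 2 * (d + 1) ^ 2 + 2 * d ^ 2 + 1, 2 * c + 2, ?_,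
    fun n hn E η hη hη1 z' g hg B b hB hb hbdd w w' hw => ?_⟩
  · have : (0 : ℝ) ≤ 6 * d ^ 2 * Cd ^ 2 * (d + 1) ^ 2 + 2 * d ^ 2 := by positivity
    linarith
  obtain ⟨P, hP⟩ : ∃ P : SimpleGraph (Fin n) × StarPos n d 2 → Prop,
      ∀ ω, P ω ↔ ω ∈ ZZs n d 2 ∧ g (leadMat ω z') := ⟨_, fun _ => Iff.rfl⟩
  have h := specErr_aux hd hDec hWard hn E hη hg hP hB hb
    (fun ω hω => hbdd ω ((hP ω).1 hω).1 ((hP ω).1 hω).2) hw
  refine le_trans (avg_mono fun ω _ => ?_) h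
  refine mul_le_mul_of_nonneg_left (le_of_eq ?_) (hw.nonneg _)
  by_cases hgood : P ω
  · rw [if_pos hgood, if_pos ((hP ω).1 hgood)]
  · rw [if_neg hgood, if_neg (fun h => hgood ((hP ω).2 h))]

end

end Vale.Agent.P156.B
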