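import Vale.Agent.P156.B.FE9b
import Vale.Agent.P156.B.FE8a

/-!
P156, fixed energy upgrade, block FE9: base scale.
-/

namespace Vale.Agent.P156.B

open Finset H801

noncomputable section

variable {n d q K : ℕ}

/-- Weighted average of `phi` over the directed edges. -/
def vPhi (n d : ℕ) (w : SimpleGraph (Fin n) → ℝ) (z : ℂ) : ℝ :=
  avg (regularGraphs n d) (fun G => w G *
    wavg (ew d G) (fun e => _root_.P156.H613.phi (FE.mm d z) (hc G z e)))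

lemma EW_phi (hn : 0 < n) (w : SimpleGraph (Fin n) → ℝ) (z : ℂ) (j : Fin 2) (k : Fin d) :
    FE.EW n d w (fun ω => _root_.P156.H613.phi (FE.mm d z)
      (hc ω.1 z (ω.2.1 j, ω.2.2 j k))) = vPhi n d w z := by
  have h := FE.EW_one hn w j
    (fun G t => _root_.P156.H613.phi (FE.mm d z) (hc G z (t.1, t.2 k)))
  refine h.trans (H490.avg_congr fun G hG => ?_)
  rw [avg_stars_edge (mem_regularGraphs.1 hG) k
    (fun e => _root_.P156.H613.phi (FE.mm d z) (hc G z e))]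

lemma EW_phi' (hn : 0 < n) (w : SimpleGraph (Fin n) → ℝ) (z : ℂ) (j : Fin 2) (k : Fin d) :
    FE.EW n d w (fun ω => _root_.P156.H613.phi (FE.mm d z)
      (hc ω.1 z (ω.2.2 j k, ω.2.1 j))) = vPhi n d w z := by
  have h := FE.EW_one hn w j
    (fun G t => _root_.P156.H613.phi (FE.mm d z) (hc G z (t.2 k, t.1)))
  refine h.trans (H490.avg_congr fun G hG => ?_)
  rw [avg_stars_edge' (mem_regularGraphs.1 hG) k
    (fun e => _root_.P156.H613.phi (FE.mm d z) (hc G z e))]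

/-- Upper bound of `phi`. -/
def Pmax (q : ℕ) (η₁ R : ℝ) : ℝ :=
  (1 / η₁ + 1) ^ 2 / (hb (q + 1) η₁ R * (η₁ / (R + 1 + q) ^ 2))

lemma Pmax_nonneg {η₁ R : ℝ} (hη₁ : 0 < η₁) (hR : 0 ≤ R) : 0 ≤ Pmax q η₁ R := by
  unfold Pmax
  have := hb_pos (d := q + 1) hη₁ hR
  positivity

lemma phi_range (hq : 1 ≤ q) {G : SimpleGraph (Fin n)} (hG : G ∈ regularGraphs n (q + 1))
    {E η η₁ R : ℝ} (hη₁ : 0 < η₁) (h1 : η₁ ≤ η) (h2 : η ≤ 1) (hE : |E| ≤ R)
    {e : Fin n × Fin n} (he : e.1 ≠ e.2) :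
    0 ≤ _root_.P156.H613.phi (FE.mm (q + 1) (FE.zz E η)) (hc G (FE.zz E η) e) ∧
    _root_.P156.H613.phi (FE.mm (q + 1) (FE.zz E η)) (hc G (FE.zz E η) e) ≤ Pmax q η₁ R ∧
    ‖hc G (FE.zz E η) e - FE.mm (q + 1) (FE.zz E η)‖ ^ 2 ≤ 1 / η₁ *
      _root_.P156.H613.phi (FE.mm (q + 1) (FE.zz E η)) (hc G (FE.zz E η) e) := by
  have hR : 0 ≤ R := (abs_nonneg _).trans hE
  have hη : 0 < η := hη₁.trans_le h1
  have hIs := isM_mm hq (E := E) hη
  have hm := hIs.im_pos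
  have hzi : (FE.zz E η).im = η := by simp
  have hzn : ‖FE.zz E η‖ ≤ R + 1 := by
    have := H574.norm_zz_le E hη.le h2
    linarith
  have hr := hc_base hG hη₁ h1 h2 hE he
  have hb0 := hb_pos (d := q + 1) hη₁ hR
  have him : 0 < (hc G (FE.zz E η) e).im := hb0.trans_le hr.2
  have hm1 := hIs.norm_le_one (by rw [hzi]; exact hη.le) hq
  have hmim1 := hIs.im_le_one (by rw [hzi]; exact hη.le) hq
  have hml := hIs.im_lower (by rw [hzi]; exact hη.le) hq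
  rw [hzi] at hml
  set m := FE.mm (q + 1) (FE.zz E η)
  set h := hc G (FE.zz E η) e
  have hml2 : η₁ / (R + 1 + q) ^ 2 ≤ m.im := by
    refine le_trans ?_ hml
    have hq' : (1 : ℝ) ≤ q := by exact_mod_cast hq
    have h0 : 0 < ‖FE.zz E η‖ + q := by positivity
    gcongr
  have hφ0 : 0 ≤ _root_.P156.H613.phi m h := _root_.P156.H613.phi_nonneg hm him
  refine ⟨hφ0, ?_, ?_⟩
  · unfold _root_.P156.H613.phi Pmax
    have hn1 : ‖h - m‖ ≤ 1 / η₁ + 1 := (norm_sub_le _ _).trans (add_le_add hr.1 hm1)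
    have h0 : 0 < η₁ / (R + 1 + q) ^ 2 := by positivity
    gcongr
    exact hr.2
  · have e1 : ‖h - m‖ ^ 2 = (h.im * m.im) * _root_.P156.H613.phi m h := by
      unfold _root_.P156.H613.phi
      field_simp
    rw [e1]
    have h3 : h.im ≤ 1 / η₁ := ((le_abs_self _).trans (Complex.abs_im_le_norm _)).trans hr.1
    have h4 : h.im * m.im ≤ 1 / η₁ * 1 := by gcongr
    rw [mul_one] at h4
    exact mul_le_mul_of_nonneg_right h4 hφ0

lemma WW_ne {ω : SimpleGraph (Fin n) × StarPos n d K} (hω : ω ∈ WW n d K) (j : Fin K) (k : Fin d) :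
    ω.2.1 j ≠ ω.2.2 j k := by
  have h := mem_mstars.1 (mem_WW.1 hω).2 j
  exact ((mem_stars.1 h).2 k).ne

/-- The deviation in terms of the single star entries. -/
lemma rho_sum_le (ω : SimpleGraph (Fin n) × StarPos n d 2) (z : ℂ) (m : ℂ) :
    ∑ a, ∑ b, ‖leadMat ω z a b - (if a = b then m else 0)‖ ^ 2 ≤
      2 * FE.EE ω z + 2 * ∑ j : Fin 2, ∑ k : Fin d, ‖hc ω.1 z (ω.2.1 j, ω.2.2 j k) - m‖ ^ 2 := by
  set E1 := ∑ j : Fin 2, ∑ p : Fin d, ∑ r : Fin d,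
    ‖leadMat ω z (j, p) (j, r) - leadMat (FE.sub1 ω j) z (0, p) (0, r)‖ ^ 2 with hE1
  set E2 := ∑ a, ∑ b, (if a = b then 0 else ‖leadMat ω z a b‖ ^ 2) with hE2
  have hEE : FE.EE ω z = E1 + E2 := rfl
  have hE20 : 0 ≤ E2 := by
    refine Finset.sum_nonneg fun a _ => Finset.sum_nonneg fun b _ => ?_
    split_ifs
    · exact le_rfl
    · positivity
  have h1 : ∑ a, ∑ b, ‖leadMat ω z a b - (if a = b then m else 0)‖ ^ 2 =
      E2 + ∑ a, ‖leadMat ω z a a - m‖ ^ 2 := by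
    rw [hE2, ← Finset.sum_add_distrib]
    refine Finset.sum_congr rfl fun a _ => ?_
    have h2 : ‖leadMat ω z a a - m‖ ^ 2 =
        ∑ b, (if a = b then ‖leadMat ω z a b - m‖ ^ 2 else 0) := by
      rw [Finset.sum_ite_eq, if_pos (Finset.mem_univ a)]
    rw [h2, ← Finset.sum_add_distrib]
    refine Finset.sum_congr rfl fun b _ => ?_
    by_cases hab : a = b
    · rw [if_pos hab, if_pos hab, if_pos hab, zero_add]
    · rw [if_neg hab, if_neg hab, if_neg hab, add_zero, sub_zero]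
  have h3 : ∑ a, ‖leadMat ω z a a - m‖ ^ 2 ≤ 2 * E1 +
      2 * ∑ j : Fin 2, ∑ k : Fin d, ‖hc ω.1 z (ω.2.1 j, ω.2.2 j k) - m‖ ^ 2 := by
    rw [Fintype.sum_prod_type, hE1, Finset.mul_sum, Finset.mul_sum, ← Finset.sum_add_distrib]
    refine Finset.sum_le_sum fun j _ => ?_
    rw [Finset.mul_sum, Finset.mul_sum, ← Finset.sum_add_distrib]
    refine Finset.sum_le_sum fun p _ => ?_
    have h4 := Finset.single_le_sum (f := fun r : Fin d =>
      ‖leadMat ω z (j, p) (j, r) - leadMat (FE.sub1 ω j) z (0, p) (0, r)‖ ^ 2)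
      (fun _ _ => sq_nonneg _) (Finset.mem_univ p)
    rw [FE.hc_eq_sub1]
    set x := leadMat ω z (j, p) (j, p)
    set y := leadMat (FE.sub1 ω j) z (0, p) (0, p)
    have h5 : ‖x - m‖ ≤ ‖x - y‖ + ‖y - m‖ := by
      have := norm_add_le (x - y) (y - m)
      rwa [sub_add_sub_cancel] at this
    have h6 : ‖x - m‖ ^ 2 ≤ 2 * ‖x - y‖ ^ 2 + 2 * ‖y - m‖ ^ 2 := by
      nlinarith [norm_nonneg (x - m), norm_nonneg (x - y), norm_nonneg (y - m),
        sq_nonneg (‖x - y‖ - ‖y - m‖)]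
    have h7 : 2 * ‖x - y‖ ^ 2 ≤ 2 * ∑ r : Fin d,
      ‖leadMat ω z (j, p) (j, r) - leadMat (FE.sub1 ω j) z (0, p) (0, r)‖ ^ 2 :=
      mul_le_mul_of_nonneg_left h4 (by norm_num)
    linarith
  rw [h1, hEE]
  linarith

/-- The contraction factor. -/
lemma kappa_le {q : ℕ} (hq : 1 ≤ q) {η η₁ y : ℝ} (hη₁ : 0 < η₁) (h1 : η₁ ≤ η) (h2 : η ≤ 1)
    (hy : 0 < y) (hy1 : y ≤ 1) :
    (1 + 3 * (η₁ / (6 * q))) * (y / (η + q * y)) * q ≤ 1 - η₁ / (2 * (q + 1)) := by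
  have hq' : (1 : ℝ) ≤ q := by exact_mod_cast hq
  have hq0 : (0 : ℝ) < q := by linarith
  have hη : 0 < η := hη₁.trans_le h1
  have h3 : y / (η + q * y) ≤ 1 / (η₁ + q) := by
    rw [div_le_div_iff₀ (by positivity) (by positivity)]
    nlinarith
  have h4 : (1 + 3 * (η₁ / (6 * q))) * q = q + η₁ / 2 := by
    field_simp
    ring
  calc (1 + 3 * (η₁ / (6 * q))) * (y / (η + q * y)) * q
      = ((1 + 3 * (η₁ / (6 * q))) * q) * (y / (η + q * y)) := by ring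
    _ ≤ ((1 + 3 * (η₁ / (6 * q))) * q) * (1 / (η₁ + q)) := by gcongr
    _ = (q + η₁ / 2) / (η₁ + q) := by rw [h4]; ring
    _ ≤ 1 - η₁ / (2 * (q + 1)) := by
      have h5 : (q + η₁ / 2) / (η₁ + q) = 1 - η₁ / (2 * (η₁ + q)) := by
        field_simp
        ring
      rw [h5]
      have h6 : η₁ / (2 * (q + 1)) ≤ η₁ / (2 * (η₁ + q)) := by
        apply div_le_div_of_nonneg_left hη₁.le (by positivity)
        linarith
      linarith

/-- Contraction of the average of `phi`. -/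
lemma vPhi_le (hq : 1 ≤ q) (hn : 0 < n) {w : SimpleGraph (Fin n) → ℝ} (hw : ∀ G, 0 ≤ w G)
    {E η η₁ R : ℝ} (hη₁ : 0 < η₁) (h1 : η₁ ≤ η) (h2 : η ≤ 1) (hE : |E| ≤ R)
    {P : SimpleGraph (Fin n) × StarPos n (q + 1) 2 → Prop} [DecidablePred P]
    (hP : ∀ ω, P ω ↔ ω ∈ ZZs n (q + 1) 2) :
    η₁ / (2 * (q + 1)) * vPhi n (q + 1) w (FE.zz E η) ≤
      Crec q η₁ R (η₁ / (6 * q)) *
        FE.EW n (q + 1) w (fun ω => if P ω then FE.EE ω (FE.zz E η) else 0) +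
      Pmax q η₁ R * FE.EW n (q + 1) w (fun ω => if P ω then 0 else 1) := by
  have hR : 0 ≤ R := (abs_nonneg _).trans hE
  have hη : 0 < η := hη₁.trans_le h1
  have hq' : (1 : ℝ) ≤ q := by exact_mod_cast hq
  have hIs := isM_mm hq (E := E) hη
  have hzi : (FE.zz E η).im = η := by simp
  have hmim1 := hIs.im_le_one (by rw [hzi]; exact hη.le) hq
  have hmpos := hIs.im_pos
  set z := FE.zz E η with hz
  set m := FE.mm (q + 1) z with hm
  set δ := η₁ / (6 * q) with hδ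
  have hδ0 : 0 < δ := by positivity
  have hδ1 : δ ≤ 1 / 3 := by
    rw [hδ, div_le_iff₀ (by positivity)]
    linarith
  set v := vPhi n (q + 1) w z with hv
  set θ := (1 + 3 * δ) * (m.im / (η + q * m.im)) with hθ
  have hθ0 : 0 ≤ θ := by positivity
  have hv0 : 0 ≤ v := by
    rw [hv, ← EW_phi hn w z 0 0]
    exact FE.EW_nonneg hw fun ω hω =>
      (phi_range hq (mem_regularGraphs.2 (mem_WW.1 hω).1) hη₁ h1 h2 hE (WW_ne hω 0 0)).1
  have key : v ≤ FE.EW n (q + 1) w (fun ω =>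
      (θ * ∑ k : Fin q, _root_.P156.H613.phi m (hc ω.1 z (ω.2.1 0, ω.2.2 0 k.castSucc)) +
      Crec q η₁ R δ * (if P ω then FE.EE ω z else 0)) +
      Pmax q η₁ R * (if P ω then 0 else 1)) := by
    rw [hv, ← EW_phi' hn w z 0 (Fin.last q)]
    refine FE.EW_mono hw fun ω hω => ?_
    have hG := mem_regularGraphs.2 (mem_WW.1 hω).1
    by_cases hPω : P ω
    · rw [if_pos hPω, if_pos hPω, mul_zero, add_zero]
      have h3 := phi_rec hq ((hP ω).1 hPω) hη₁ h1 h2 hE hδ0 hδ1 0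
      rw [← mul_assoc] at h3
      exact h3
    · rw [if_neg hPω, if_neg hPω, mul_zero, add_zero, mul_one]
      have h3 := (phi_range hq hG hη₁ h1 h2 hE (e := (ω.2.2 0 (Fin.last q), ω.2.1 0))
        (WW_ne hω 0 (Fin.last q)).symm).2.1
      have h4 : 0 ≤ θ * ∑ k : Fin q, _root_.P156.H613.phi m
          (hc ω.1 z (ω.2.1 0, ω.2.2 0 k.castSucc)) :=
        mul_nonneg hθ0 (Finset.sum_nonneg fun k _ =>
          (phi_range hq hG hη₁ h1 h2 hE (WW_ne hω 0 k.castSucc)).1)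
      exact h3.trans (le_add_of_nonneg_left h4)
  rw [FE.EW_add, FE.EW_add, FE.EW_smul, FE.EW_smul, FE.EW_smul, FE.EW_sum] at key
  simp only [hm, EW_phi hn w z 0] at key
  rw [← hv, Finset.sum_const, Finset.card_univ, Fintype.card_fin, nsmul_eq_mul] at key
  have hκ := kappa_le hq hη₁ h1 h2 hmpos hmim1
  rw [← hδ, ← hθ] at hκ
  have h5 : θ * (q * v) ≤ (1 - η₁ / (2 * (q + 1))) * v := by
    rw [← mul_assoc]
    exact mul_le_mul_of_nonneg_right hκ hv0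
  linarith

/-- Bound of the observable by the single star averages. -/
lemma XW_le_vPhi (hq : 1 ≤ q) (hn : 0 < n) {w : SimpleGraph (Fin n) → ℝ} (hw : ∀ G, 0 ≤ w G)
    {E η η₁ R : ℝ} (hη₁ : 0 < η₁) (h1 : η₁ ≤ η) (h2 : η ≤ 1) (hE : |E| ≤ R)
    (P : SimpleGraph (Fin n) × StarPos n (q + 1) 2 → Prop) [DecidablePred P] :
    FE.XW n (q + 1) w (FE.zz E η) ≤
      2 * FE.EW n (q + 1) w (fun ω => if P ω then FE.EE ω (FE.zz E η) else 0) +
      4 * (q + 1) / η₁ * vPhi n (q + 1) w (FE.zz E η) +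
      FE.EW n (q + 1) w (fun ω => if P ω then 0 else 1) := by
  set z := FE.zz E η with hz
  set m := FE.mm (q + 1) z with hm
  have key : FE.XW n (q + 1) w z ≤ FE.EW n (q + 1) w (fun ω =>
      (2 * (if P ω then FE.EE ω z else 0) +
      2 / η₁ * ∑ j : Fin 2, ∑ k : Fin (q + 1),
        _root_.P156.H613.phi m (hc ω.1 z (ω.2.1 j, ω.2.2 j k))) + (if P ω then 0 else 1)) := by
    change FE.EW n (q + 1) w (fun ω => FE.rho ω z) ≤ _
    refine FE.EW_mono hw fun ω hω => ?_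
    have hG := mem_regularGraphs.2 (mem_WW.1 hω).1
    have h0 : 0 ≤ 2 / η₁ * ∑ j : Fin 2, ∑ k : Fin (q + 1),
        _root_.P156.H613.phi m (hc ω.1 z (ω.2.1 j, ω.2.2 j k)) :=
      mul_nonneg (by positivity) (Finset.sum_nonneg fun j _ => Finset.sum_nonneg fun k _ =>
        (phi_range hq hG hη₁ h1 h2 hE (WW_ne hω j k)).1)
    by_cases hPω : P ω
    · rw [if_pos hPω, if_pos hPω, add_zero]
      refine (min_le_right _ _).trans ((rho_sum_le ω z m).trans ?_)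
      refine add_le_add le_rfl ?_
      rw [Finset.mul_sum, Finset.mul_sum]
      refine Finset.sum_le_sum fun j _ => ?_
      rw [Finset.mul_sum, Finset.mul_sum]
      refine Finset.sum_le_sum fun k _ => ?_
      have h3 := (phi_range hq hG hη₁ h1 h2 hE (e := (ω.2.1 j, ω.2.2 j k)) (WW_ne hω j k)).2.2
      calc 2 * ‖hc ω.1 z (ω.2.1 j, ω.2.2 j k) - m‖ ^ 2
          ≤ 2 * (1 / η₁ * _root_.P156.H613.phi m (hc ω.1 z (ω.2.1 j, ω.2.2 j k))) :=
            mul_le_mul_of_nonneg_left h3 (by norm_num)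
        _ = _ := by ring
    · rw [if_neg hPω, if_neg hPω, mul_zero, zero_add]
      exact (min_le_left _ _).trans (le_add_of_nonneg_left h0)
  rw [FE.EW_add, FE.EW_add, FE.EW_smul, FE.EW_smul, FE.EW_sum] at key
  simp only [FE.EW_sum, hm, EW_phi hn w z] at key
  simp only [Finset.sum_const, Finset.card_univ, Fintype.card_fin, nsmul_eq_mul] at key
  refine key.trans (le_of_eq ?_)
  push_cast
  ring

/-- The final arithmetic. -/
lemma bs_arith {q η₁ η N B M X' X Y v V Cr Pm Ce c : ℝ} (hq : 1 ≤ q) (hη₁ : 0 < η₁)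
    (h1 : η₁ ≤ η) (h2 : η ≤ 1) (hN : 0 < N) (hB : 0 ≤ B) (hM0 : 0 ≤ M) (hX'0 : 0 ≤ X')
    (hCr : 0 ≤ Cr) (hPm : 0 ≤ Pm) (hCe : 0 ≤ Ce) (hc : 0 ≤ c)
    (e1 : η₁ / (2 * (q + 1)) * v ≤ Cr * X + Pm * Y)
    (e2 : V ≤ 2 * X + 4 * (q + 1) / η₁ * v + Y)
    (e3 : X ≤ Ce * (M / (N * η) + B / N * X'))
    (e4 : Y ≤ c * M / N) :
    V ≤ (1 + (2 + 4 * (q + 1) / η₁ * (2 * (q + 1) / η₁) * Cr) * (Ce / η₁) +
      (1 + 4 * (q + 1) / η₁ * (2 * (q + 1) / η₁) * Pm) * c) * (1 + B) * (M + X') / N := by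
  have hη : 0 < η := hη₁.trans_le h1
  set K1 := 4 * (q + 1) / η₁ * (2 * (q + 1) / η₁) with hK1
  have hK10 : 0 ≤ K1 := by positivity
  set S := (1 + B) * (M + X') / N with hS
  have hS0 : 0 ≤ S := by positivity
  have e5 : X ≤ Ce / η₁ * S := by
    refine e3.trans ?_
    have h3 : M / (N * η) ≤ M / (N * η₁) := by gcongr
    have h4 : B / N * X' ≤ B / N * X' / η₁ := by
      rw [le_div_iff₀ hη₁]
      have : 0 ≤ B / N * X' := by positivity
      nlinarith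
    have h5 : M / (N * η₁) + B / N * X' / η₁ = (M + B * X') / N / η₁ := by
      field_simp
    have h6 : M + B * X' ≤ (1 + B) * (M + X') := by nlinarith [mul_nonneg hB hM0]
    have h7 : (M + B * X') / N / η₁ ≤ S / η₁ := by
      rw [hS]
      gcongr
    calc Ce * (M / (N * η) + B / N * X')
        ≤ Ce * (S / η₁) := by
          refine mul_le_mul_of_nonneg_left ?_ hCe
          linarith
      _ = _ := by ring
  have e6 : Y ≤ c * S := by
    refine e4.trans ?_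
    rw [mul_div_assoc]
    refine mul_le_mul_of_nonneg_left ?_ hc
    rw [hS]
    have h6 : M ≤ (1 + B) * (M + X') := by nlinarith [mul_nonneg hB hM0, mul_nonneg hB hX'0]
    gcongr
  have e7 : 4 * (q + 1) / η₁ * v ≤ K1 * (Cr * X + Pm * Y) := by
    have h3 : v = 2 * (q + 1) / η₁ * (η₁ / (2 * (q + 1)) * v) := by
      field_simp
    rw [hK1, mul_assoc]
    refine mul_le_mul_of_nonneg_left ?_ (by positivity)
    calc v = 2 * (q + 1) / η₁ * (η₁ / (2 * (q + 1)) * v) := h3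
      _ ≤ _ := mul_le_mul_of_nonneg_left e1 (by positivity)
  have e8 : V ≤ (2 + K1 * Cr) * X + (1 + K1 * Pm) * Y := by
    refine e2.trans ?_
    have : (2 + K1 * Cr) * X + (1 + K1 * Pm) * Y = 2 * X + K1 * (Cr * X + Pm * Y) + Y := by ring
    rw [this]
    linarith
  have e9 : (2 + K1 * Cr) * X ≤ (2 + K1 * Cr) * (Ce / η₁) * S := by
    rw [mul_assoc (2 + K1 * Cr)]
    exact mul_le_mul_of_nonneg_left e5 (by positivity)
  have e10 : (1 + K1 * Pm) * Y ≤ (1 + K1 * Pm) * c * S := by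
    rw [mul_assoc (1 + K1 * Pm)]
    exact mul_le_mul_of_nonneg_left e6 (by positivity)
  have e11 : (1 + (2 + K1 * Cr) * (Ce / η₁) + (1 + K1 * Pm) * c) * (1 + B) * (M + X') / N =
      S + (2 + K1 * Cr) * (Ce / η₁) * S + (1 + K1 * Pm) * c * S := by
    rw [hS]
    ring
  rw [e11]
  linarith

/-- The error bound at the base scale. -/
lemma err_base {Ce : ℝ} {κ : ℕ} (hn : 0 < n)
    {E η η₁ R B : ℝ} (hη₁ : 0 < η₁) (h1 : η₁ ≤ η) (h2 : η ≤ 1) (hE : |E| ≤ R) (hB : 0 ≤ B)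
    {w w' : SimpleGraph (Fin n) → ℝ} (hw : FE.Wt n d (B / n) w w')
    {P : SimpleGraph (Fin n) × StarPos n d 2 → Prop} [DecidablePred P]
    (hP : ∀ ω, P ω ↔ ω ∈ ZZs n d 2)
    (hErr : ∀ (g : Matrix (Fin 2 × Fin d) (Fin 2 × Fin d) ℂ → Prop),
      (∀ (σ : Equiv.Perm (Fin 2 × Fin d)) (M : Matrix (Fin 2 × Fin d) (Fin 2 × Fin d) ℂ),
        g (M.submatrix σ σ) ↔ g M) →
      ∀ B b : ℝ, 1 ≤ B → 0 ≤ b →
      (∀ ω ∈ ZZs n d 2, g (leadMat ω (FE.zz E η)) → FE.Bdd ω (FE.zz E η) B) →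
      ∀ w w' : SimpleGraph (Fin n) → ℝ, FE.Wt n d b w w' →
      ∃ A : SimpleGraph (Fin n) × StarPos n d 2 → ℝ,
        (∀ ω, ω ∈ ZZs n d 2 ∧ g (leadMat ω (FE.zz E η)) → A ω = FE.EE ω (FE.zz E η)) ∧
        (∀ ω, ¬ (ω ∈ ZZs n d 2 ∧ g (leadMat ω (FE.zz E η))) → A ω = 0) ∧
      avg (WW n d 2) (fun ω => w ω.1 * A ω) ≤
      Ce * B ^ κ * (FE.MW n d w / (n * η) + b * FE.XW n d w' (FE.zz E η))) :
    FE.EW n d w (fun ω => if P ω then FE.EE ω (FE.zz E η) else 0) ≤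
      Ce * Bb d η₁ R ^ κ * (FE.MW n d w / (n * η) + B / n * FE.XW n d w' (FE.zz E η)) := by
  have hR : 0 ≤ R := (abs_nonneg _).trans hE
  obtain ⟨A, hA1, hA2, h⟩ := hErr (fun _ => True) (fun _ _ => Iff.rfl)
    (Bb d η₁ R) (B / n) (one_le_Bb hη₁ hR) (by positivity)
    (fun ω hω _ => bdd_base hω hη₁ h1 h2 hE) w w' hw
  refine le_trans (le_of_eq ?_) h
  unfold FE.EW
  congr 1
  funext ω
  congr 1
  by_cases hPω : P ω
  · rw [hA1 ω ⟨(hP ω).1 hPω, trivial⟩]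
    exact if_pos hPω
  · rw [hA2 ω (fun h => hPω ((hP ω).2 h.1))]
    exact if_neg hPω

lemma bad_base (hn : 0 < n) {w : SimpleGraph (Fin n) → ℝ} (hw : ∀ G, 0 ≤ w G)
    {P : SimpleGraph (Fin n) × StarPos n d 2 → Prop} [DecidablePred P]
    (hP : ∀ ω, P ω ↔ ω ∈ ZZs n d 2) :
    FE.EW n d w (fun ω => if P ω then (0 : ℝ) else 1) ≤
      ((2 ^ 2 * (d + 1) ^ 2 : ℕ) : ℝ) * FE.MW n d w / n := by
  classical
  have h := FE.EW_bad_le (d := d) hn hw
  refine le_trans (le_of_eq ?_) h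
  congr 1
  funext ω
  by_cases hPω : P ω
  · rw [if_pos hPω]
    exact (if_pos ((hP ω).1 hPω)).symm
  · rw [if_neg hPω]
    exact (if_neg (fun h => hPω ((hP ω).2 h))).symm

/-- **FE9.** -/
theorem specBS {a b : ℝ} (hd : 2 ≤ d) (hErr : FE.SpecErr d) : FE.SpecBS d a b := by
  classical
  obtain ⟨q, rfl⟩ : ∃ q, d = q + 1 := ⟨d - 1, by omega⟩
  have hq : 1 ≤ q := by omega
  obtain ⟨Ce, κ, hCe, hErr⟩ := hErr
  intro η₁ hη₁
  have hR : 0 ≤ max |a| |b| := (abs_nonneg a).trans (le_max_left _ _)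
  have hδ0 : 0 < η₁ / (6 * (q : ℝ)) := by
    have : (0 : ℝ) < q := by exact_mod_cast hq
    positivity
  have hBb := one_le_Bb (d := q + 1) hη₁ hR
  have hhb := hb_pos (d := q + 1) hη₁ hR
  have hCrec : 0 ≤ Crec q η₁ (max |a| |b|) (η₁ / (6 * (q : ℝ))) := by unfold Crec; positivity
  have hPm : 0 ≤ Pmax q η₁ (max |a| |b|) := Pmax_nonneg hη₁ hR
  refine ⟨1 + (2 + 4 * ((q : ℝ) + 1) / η₁ * (2 * (q + 1) / η₁) *
      Crec q η₁ (max |a| |b|) (η₁ / (6 * (q : ℝ)))) *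
      ((Ce * Bb (q + 1) η₁ (max |a| |b|) ^ κ) / η₁) +
      (1 + 4 * ((q : ℝ) + 1) / η₁ * (2 * (q + 1) / η₁) * Pmax q η₁ (max |a| |b|)) *
      ((2 ^ 2 * (q + 1 + 1) ^ 2 : ℕ) : ℝ), ?_, ?_⟩
  · have g1 : 0 ≤ (2 + 4 * ((q : ℝ) + 1) / η₁ * (2 * (q + 1) / η₁) *
      Crec q η₁ (max |a| |b|) (η₁ / (6 * (q : ℝ)))) *
      ((Ce * Bb (q + 1) η₁ (max |a| |b|) ^ κ) / η₁) := by positivity
    have g2 : 0 ≤ (1 + 4 * ((q : ℝ) + 1) / η₁ * (2 * (q + 1) / η₁) *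
      Pmax q η₁ (max |a| |b|)) * ((2 ^ 2 * (q + 1 + 1) ^ 2 : ℕ) : ℝ) := by positivity
    linarith
  intro n hn E hE η B h1 h2 hB w w' hw
  have hn0 : 0 < n := by
    have := hn.1
    omega
  have hn' : (0 : ℝ) < n := by exact_mod_cast hn0
  have hη : 0 < η := hη₁.trans_le h1
  have hER : |E| ≤ max |a| |b| := by
    rw [abs_le]
    constructor
    · have := neg_abs_le a
      have h3 := le_max_left |a| |b|
      linarith [hE.1]
    · have := le_abs_self b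
      have h3 := le_max_right |a| |b|
      linarith [hE.2]
  obtain ⟨P, hP⟩ : ∃ P : SimpleGraph (Fin n) × StarPos n (q + 1) 2 → Prop,
      ∀ ω, P ω ↔ ω ∈ ZZs n (q + 1) 2 := ⟨_, fun _ => Iff.rfl⟩
  have e3 := err_base hn0 hη₁ h1 h2 hER hB hw hP (fun g hg B' b' hB' hb' hbd u u' hu =>
    ⟨_, fun ω hω => if_pos hω, fun ω hω => if_neg hω,
      hErr n hn0 E η hη h2 (FE.zz E η) g hg B' b' hB' hb' hbd u u' hu⟩)
  exact bs_arith (by exact_mod_cast hq) hη₁ h1 h2 hn' hB (MW_nonneg hw.nonneg)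
    (XW_nonneg hw.nonneg' _) hCrec hPm (by positivity) (by positivity)
    (vPhi_le hq hn0 hw.nonneg hη₁ h1 h2 hER hP) (XW_le_vPhi hq hn0 hw.nonneg hη₁ h1 h2 hER P)
    e3 (bad_base hn0 hw.nonneg hP)

end

end Vale.Agent.P156.B
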