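import Vale.Agent.P156.H894.FE8R
import Vale.Agent.P156.H574.FE2
import Vale.Agent.P156.H613.C8

/-!
P156, fixed energy upgrade, block FE9: deterministic part of the base scale estimate.
-/

namespace Vale.Agent.P156.B

open Finset H801

noncomputable section

/-- Perturbation of `X² / y`. -/
lemma pert_core {X X' y y' t hl N δ : ℝ} (hhl : 0 < hl) (hy : hl ≤ y) (hy' : hl ≤ y')
    (hX : 0 ≤ X) (hX' : 0 ≤ X') (hXX : X' ≤ X + t) (hyy : y - t ≤ y') (hN : X' ≤ N)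
    (ht : 0 ≤ t) (hδ : 0 < δ) (hδ1 : δ ≤ 1 / 3) :
    X' ^ 2 / y' ≤ (1 + 3 * δ) * (X ^ 2 / y) +
      ((1 + 1 / δ) * (3 / 2) / hl + N ^ 2 / (δ ^ 2 * hl ^ 3)) * t ^ 2 := by
  have hy0 : 0 < y := hhl.trans_le hy
  have hy0' : 0 < y' := hhl.trans_le hy'
  have hN0 : 0 ≤ N := hX'.trans hN
  have hA : 0 ≤ (1 + 1 / δ) * (3 / 2) / hl := by positivity
  have hB : 0 ≤ N ^ 2 / (δ ^ 2 * hl ^ 3) := by positivity
  have hXy : 0 ≤ X ^ 2 / y := by positivity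
  by_cases hc : t ≤ δ * hl
  · have h1 : (1 - δ) * y ≤ y' := by nlinarith
    have h2 : X' ^ 2 ≤ (1 + δ) * X ^ 2 + (1 + 1 / δ) * t ^ 2 := by
      have h3 : X' ^ 2 ≤ (X + t) ^ 2 := by gcongr
      have h4 : 2 * X * t ≤ δ * X ^ 2 + 1 / δ * t ^ 2 := by
        have h5 : 0 ≤ (δ * X - t) ^ 2 / δ := by positivity
        have h6 : (δ * X - t) ^ 2 / δ = δ * X ^ 2 + 1 / δ * t ^ 2 - 2 * X * t := by
          field_simp
          ring
        linarith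
      nlinarith
    have hd1 : 0 < 1 - δ := by linarith
    have h3 : X' ^ 2 / y' ≤ ((1 + δ) * X ^ 2 + (1 + 1 / δ) * t ^ 2) / ((1 - δ) * y) := by
      gcongr
    have h4 : ((1 + δ) * X ^ 2 + (1 + 1 / δ) * t ^ 2) / ((1 - δ) * y) =
        (1 + δ) / (1 - δ) * (X ^ 2 / y) + (1 + 1 / δ) * (1 / (1 - δ)) / y * t ^ 2 := by
      field_simp
    have h5 : (1 + δ) / (1 - δ) ≤ 1 + 3 * δ := by
      rw [div_le_iff₀ hd1]
      nlinarith
    have h6 : 1 / (1 - δ) ≤ 3 / 2 := by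
      rw [div_le_iff₀ hd1]
      linarith
    have h7 : (1 + 1 / δ) * (1 / (1 - δ)) / y ≤ (1 + 1 / δ) * (3 / 2) / hl := by
      gcongr
    rw [h4] at h3
    have h8 := mul_le_mul_of_nonneg_right h5 hXy
    have h9 := mul_le_mul_of_nonneg_right h7 (sq_nonneg t)
    have h10 := mul_nonneg hB (sq_nonneg t)
    rw [add_mul]
    linarith
  · push Not at hc
    have h1 : X' ^ 2 / y' ≤ N ^ 2 / hl := by gcongr
    have h2 : N ^ 2 / hl ≤ N ^ 2 / (δ ^ 2 * hl ^ 3) * t ^ 2 := by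
      have h3 : (δ * hl) ^ 2 ≤ t ^ 2 := by gcongr
      have h4 : N ^ 2 / hl = N ^ 2 / (δ ^ 2 * hl ^ 3) * (δ * hl) ^ 2 := by
        field_simp
      rw [h4]
      gcongr
    have h5 : 0 ≤ (1 + 3 * δ) * (X ^ 2 / y) := by positivity
    have h6 := mul_nonneg hA (sq_nonneg t)
    rw [add_mul]
    linarith

/-- Perturbation of the functional `phi`. -/
lemma phi_pert {m h h' : ℂ} {hl N δ : ℝ} (hhl : 0 < hl) (hm : hl ≤ m.im) (hy : hl ≤ h.im)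
    (hy' : hl ≤ h'.im) (hN : ‖h' - m‖ ≤ N) (hδ : 0 < δ) (hδ1 : δ ≤ 1 / 3) :
    _root_.P156.H613.phi m h' ≤ (1 + 3 * δ) * _root_.P156.H613.phi m h +
      ((1 + 1 / δ) * (3 / 2) / hl + N ^ 2 / (δ ^ 2 * hl ^ 3)) / hl * ‖h' - h‖ ^ 2 := by
  have hm0 : 0 < m.im := hhl.trans_le hm
  have hy0 : 0 < h.im := hhl.trans_le hy
  have hy0' : 0 < h'.im := hhl.trans_le hy'
  have hN0 : 0 ≤ N := (norm_nonneg _).trans hN
  have h1 : ‖h' - m‖ ≤ ‖h - m‖ + ‖h' - h‖ := by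
    have := norm_add_le (h - m) (h' - h)
    rwa [show h - m + (h' - h) = h' - m by ring] at this
  have h2 : h.im - ‖h' - h‖ ≤ h'.im := by
    have h3 := (neg_abs_le (h' - h).im).trans' (neg_le_neg (Complex.abs_im_le_norm (h' - h)))
    rw [Complex.sub_im] at h3
    linarith
  have key := pert_core hhl hy hy' (norm_nonneg (h - m)) (norm_nonneg _) h1 h2 hN
    (norm_nonneg _) hδ hδ1
  unfold _root_.P156.H613.phi
  have e1 : ‖h' - m‖ ^ 2 / (h'.im * m.im) = ‖h' - m‖ ^ 2 / h'.im / m.im := by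
    rw [div_div]
  have e2 : ‖h - m‖ ^ 2 / (h.im * m.im) = ‖h - m‖ ^ 2 / h.im / m.im := by
    rw [div_div]
  rw [e1, e2, ← mul_div_assoc]
  calc ‖h' - m‖ ^ 2 / h'.im / m.im ≤ ((1 + 3 * δ) * (‖h - m‖ ^ 2 / h.im) +
      ((1 + 1 / δ) * (3 / 2) / hl + N ^ 2 / (δ ^ 2 * hl ^ 3)) * ‖h' - h‖ ^ 2) / m.im := by
        gcongr
    _ = (1 + 3 * δ) * (‖h - m‖ ^ 2 / h.im) / m.im +
      ((1 + 1 / δ) * (3 / 2) / hl + N ^ 2 / (δ ^ 2 * hl ^ 3)) / m.im * ‖h' - h‖ ^ 2 := by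
        rw [add_div]
        ring
    _ ≤ _ := by
        gcongr

end

end Vale.Agent.P156.B
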