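import Vale.Agent.P156.B.FE9a

/-!
P156, fixed energy upgrade, block FE9: the recursion at the base scale.
-/

namespace Vale.Agent.P156.B

open Finset H801

noncomputable section

variable {n d : ℕ}

/-- Uniform lower bound of the imaginary parts. -/
def hb (d : ℕ) (η₁ R : ℝ) : ℝ := η₁ / (d + (R + 1) ^ 2)

lemma hb_pos {η₁ R : ℝ} (hη₁ : 0 < η₁) (hR : 0 ≤ R) : 0 < hb d η₁ R := by
  unfold hb; positivity

lemma hb_le {η₁ η R : ℝ} (hη₁ : 0 < η₁) (h1 : η₁ ≤ η) (h2 : η ≤ 1) (hR : 0 ≤ R) :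
    hb d η₁ R ≤ _root_.P156.H613.hlow d η R := by
  unfold hb _root_.P156.H613.hlow
  have : 0 < η := hη₁.trans_le h1
  have h3 : (0 : ℝ) < d + (R + η) ^ 2 := by positivity
  gcongr

/-- Uniform bound of everything at the base scale. -/
def Bb (d : ℕ) (η₁ R : ℝ) : ℝ := 1 / η₁ + (R + 1) + d ^ 2 * (1 / η₁) + 1 / hb d η₁ R

lemma one_le_Bb {η₁ R : ℝ} (hη₁ : 0 < η₁) (hR : 0 ≤ R) : 1 ≤ Bb d η₁ R := by
  unfold Bb
  have := hb_pos (d := d) hη₁ hR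
  have h1 : 0 ≤ 1 / η₁ := by positivity
  have h2 : 0 ≤ 1 / hb d η₁ R := by positivity
  have h3 : 0 ≤ (d : ℝ) ^ 2 * (1 / η₁) := by positivity
  linarith

lemma hc_base {G : SimpleGraph (Fin n)} (hG : G ∈ regularGraphs n d) {E η η₁ R : ℝ}
    (hη₁ : 0 < η₁) (h1 : η₁ ≤ η) (h2 : η ≤ 1) (hE : |E| ≤ R) {e : Fin n × Fin n}
    (he : e.1 ≠ e.2) :
    ‖hc G (FE.zz E η) e‖ ≤ 1 / η₁ ∧ hb d η₁ R ≤ (hc G (FE.zz E η) e).im := by
  have h := _root_.P156.H613.hc_range hG (hη₁.trans_le h1) hE he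
  refine ⟨h.1.trans ?_, (hb_le hη₁ h1 h2 ((abs_nonneg _).trans hE)).trans h.2⟩
  gcongr

lemma norm_resD_base (G : SimpleGraph (Fin n)) (D : Finset (Fin n)) (E : ℝ) {η η₁ : ℝ}
    (hη₁ : 0 < η₁) (h1 : η₁ ≤ η) (h2 : η ≤ 1) (x y : Fin n) :
    ‖resD (adj G) D (FE.zz E η) x y‖ ≤ 1 / η₁ := by
  refine (norm_resD_le (adj_isHermitian G) D E (hη₁.trans_le h1) x y).trans ?_
  refine max_le ?_ ?_
  · rw [le_div_iff₀ hη₁]
    linarith
  · gcongr

/-- Everything is bounded at the base scale. -/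
lemma bdd_base {ω : SimpleGraph (Fin n) × StarPos n d 2} (hω : ω ∈ ZZs n d 2) {E η η₁ R : ℝ}
    (hη₁ : 0 < η₁) (h1 : η₁ ≤ η) (h2 : η ≤ 1) (hE : |E| ≤ R) :
    FE.Bdd ω (FE.zz E η) (Bb d η₁ R) := by
  have hR : 0 ≤ R := (abs_nonneg _).trans hE
  have hη : 0 < η := hη₁.trans_le h1
  have hz : 0 < (FE.zz E η).im := by simpa using hη
  have hb0 := hb_pos (d := d) hη₁ hR
  have g1 : 0 ≤ 1 / η₁ := by positivity
  have g2 : 0 ≤ 1 / hb d η₁ R := by positivity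
  have g3 : 0 ≤ (d : ℝ) ^ 2 * (1 / η₁) := by positivity
  have hle : 1 / η₁ ≤ Bb d η₁ R := by unfold Bb; linarith
  have hzn : ‖FE.zz E η‖ ≤ R + 1 := by
    have := H574.norm_zz_le E hη.le h2
    linarith
  have hL : ∀ p r, ‖leadMat ω (FE.zz E η) p r‖ ≤ 1 / η₁ :=
    fun p r => norm_resD_base _ _ E hη₁ h1 h2 _ _
  have hS : ∀ j p r, ‖leadMat (FE.sub1 ω j) (FE.zz E η) p r‖ ≤ 1 / η₁ :=
    fun j p r => norm_resD_base _ _ E hη₁ h1 h2 _ _
  have hcen : ‖FE.zz E η‖ + (d : ℝ) ^ 2 * (1 / η₁) ≤ Bb d η₁ R := by unfold Bb; linarith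
  refine ⟨fun p r => (hL p r).trans hle, fun x y => ?_, fun i j => ?_, fun j => ?_,
    fun j p r => (hS j p r).trans hle, fun j p => ?_⟩
  · exact (norm_resD_base _ _ E hη₁ h1 h2 _ _).trans hle
  · exact (H574.centre_inv_le hω hz hL i j).trans hcen
  · have h3 := H574.centre_inv_le (H574.sub1_mem hω j) hz (hS j) 0 0
    rw [H574.centre_sub1_inv] at h3
    exact h3.trans hcen
  · have hG : ω.1 ∈ regularGraphs n d := mem_regularGraphs.2 (mem_WW.1 (mem_ZZs.1 hω).1).1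
    obtain ⟨j', p⟩ := p
    obtain rfl : j' = 0 := Subsingleton.elim _ _
    have hne : ω.2.1 j ≠ ω.2.2 j p := fun h => H520.ZZs_ne hω j p j h.symm
    have h3 := (hc_base hG hη₁ h1 h2 hE (e := (ω.2.1 j, ω.2.2 j p)) hne).2
    rw [FE.hc_eq_sub1] at h3
    have h4 : hb d η₁ R ≤ ‖leadMat (FE.sub1 ω j) (FE.zz E η) (0, p) (0, p)‖ :=
      h3.trans ((le_abs_self _).trans (Complex.abs_im_le_norm _))
    rw [norm_inv]
    have h5 : ‖leadMat (FE.sub1 ω j) (FE.zz E η) (0, p) (0, p)‖⁻¹ ≤ 1 / hb d η₁ R := by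
      rw [one_div]
      gcongr
    refine h5.trans ?_
    unfold Bb
    linarith

lemma isM_mm {q : ℕ} (hq : 1 ≤ q) {E η : ℝ} (hη : 0 < η) :
    _root_.P156.H613.IsM q (FE.zz E η) (FE.mm (q + 1) (FE.zz E η)) :=
  _root_.P156.H613.mz_isM hq (by simpa using hη)

/-- Constant of the recursion. -/
def Crec (q : ℕ) (η₁ R δ : ℝ) : ℝ :=
  ((1 + 1 / δ) * (3 / 2) / η₁ + (1 / hb (q + 1) η₁ R + (R + 1 + q)) ^ 2 / (δ ^ 2 * η₁ ^ 3)) / η₁ *
    (2 * (q + 1) ^ 4 * Bb (q + 1) η₁ R ^ 4)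

/-- **The recursion at the base scale.** -/
theorem phi_rec {q : ℕ} (hq : 1 ≤ q) {ω : SimpleGraph (Fin n) × StarPos n (q + 1) 2}
    (hω : ω ∈ ZZs n (q + 1) 2) {E η η₁ R δ : ℝ} (hη₁ : 0 < η₁) (h1 : η₁ ≤ η) (h2 : η ≤ 1)
    (hE : |E| ≤ R) (hδ : 0 < δ) (hδ1 : δ ≤ 1 / 3) (j : Fin 2) :
    _root_.P156.H613.phi (FE.mm (q + 1) (FE.zz E η))
      (hc ω.1 (FE.zz E η) (ω.2.2 j (Fin.last q), ω.2.1 j)) ≤
    (1 + 3 * δ) * ((FE.mm (q + 1) (FE.zz E η)).im /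
        (η + q * (FE.mm (q + 1) (FE.zz E η)).im) *
      ∑ k : Fin q, _root_.P156.H613.phi (FE.mm (q + 1) (FE.zz E η))
        (hc ω.1 (FE.zz E η) (ω.2.1 j, ω.2.2 j k.castSucc))) +
      Crec q η₁ R δ * FE.EE ω (FE.zz E η) := by
  have hR : 0 ≤ R := (abs_nonneg _).trans hE
  have hη : 0 < η := hη₁.trans_le h1
  have hIs := isM_mm hq (E := E) hη
  have hm := hIs.im_pos
  have hzi : (FE.zz E η).im = η := by simp
  have hG : ω.1 ∈ regularGraphs n (q + 1) :=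
    mem_regularGraphs.2 (mem_WW.1 (mem_ZZs.1 hω).1).1
  set z := FE.zz E η with hz
  set m := FE.mm (q + 1) z with hmdef
  have hne : ∀ p, ω.2.1 j ≠ ω.2.2 j p := fun p h => H520.ZZs_ne hω j p j h.symm
  have hzn : ‖z‖ ≤ R + 1 := by
    have := H574.norm_zz_le E hη.le h2
    linarith
  -- the denominators
  set h := fun k : Fin q => leadMat (FE.sub1 ω j) z (0, k.castSucc) (0, k.castSucc) with hh
  have hhc : ∀ k : Fin q, hc ω.1 z (ω.2.1 j, ω.2.2 j k.castSucc) = h k :=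
    fun k => FE.hc_eq_sub1 ω z j k.castSucc
  have hhim : ∀ k, 0 < (h k).im := by
    intro k
    rw [← hhc]
    exact (hb_pos hη₁ hR).trans_le (hc_base hG hη₁ h1 h2 hE (hne _)).2
  have hsim : 0 ≤ ∑ k, (h k).im := Finset.sum_nonneg fun k _ => (hhim k).le
  have hg0im : η₁ ≤ (z + ∑ k, h k).im := by
    rw [Complex.add_im, Complex.im_sum, hzi]
    linarith
  have hgAim : η₁ ≤ (gA ω z j).im := by
    have h3 := FE.im_gA_sub_nonneg hω E hη j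
    rw [Complex.sub_im, ← hz, hzi] at h3
    linarith
  have hmim : η₁ ≤ (-1 / m).im := by
    rw [hIs.neg_inv, _root_.P156.H613.IsM.im_add, hzi]
    have : 0 ≤ (q : ℝ) * m.im := by positivity
    linarith
  -- the norms
  have hmul := hc_eA_mul hω (z := z) (by rw [hzi]; exact hη.ne') j
  have hcn : hb (q + 1) η₁ R ≤ ‖hc ω.1 z (ω.2.2 j (Fin.last q), ω.2.1 j)‖ :=
    (hc_base hG hη₁ h1 h2 hE (e := (ω.2.2 j (Fin.last q), ω.2.1 j)) (hne _).symm).2.trans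
      ((le_abs_self _).trans (Complex.abs_im_le_norm _))
  have hgAn : ‖gA ω z j‖ ≤ 1 / hb (q + 1) η₁ R := by
    have h3 : ‖hc ω.1 z (ω.2.2 j (Fin.last q), ω.2.1 j)‖ * ‖gA ω z j‖ = 1 := by
      rw [← norm_mul]
      have h4 : hc ω.1 z (ω.2.2 j (Fin.last q), ω.2.1 j) * gA ω z j = -1 := hmul
      rw [h4]
      simp
    rw [le_div_iff₀ (hb_pos hη₁ hR), mul_comm, ← h3]
    gcongr
  have hN : ‖gA ω z j - -1 / m‖ ≤ 1 / hb (q + 1) η₁ R + (R + 1 + q) := by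
    refine (norm_sub_le _ _).trans (add_le_add hgAn ?_)
    rw [hIs.neg_inv]
    refine (norm_add_le _ _).trans (add_le_add hzn ?_)
    rw [norm_mul, Complex.norm_natCast]
    have h3 := hIs.norm_le_one (by rw [hzi]; exact hη.le) hq
    have h4 : (0 : ℝ) ≤ q := Nat.cast_nonneg q
    nlinarith
  -- the difference
  have hBdd := bdd_base hω hη₁ h1 h2 hE
  have hB1 : 1 ≤ Bb (q + 1) η₁ R := one_le_Bb hη₁ hR
  have hdiff := FE.norm_gA_sub_le hω E hη j hB1 (fun p r => hBdd.sub j p r)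
    (fun p => hBdd.subinv j p)
  rw [← hz] at hdiff
  set OFF := ∑ p, ∑ r, (if p = r then 0 else ‖leadMat (FE.sub1 ω j) z (0, p) (0, r)‖) with hOFF
  have hOFF0 : 0 ≤ OFF := by
    refine Finset.sum_nonneg fun p _ => Finset.sum_nonneg fun r _ => ?_
    split_ifs
    · exact le_rfl
    · exact norm_nonneg _
  have h6 : OFF ^ 2 ≤ (q + 1) ^ 2 * (2 * FE.EE ω z) := by
    have := FE.sq_sum_sum_le (fun p r : Fin (q + 1) =>
      if p = r then 0 else ‖leadMat (FE.sub1 ω j) z (0, p) (0, r)‖)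
    rw [Fintype.card_fin] at this
    push_cast at this
    exact this.trans (mul_le_mul_of_nonneg_left (FE.off_sub_le ω z j) (by positivity))
  have hd2 : ‖gA ω z j - (z + ∑ k, h k)‖ ^ 2 ≤
      2 * (q + 1) ^ 4 * Bb (q + 1) η₁ R ^ 4 * FE.EE ω z := by
    have e1 : gA ω z j - (z + ∑ k, h k) = (gA ω z j - z) - ∑ k, h k := by ring
    rw [e1]
    calc ‖(gA ω z j - z) - ∑ k, h k‖ ^ 2 ≤ ((q + 1) * Bb (q + 1) η₁ R ^ 2 * OFF) ^ 2 := by
          gcongr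
      _ = (q + 1) ^ 2 * Bb (q + 1) η₁ R ^ 4 * OFF ^ 2 := by ring
      _ ≤ (q + 1) ^ 2 * Bb (q + 1) η₁ R ^ 4 * ((q + 1) ^ 2 * (2 * FE.EE ω z)) := by gcongr
      _ = _ := by ring
  -- assembly
  have hgApos : 0 < (gA ω z j).im := hη₁.trans_le hgAim
  have hg0pos : 0 < (z + ∑ k, h k).im := hη₁.trans_le hg0im
  have e2 : hc ω.1 z (ω.2.2 j (Fin.last q), ω.2.1 j) = -1 / gA ω z j := by
    have h3 := FE.hc_last hω E hη j
    rw [add_sub_cancel] at h3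
    exact h3
  simp only [hhc]
  rw [e2, _root_.P156.H613.phi_neg_inv hm hgApos]
  refine (phi_pert hη₁ hmim hg0im hgAim hN hδ hδ1).trans ?_
  rw [← _root_.P156.H613.phi_neg_inv hm hg0pos]
  have hcon := _root_.P156.H613.phi_contract hIs (by rw [hzi]; exact hη) h hhim
  rw [hzi] at hcon
  refine add_le_add (mul_le_mul_of_nonneg_left hcon (by positivity)) ?_
  unfold Crec
  rw [mul_assoc]
  have hb0 := hb_pos (d := q + 1) hη₁ hR
  refine mul_le_mul_of_nonneg_left hd2 (by positivity)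

end

end Vale.Agent.P156.B
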