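import Mathlib

/-!
P156, Part B: patterns, cutting and gluing, the switching bijection.

A pattern consists of a finite set `I` of internal vertices with a graph `F` on it, a finite set `L`
of leads and a map `base : L → I`. An embedding in a `d`-regular graph `G` on `V` is a pair
`x : I → V`, `l : L → V`, jointly injective, such that the neighbours of `x i` are the `x j` with
`F.Adj i j` and the `l a` with `base a = i`.
-/

namespace Vale.Agent.P156.B

open Finset

/-- The graph `G` with all edges meeting `range x` deleted. -/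
def cut {V I : Type*} (G : SimpleGraph V) (x : I → V) : SimpleGraph V where
  Adj u v := G.Adj u v ∧ (∀ i, x i ≠ u) ∧ ∀ i, x i ≠ v
  symm := ⟨fun _ _ h => ⟨h.1.symm, h.2.2, h.2.1⟩⟩
  loopless := ⟨fun _ h => h.1.ne rfl⟩

/-- The graph `H` with the edges of the pattern added. -/
def glue {V I L : Type*} (F : SimpleGraph I) (base : L → I) (H : SimpleGraph V) (x : I → V)
    (l : L → V) : SimpleGraph V where
  Adj u v := u ≠ v ∧ (H.Adj u v ∨ (∃ i j, F.Adj i j ∧ x i = u ∧ x j = v) ∨
    (∃ a, x (base a) = u ∧ l a = v) ∨ ∃ a, x (base a) = v ∧ l a = u)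
  symm := ⟨by
    rintro u v ⟨hne, h | ⟨i, j, hij, hi, hj⟩ | ⟨a, h1, h2⟩ | ⟨a, h1, h2⟩⟩
    · exact ⟨hne.symm, Or.inl h.symm⟩
    · exact ⟨hne.symm, Or.inr (Or.inl ⟨j, i, hij.symm, hj, hi⟩)⟩
    · exact ⟨hne.symm, Or.inr (Or.inr (Or.inr ⟨a, h1, h2⟩))⟩
    · exact ⟨hne.symm, Or.inr (Or.inr (Or.inl ⟨a, h1, h2⟩))⟩⟩
  loopless := ⟨fun _ h => h.1 rfl⟩

/-- `(x, l)` is an embedding of the pattern `(F, base)` in `G`. -/
structure Emb {V I L : Type*} (F : SimpleGraph I) (base : L → I) (G : SimpleGraph V) (x : I → V)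
    (l : L → V) : Prop where
  inj : Function.Injective (Sum.elim x l)
  adj : ∀ i j, G.Adj (x i) (x j) ↔ F.Adj i j
  lead : ∀ a, G.Adj (x (base a)) (l a)

/-- The neighbours of the internal vertex `i` in the pattern. -/
def star {I L : Type*} (F : SimpleGraph I) (base : L → I) (i : I) : Set (I ⊕ L) :=
  {p | Sum.elim (fun j => F.Adj i j) (fun a => base a = i) p}

/-- The degree condition of a pattern. -/
def DegCond {I L : Type*} (F : SimpleGraph I) (base : L → I) (d : ℕ) : Prop :=
  ∀ i, (star F base i).ncard = d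

/-- `d`-regularity. -/
def Reg {V : Type*} (d : ℕ) (G : SimpleGraph V) : Prop := ∀ v, (G.neighborSet v).ncard = d

section

variable {V I L : Type*} [Finite V] {F : SimpleGraph I} {base : L → I} {G H : SimpleGraph V}
  {x : I → V} {l : L → V} {d : ℕ}

omit [Finite V] in
lemma Emb.inj_x (h : Emb F base G x l) {i j : I} (hij : x i = x j) : i = j := by
  have := h.inj (a₁ := Sum.inl i) (a₂ := Sum.inl j) hij
  exact Sum.inl_injective this

omit [Finite V] in
lemma Emb.inj_l (h : Emb F base G x l) {a b : L} (hab : l a = l b) : a = b := by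
  have := h.inj (a₁ := Sum.inr a) (a₂ := Sum.inr b) hab
  exact Sum.inr_injective this

omit [Finite V] in
lemma Emb.ne (h : Emb F base G x l) (i : I) (a : L) : x i ≠ l a := by
  intro hia
  have := h.inj (a₁ := Sum.inl i) (a₂ := Sum.inr a) hia
  exact Sum.inl_ne_inr this

lemma Emb.neighborSet_x (h : Emb F base G x l) (hG : Reg d G) (hd : DegCond F base d) (i : I) :
    G.neighborSet (x i) = Sum.elim x l '' star F base i := by
  symm
  apply Set.eq_of_subset_of_ncard_le
  · rintro _ ⟨p, hp, rfl⟩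
    rcases p with j | a
    · exact (h.adj i j).2 hp
    · have : base a = i := hp
      rw [← this]
      exact h.lead a
  · rw [hG, Set.ncard_image_of_injective _ h.inj, hd]
  · exact Set.toFinite _

lemma Emb.glue_cut (h : Emb F base G x l) (hG : Reg d G) (hd : DegCond F base d) :
    glue F base (cut G x) x l = G := by
  have key : ∀ i v, G.Adj (x i) v → (∃ j, F.Adj i j ∧ x j = v) ∨ ∃ a, base a = i ∧ l a = v := by
    intro i v hv
    have : v ∈ G.neighborSet (x i) := hv
    rw [h.neighborSet_x hG hd] at this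
    obtain ⟨p, hp, rfl⟩ := this
    rcases p with j | a
    · exact Or.inl ⟨j, hp, rfl⟩
    · exact Or.inr ⟨a, hp, rfl⟩
  ext u v
  constructor
  · rintro ⟨hne, h1 | ⟨i, j, hij, hi, hj⟩ | ⟨a, h1, h2⟩ | ⟨a, h1, h2⟩⟩
    · exact h1.1
    · subst hi hj
      exact (h.adj i j).2 hij
    · subst h1 h2
      exact h.lead a
    · subst h1 h2
      exact (h.lead a).symm
  · intro huv
    refine ⟨huv.ne, ?_⟩
    by_cases hu : ∃ i, x i = u
    · obtain ⟨i, rfl⟩ := hu
      rcases key i v huv with ⟨j, hij, hj⟩ | ⟨a, ha, hv⟩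
      · exact Or.inr (Or.inl ⟨i, j, hij, rfl, hj⟩)
      · exact Or.inr (Or.inr (Or.inl ⟨a, by rw [ha], hv⟩))
    · by_cases hv : ∃ i, x i = v
      · obtain ⟨i, rfl⟩ := hv
        rcases key i u huv.symm with ⟨j, hij, hj⟩ | ⟨a, ha, hv⟩
        · exact Or.inr (Or.inl ⟨j, i, hij.symm, hj, rfl⟩)
        · exact Or.inr (Or.inr (Or.inr ⟨a, by rw [ha], hv⟩))
      · push Not at hu hv
        exact Or.inl ⟨huv, hu, hv⟩

/-- The conditions on the cut graph. -/
def NoEdge (H : SimpleGraph V) (x : I → V) : Prop := ∀ i v, ¬ H.Adj (x i) v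

omit [Finite V] in
lemma noEdge_cut (G : SimpleGraph V) (x : I → V) : NoEdge (cut G x) x := fun i _ h => h.2.1 i rfl

omit [Finite V] in
lemma cut_glue (hH : NoEdge H x) (l : L → V) : cut (glue F base H x l) x = H := by
  ext u v
  constructor
  · rintro ⟨⟨hne, h1 | ⟨i, j, hij, hi, hj⟩ | ⟨a, h1, h2⟩ | ⟨a, h1, h2⟩⟩, hu, hv⟩
    · exact h1
    · exact absurd hi (hu i)
    · exact absurd h1 (hu _)
    · exact absurd h1 (hv _)
  · intro h
    refine ⟨⟨h.ne, Or.inl h⟩, ?_, ?_⟩
    · rintro i rfl
      exact hH i v h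
    · rintro i rfl
      exact hH i u h.symm

omit [Finite V] in
lemma emb_glue (hH : NoEdge H x) (hinj : Function.Injective (Sum.elim x l)) :
    Emb F base (glue F base H x l) x l where
  inj := hinj
  adj i j := by
    constructor
    · rintro ⟨hne, h1 | ⟨i', j', hij, hi, hj⟩ | ⟨a, h1, h2⟩ | ⟨a, h1, h2⟩⟩
      · exact absurd h1 (hH i _)
      · have e1 : i' = i := Sum.inl_injective (hinj (a₁ := Sum.inl i') (a₂ := Sum.inl i) hi)
        have e2 : j' = j := Sum.inl_injective (hinj (a₁ := Sum.inl j') (a₂ := Sum.inl j) hj)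
        rwa [e1, e2] at hij
      · exact absurd (hinj (a₁ := Sum.inr a) (a₂ := Sum.inl j) h2) Sum.inr_ne_inl
      · exact absurd (hinj (a₁ := Sum.inr a) (a₂ := Sum.inl i) h2) Sum.inr_ne_inl
    · intro h
      refine ⟨?_, Or.inr (Or.inl ⟨i, j, h, rfl, rfl⟩)⟩
      intro hij
      have : i = j := Sum.inl_injective (hinj (a₁ := Sum.inl i) (a₂ := Sum.inl j) hij)
      exact h.ne this
  lead a := by
    refine ⟨?_, Or.inr (Or.inr (Or.inl ⟨a, rfl, rfl⟩))⟩
    intro h
    exact Sum.inl_ne_inr (hinj (a₁ := Sum.inl (base a)) (a₂ := Sum.inr a) h)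

omit [Finite V] in
/-- The neighbours of an internal vertex in the glued graph. -/
lemma neighborSet_glue_x (hH : NoEdge H x) (hinj : Function.Injective (Sum.elim x l)) (i : I) :
    (glue F base H x l).neighborSet (x i) = Sum.elim x l '' star F base i := by
  ext v
  constructor
  · rintro ⟨hne, h1 | ⟨i', j', hij, hi, hj⟩ | ⟨a, h1, h2⟩ | ⟨a, h1, h2⟩⟩
    · exact absurd h1 (hH i _)
    · have e1 : i' = i := Sum.inl_injective (hinj (a₁ := Sum.inl i') (a₂ := Sum.inl i) hi)
      rw [e1] at hij
      exact ⟨Sum.inl j', hij, hj⟩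
    · have e1 : base a = i :=
        Sum.inl_injective (hinj (a₁ := Sum.inl (base a)) (a₂ := Sum.inl i) h1)
      exact ⟨Sum.inr a, e1, h2⟩
    · exact absurd (hinj (a₁ := Sum.inr a) (a₂ := Sum.inl i) h2) Sum.inr_ne_inl
  · rintro ⟨p, hp, rfl⟩
    rcases p with j | a
    · exact ((emb_glue (F := F) (base := base) hH hinj).adj i j).2 hp
    · have h1 : base a = i := hp
      rw [← h1]
      exact (emb_glue (F := F) (base := base) hH hinj).lead a

open Classical in
/-- The degree of a vertex outside `range x` in the glued graph. -/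
lemma ncard_neighborSet_glue (hH : NoEdge H x) (hinj : Function.Injective (Sum.elim x l)) {u : V}
    (hu : ∀ i, x i ≠ u) :
    ((glue F base H x l).neighborSet u).ncard =
      (H.neighborSet u).ncard + if u ∈ Set.range l then 1 else 0 := by
  split_ifs with hul
  · obtain ⟨a, rfl⟩ := hul
    have h1 : (glue F base H x l).neighborSet (l a) =
        insert (x (base a)) (H.neighborSet (l a)) := by
      ext v
      constructor
      · rintro ⟨hne, h1 | ⟨i', j', hij, hi, hj⟩ | ⟨b, h1, h2⟩ | ⟨b, h1, h2⟩⟩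
        · exact Set.mem_insert_of_mem _ h1
        · exact absurd hi (hu _)
        · exact absurd h1 (hu _)
        · have e1 : b = a := Sum.inr_injective (hinj (a₁ := Sum.inr b) (a₂ := Sum.inr a) h2)
          rw [e1] at h1
          rw [← h1]
          exact Set.mem_insert _ _
      · intro hv
        rcases Set.mem_insert_iff.1 hv with hv | hv
        · rw [hv]
          exact (((emb_glue (F := F) (base := base) hH hinj).lead a)).symm
        · exact ⟨SimpleGraph.Adj.ne hv, Or.inl hv⟩
    rw [h1, Set.ncard_insert_of_notMem _ (Set.toFinite _)]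
    intro h2
    exact hH _ _ (SimpleGraph.Adj.symm h2)
  · have h1 : (glue F base H x l).neighborSet u = H.neighborSet u := by
      ext v
      constructor
      · rintro ⟨hne, h1 | ⟨i', j', hij, hi, hj⟩ | ⟨b, h1, h2⟩ | ⟨b, h1, h2⟩⟩
        · exact h1
        · exact absurd hi (hu _)
        · exact absurd h1 (hu _)
        · exact absurd ⟨b, h2⟩ hul
      · intro hv
        exact ⟨SimpleGraph.Adj.ne hv, Or.inl hv⟩
    rw [h1, add_zero]

omit [Finite V] in
lemma sum_elim_comp (x : I → V) (l : L → V) (σ : Equiv.Perm L) :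
    Sum.elim x (l ∘ σ) = Sum.elim x l ∘ Sum.map id σ := by
  funext p
  rcases p with i | a <;> rfl

omit [Finite V] in
lemma inj_comp (hinj : Function.Injective (Sum.elim x l)) (σ : Equiv.Perm L) :
    Function.Injective (Sum.elim x (l ∘ σ)) := by
  rw [sum_elim_comp]
  exact hinj.comp (Function.Injective.sumMap Function.injective_id σ.injective)

/-- The switched graph is regular. -/
lemma reg_switch (h : Emb F base G x l) (hG : Reg d G) (hd : DegCond F base d)
    (σ : Equiv.Perm L) : Reg d (glue F base (cut G x) x (l ∘ σ)) := by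
  classical
  intro u
  have hH := noEdge_cut G x
  have hinj := inj_comp h.inj σ
  by_cases hu : ∃ i, x i = u
  · obtain ⟨i, rfl⟩ := hu
    rw [neighborSet_glue_x hH hinj, Set.ncard_image_of_injective _ hinj, hd]
  · push Not at hu
    have h1 := ncard_neighborSet_glue (F := F) (base := base) hH h.inj hu
    have h2 := ncard_neighborSet_glue (F := F) (base := base) hH hinj hu
    rw [h.glue_cut hG hd, hG] at h1
    rw [h2, h1]
    congr 1
    rw [show Set.range (l ∘ σ) = Set.range l from σ.surjective.range_comp l]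

end

section Sum

variable {V I L : Type*} [Fintype V] [DecidableEq V] [Fintype I] [DecidableEq I] [Fintype L]
  [DecidableEq L]

open Classical in
/-- The set of all embeddings of the pattern in all `d`-regular graphs on `V`. -/
noncomputable def Z (d : ℕ) (F : SimpleGraph I) (base : L → I) :
    Finset (SimpleGraph V × (I → V) × (L → V)) :=
  univ.filter fun p => Reg d p.1 ∧ Emb F base p.1 p.2.1 p.2.2

lemma mem_Z {d : ℕ} {F : SimpleGraph I} {base : L → I} {p : SimpleGraph V × (I → V) × (L → V)} :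
    p ∈ Z d F base ↔ Reg d p.1 ∧ Emb F base p.1 p.2.1 p.2.2 := by
  simp [Z]

/-- **Exchangeability of the leads** (the switching bijection): the law of the cut graph together
with the positions is invariant under all permutations of the leads. -/
theorem sum_switch {M : Type*} [AddCommMonoid M] {d : ℕ} {F : SimpleGraph I} {base : L → I}
    (hd : DegCond F base d) (σ : Equiv.Perm L)
    (Φ : SimpleGraph V → (I → V) → (L → V) → M) :
    ∑ p ∈ Z (V := V) d F base, Φ (cut p.1 p.2.1) p.2.1 (p.2.2 ∘ σ) =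
      ∑ p ∈ Z (V := V) d F base, Φ (cut p.1 p.2.1) p.2.1 p.2.2 := by
  let T : Equiv.Perm L → SimpleGraph V × (I → V) × (L → V) → SimpleGraph V × (I → V) × (L → V) :=
    fun σ p => (glue F base (cut p.1 p.2.1) p.2.1 (p.2.2 ∘ σ), p.2.1, p.2.2 ∘ σ)
  have hT : ∀ σ : Equiv.Perm L, ∀ p ∈ Z (V := V) d F base, T σ p ∈ Z (V := V) d F base := by
    intro σ p hp
    rw [mem_Z] at hp ⊢
    exact ⟨reg_switch hp.2 hp.1 hd σ, emb_glue (noEdge_cut _ _) (inj_comp hp.2.inj σ)⟩
  have hTT : ∀ σ : Equiv.Perm L, ∀ p ∈ Z (V := V) d F base, T σ⁻¹ (T σ p) = p := by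
    intro σ p hp
    rw [mem_Z] at hp
    obtain ⟨G, x, l⟩ := p
    have e1 : (l ∘ σ) ∘ (σ⁻¹ : Equiv.Perm L) = l := by
      funext a
      simp
    simp only [T, cut_glue (noEdge_cut _ _), e1]
    rw [hp.2.glue_cut hp.1 hd]
  refine Finset.sum_nbij' (T σ) (T σ⁻¹) (hT σ) (hT σ⁻¹) (hTT σ) ?_ ?_
  · intro p hp
    have := hTT σ⁻¹ p hp
    rwa [inv_inv] at this
  · intro p hp
    simp only [T, cut_glue (noEdge_cut _ _)]

end Sum

end Vale.Agent.P156.B
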